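import Vale.Agent.P165.FQ.Chains
import Vale.Agent.P165.FP.Codes

/-!
# The exponents, the short chains below the parameter, and thinning

The failure of the code bound is an open condition in the parameter, so the chains can be built
slightly below it and raised. Thinning bounds short connections by those at a smaller parameter.
-/

namespace Vale.Agent.P165.FQ

open Finset FF Vale.Agent.P165.FP

variable {α : Type} [DecidableEq α]

/-- Keeping each open edge with probability `q` multiplies the parameter by `q`. -/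
theorem avg_thin (E : Finset α) (p q : ℝ) : ∀ f : Finset α → ℝ,
    avg E (p * q) f = avg E p fun η => avg η q f := by
  induction E using Finset.induction with
  | empty => intro f; simp [avg, wt]
  | @insert e E he ih =>
    intro f
    rw [avg_insert he, avg_insert he, ih, ih, avg_congr E p
      (f := fun η => avg (insert e η) q f)
      (g := fun η => (1 - q) * avg η q f + q * avg η q fun x => f (insert e x))
      fun η hη => avg_insert (fun h => he (hη h)) q f, avg_add, avg_mul, avg_mul]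
    ring

variable {V ι : Type} [DecidableEq V] [Fintype ι] {nb : V → ι → V}

/-- A connection of at most `n` steps survives thinning with probability at least `q ^ n`. -/
theorem thin_hitN (S : Finset V) {p q : ℝ} (h0 : 0 ≤ p) (h1 : p ≤ 1) (hq : 0 ≤ q) (hq1 : q ≤ 1)
    (a : V) (T : Set V) (n : ℕ) : q ^ n * hitN nb S p a T n ≤ hitN nb S (p * q) a T n := by
  classical
  rw [hitN, hitN, avg_thin, ← avg_mul]
  refine avg_mono _ h0 h1 fun η _ => ?_
  by_cases h : HitN T n a η
  swap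
  · rw [show ind (HitN T n a η) = 0 from if_neg h, mul_zero]
    exact avg_nonneg _ hq hq1 fun _ _ => ind_nonneg _
  obtain ⟨t, ht, w, hw⟩ := h
  have hA : w.edges.toFinset ⊆ η := fun e he => by
    have := w.edges_subset_edgeSet (List.mem_toFinset.1 he)
    rw [SimpleGraph.edgeSet_fromEdgeSet] at this
    exact this.1
  refine (mul_le_of_le_one_right (pow_nonneg hq n) (ind_le_one _)).trans
    ((pow_le_pow_of_le_one hq hq1 ((w.edges.toFinset_card_le).trans
      (w.length_edges.trans_le hw))).trans ((pow_card_le _ hq hq1 hA).trans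
        (avg_mono _ hq hq1 fun ξ _ => ind_mono fun hξ => ?_)))
  exact ⟨t, ht, w.transfer _ fun e he => by
    rw [SimpleGraph.edgeSet_fromEdgeSet]
    refine ⟨hξ (List.mem_toFinset.2 he), ?_⟩
    have := w.edges_subset_edgeSet he
    rw [SimpleGraph.edgeSet_fromEdgeSet] at this
    exact this.2, by simpa using hw⟩

/-- A subexponential quantity at logarithmic range is below every power. -/
theorem log_range_le {B : ℕ → ℝ} (hB0 : ∀ n, 0 ≤ B n)
    (hB : ∀ η : ℝ, 0 < η → ∃ K : ℝ, ∀ n : ℕ, B n ≤ K * Real.exp (η * n)) (C : ℕ) {δ : ℝ}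
    (hδ : 0 < δ) : ∃ M : ℝ, 0 ≤ M ∧ ∀ L : ℕ, 1 ≤ L →
      ((C * (Nat.log 2 L + 1) : ℕ) + 1 : ℝ) * B (C * (Nat.log 2 L + 1)) ≤ M * (L : ℝ) ^ δ := by
  have hl2 : (0 : ℝ) < Real.log 2 := Real.log_pos one_lt_two
  set η : ℝ := δ * Real.log 2 / (2 * ((C : ℝ) + 1)) with hη
  have hη0 : 0 < η := by positivity
  obtain ⟨K, hK⟩ := hB η hη0
  have hK0 : 0 ≤ K := by
    have := (hB0 0).trans (hK 0)
    simpa using this
  refine ⟨(1 / η + 1) * K * Real.exp (2 * η * C), by positivity, fun L hL => ?_⟩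
  set g : ℕ := Nat.log 2 L with hg
  set n : ℕ := C * (g + 1) with hn
  have hn0 : (0 : ℝ) ≤ n := Nat.cast_nonneg n
  have h1 : (n : ℝ) + 1 ≤ (1 / η + 1) * Real.exp (η * n) := by
    have h2 := Real.add_one_le_exp (η * (n : ℝ))
    have h3 : 1 ≤ Real.exp (η * (n : ℝ)) := Real.one_le_exp (by positivity)
    have h4 : (n : ℝ) ≤ 1 / η * Real.exp (η * n) := by
      rw [div_mul_eq_mul_div, one_mul, le_div_iff₀ hη0]
      nlinarith
    nlinarith
  have h5 : Real.exp (2 * η * n) ≤ Real.exp (2 * η * C) * (L : ℝ) ^ δ := by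
    have hLr : (0 : ℝ) < L := by exact_mod_cast hL
    rw [Real.rpow_def_of_pos hLr, ← Real.exp_add, Real.exp_le_exp]
    have hgl : (g : ℝ) * Real.log 2 ≤ Real.log L := by
      have h6 := Real.log_le_log (show (0 : ℝ) < ((2 ^ g : ℕ) : ℝ) by positivity)
        (show ((2 ^ g : ℕ) : ℝ) ≤ L by exact_mod_cast Nat.pow_log_le_self 2 (by omega))
      push_cast at h6
      rwa [Real.log_pow] at h6
    have h7 : 2 * η * C ≤ δ * Real.log 2 := by
      rw [hη, mul_div_assoc', div_mul_eq_mul_div, div_le_iff₀ (by positivity)]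
      nlinarith [mul_pos hδ hl2, (Nat.cast_nonneg C : (0 : ℝ) ≤ C)]
    have hg0 : (0 : ℝ) ≤ g := Nat.cast_nonneg g
    simp only [hn]
    push_cast
    nlinarith [mul_le_mul_of_nonneg_right h7 hg0, mul_le_mul_of_nonneg_left hgl hδ.le]
  calc ((n : ℝ) + 1) * B n ≤ (1 / η + 1) * Real.exp (η * n) * (K * Real.exp (η * n)) :=
        mul_le_mul h1 (hK n) (hB0 n) (by positivity)
    _ = (1 / η + 1) * K * Real.exp (2 * η * n) := by
        rw [show 2 * η * (n : ℝ) = η * n + η * n by ring, Real.exp_add]; ring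
    _ ≤ (1 / η + 1) * K * (Real.exp (2 * η * C) * (L : ℝ) ^ δ) :=
        mul_le_mul_of_nonneg_left h5 (by positivity)
    _ = _ := by ring

end Vale.Agent.P165.FQ

namespace Vale.Agent.P165.FP.Base

open Finset FF Vale.Agent.P165.FP Vale.Agent.P165.FQ Filter Topology

variable {Γ O ι α : Type} [Group Γ] [Fintype ι] [DecidableEq α] [Fintype α] [Fintype O]
  [DecidableEq Γ] [DecidableEq O] (E : Base Γ O ι α) {p : ℝ}

/-- A failure of the code bound persists slightly below the parameter. -/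
theorem not_bound_below (hp : 0 < p) {θ : ℝ} (hθ : 0 ≤ θ) (hnb : ¬ E.Bound p θ) :
    ∃ p₁ : ℝ, 0 < p₁ ∧ p₁ < p ∧ ¬ E.Bound p₁ θ := by
  simp only [Bound, not_forall, not_le] at hnb
  obtain ⟨ρ, W, hW, hs, hgt⟩ := hnb
  have hf : Continuous fun x : ℝ => E.c₁ x ^ θ * ∑ v ∈ W, E.Psi ρ x v ^ θ :=
    (E.continuous_c₁.rpow_const fun _ => Or.inr hθ).mul
      (continuous_finsetSum _ fun v _ => (hit_continuous _ _ _).rpow_const fun _ => Or.inr hθ)
  obtain ⟨ε, hε, hb⟩ := Metric.eventually_nhds_iff.1 ((hf.tendsto p).eventually_const_lt hgt)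
  have hm : 0 < min (ε / 2) (p / 2) := lt_min (half_pos hε) (half_pos hp)
  refine ⟨p - min (ε / 2) (p / 2), ?_, by linarith, fun hB => not_le.2 (hb ?_) (hB ρ W hW hs)⟩
  · have := min_le_right (ε / 2) (p / 2)
    linarith
  · rw [Real.dist_eq, sub_sub_cancel_left, abs_neg, abs_of_pos hm]
    have := min_le_left (ε / 2) (p / 2)
    linarith

/-- The exponents and the short chains, valid on an interval ending at the parameter. -/
theorem exists_shortChains (hp : 0 < p) (hp1 : p ≤ 1) (hB : E.Bound p 1) {δ : ℝ} (hδ : 0 < δ)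
    (hδ1 : δ < 1) :
    ∃ (θ θ' p₁ κ : ℝ) (C : ℕ), 0 < θ ∧ θ ≤ θ' ∧ θ' ≤ 1 ∧ θ' * (1 - δ) ≤ θ ∧ E.Bound p θ' ∧
      0 < p₁ ∧ p₁ < p ∧ 0 < κ ∧ ∀ L : ℕ, 1 ≤ L → ∀ m : α × Bool,
        ∃ W : Finset (List (α × Bool)), PrefixFree W ∧
          (∀ w ∈ W, Red w ∧ w.head? = some m ∧ w.length ≤ C * (Nat.log 2 L + 1)) ∧
          κ * (L : ℝ) ^ θ ≤ W.card ∧
          ∀ p' : ℝ, p₁ ≤ p' → p' ≤ 1 → ∀ z, ∀ w ∈ W, κ / L ≤
            hitN E.nb (E.chainSet z m C L) p' z (E.above (E.pos z) w) (C * (Nat.log 2 L + 1)) := by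
  obtain ⟨θ, θ', hθ, hle, hθ'1, hratio, hbound, hnb⟩ :=
    E.exists_exponents ⟨hp, hp1, hB⟩ hδ hδ1
  obtain ⟨p₁, h1, h2, h3⟩ := E.not_bound_below hp hθ.le hnb
  obtain ⟨C, κ, hκ, hch⟩ := E.exists_chainsN h1 (h2.le.trans hp1) hθ h3
  exact ⟨θ, θ', p₁, κ, C, hθ, hle, hθ'1, hratio, hbound, h1, h2, hκ, hch⟩

end Vale.Agent.P165.FP.Base
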