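import Vale.Agent.P165.FQ.Exit
import Vale.Agent.P165.FQ.Data
import Vale.Agent.P165.FP.Cross

/-!
# The quantities of the intrinsic geometry

Connections by at most `K` open steps, their sum over all points, over the fibre of the start and over
a fibre seen from inside a half space; the shared data of exponents and chains.
-/

namespace Vale.Agent.P165.FQ

open Finset FF Vale.Agent.P165.FP

variable {V ι : Type} [DecidableEq V] [Fintype ι] {nb : V → ι → V} {G : SimpleGraph V}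

theorem tauW_mono (hl : Labelling G nb) {S S' : Finset V} (hS : S ⊆ S') {n n' : ℕ} (hn : n ≤ n')
    {p : ℝ} (h0 : 0 ≤ p) (h1 : p ≤ 1) (x y : V) :
    tauW nb S p x y n ≤ tauW nb S' p x y n' :=
  (avg_mono_set (inE_mono hl hS) h0 h1 (monotone_ind (inc_within x y n))).trans
    (avg_mono _ h0 h1 fun _ _ => ind_mono fun h => within_mono hn subset_rfl h)

theorem tauW_comm (S : Finset V) (p : ℝ) (x y : V) (n : ℕ) :
    tauW nb S p x y n = tauW nb S p y x n :=
  avg_congr _ _ fun _ _ => congrArg ind (propext ⟨within_symm, within_symm⟩)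

theorem tauW_self (S : Finset V) (p : ℝ) (x : V) (n : ℕ) : tauW nb S p x x n = 1 :=
  (avg_congr _ _ fun η _ => if_pos (within_refl x n η)).trans (avg_one _ p)

theorem hitN_singleton (S : Finset V) (p : ℝ) (a y : V) (n : ℕ) :
    hitN nb S p a {y} n = tauW nb S p a y n :=
  avg_congr _ _ fun _ _ => congrArg ind (propext ⟨fun ⟨_, ht, h⟩ => Set.mem_singleton_iff.1 ht ▸ h,
    fun h => ⟨y, rfl, h⟩⟩)

theorem tauW_le_tauIn (S : Finset V) {p : ℝ} (h0 : 0 ≤ p) (h1 : p ≤ 1) (x y : V) (n : ℕ) :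
    tauW nb S p x y n ≤ tauIn nb S p x y :=
  avg_mono _ h0 h1 fun _ _ => le_of_le_of_eq (ind_mono fun ⟨w, _⟩ => w.reachable) rfl

/-- Thinning the parameter. -/
theorem thin_tauW (S : Finset V) {p q : ℝ} (h0 : 0 ≤ p) (h1 : p ≤ 1) (hq : 0 ≤ q) (hq1 : q ≤ 1)
    (x y : V) (n : ℕ) : q ^ n * tauW nb S p x y n ≤ tauW nb S (p * q) x y n := by
  simpa only [hitN_singleton] using thin_hitN (nb := nb) S h0 h1 hq hq1 x {y} n

end Vale.Agent.P165.FQ

namespace Vale.Agent.P165.FP.Base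

open Finset FF Vale.Agent.P165.FP Vale.Agent.P165.FQ

variable {Γ O ι α : Type} [Group Γ] [Fintype ι] [DecidableEq α] [Fintype α] [Fintype O]
  [DecidableEq Γ] [DecidableEq O] (E : Base Γ O ι α)

/-- The chance of at most `K` open steps from `a` to `y`. -/
noncomputable def tau (p : ℝ) (K : ℕ) (a y : Γ × O) : ℝ := tauW E.nb (E.cyl a K) p a y K

/-- The expected number of points within `K` open steps, summed over the types of the start. -/
noncomputable def vol (p : ℝ) (K : ℕ) : ℝ :=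
  ∑ o : O, ∑ y ∈ E.cyl ((1 : Γ), o) K, E.tau p K ((1 : Γ), o) y

/-- The expected number of such points over the start, summed over its types. -/
noncomputable def own (p : ℝ) (K : ℕ) : ℝ :=
  ∑ o : O, ∑ y ∈ (E.cyl ((1 : Γ), o) K).filter (fun y => E.pos y = 1), E.tau p K ((1 : Γ), o) y

/-- The expected number of points over `x` within `K` open steps inside a half space window. -/
noncomputable def sideMass (p : ℝ) (K : ℕ) (m : α × Bool) (a : Γ × O) (x : FreeGroup α) : ℝ :=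
  ∑ y ∈ (E.side a K m).filter (fun y => E.pos y = x), tauW E.nb (E.side a K m) p a y K

/-- The bound on prefix-free families of fibres seen from the tip of a half space. -/
def TailLe (p : ℝ) (K : ℕ) (T : ℝ) : Prop :=
  ∀ (m : α × Bool) (a : Γ × O), a ∈ E.above 1 [m] → (E.pos a).norm ≤ E.L + 1 →
    ∀ (Q : Finset (FreeGroup α)) (ext : FreeGroup α → α × Bool),
    (∀ x ∈ Q, [m] <+: x.toWord ∧ Red (x.toWord ++ [ext x])) →
    Set.InjOn (fun x => x.toWord ++ [ext x]) Q →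
    PrefixFree (Q.image fun x => x.toWord ++ [ext x]) →
      ∑ x ∈ Q, E.sideMass p K m a x ≤ T

/-- The exponents at the last parameter and the short chains just below it. -/
structure Data (ps δ : ℝ) where
  /-- The exponent at which the code bound fails. -/
  θ : ℝ
  /-- The exponent at which the code bound holds. -/
  θ' : ℝ
  /-- The lower end of the interval of parameters. -/
  p₁ : ℝ
  /-- The constant of the chains. -/
  κ : ℝ
  /-- The constant of the short volume. -/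
  M : ℝ
  /-- The range of the chains. -/
  C : ℕ
  /-- The targets of level `L` above a letter. -/
  W : ℕ → α × Bool → Finset (List (α × Bool))
  θ_pos : 0 < θ
  θ_le : θ ≤ θ'
  θ'_le : θ' ≤ 1
  ratio : θ' * (1 - δ) ≤ θ
  bound : E.Bound ps θ'
  p₁_pos : 0 < p₁
  p₁_lt : p₁ < ps
  ps_le : ps ≤ 1
  δ_pos : 0 < δ
  δ_lt : δ < 1
  κ_pos : 0 < κ
  M_nonneg : 0 ≤ M
  W_free : ∀ L : ℕ, 1 ≤ L → ∀ m, PrefixFree (W L m)
  W_mem : ∀ L : ℕ, 1 ≤ L → ∀ m, ∀ w ∈ W L m,
    Red w ∧ w.head? = some m ∧ w.length ≤ C * (Nat.log 2 L + 1)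
  W_card : ∀ L : ℕ, 1 ≤ L → ∀ m, κ * (L : ℝ) ^ θ ≤ (W L m).card
  W_hit : ∀ L : ℕ, 1 ≤ L → ∀ m, ∀ p, p₁ ≤ p → p ≤ 1 → ∀ z, ∀ w ∈ W L m, κ / L ≤
    hitN E.nb (E.chainSet z m C L) p z (E.above (E.pos z) w) (C * (Nat.log 2 L + 1))
  vol_short : ∀ L : ℕ, 1 ≤ L → ((C * (Nat.log 2 L + 1) : ℕ) + 1 : ℝ) *
    E.vol ps (C * (Nat.log 2 L + 1)) ≤ M * (L : ℝ) ^ δ

omit [DecidableEq Γ] [DecidableEq O] in
theorem self_mem_cyl (a : Γ × O) (K : ℕ) : a ∈ E.cyl a K := by
  rw [E.mem_cyl, inv_mul_cancel, E.len_one]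
  exact Nat.zero_le K

omit [DecidableEq Γ] [DecidableEq O] in
theorem cyl_subset {a z : Γ × O} {K K' n : ℕ} (hz : z ∈ E.cyl a K) (hn : K + K' ≤ n) :
    E.cyl z K' ⊆ E.cyl a n := fun y hy => by
  rw [E.mem_cyl] at hy hz ⊢
  have h := E.len_mul (a.1⁻¹ * z.1) (z.1⁻¹ * y.1)
  rw [mul_assoc, mul_inv_cancel_left] at h
  omega

omit [Fintype O] [DecidableEq Γ] [DecidableEq O] in
theorem len_comm (x y : Γ × O) : E.len (x.1⁻¹ * y.1) = E.len (y.1⁻¹ * x.1) := by
  rw [← E.len_inv (x.1⁻¹ * y.1), mul_inv_rev, inv_inv]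

/-- Balls of the length contain the short walks. -/
theorem covers_cyl (n : ℕ) : Covers E.G (fun x => E.cyl x n) n := by
  intro x u w hw v hv
  rw [E.mem_cyl]
  exact (E.len_walk (w.takeUntil v hv)).trans ((w.length_takeUntil_le_length hv).trans hw)

theorem image_cyl (g : Γ) (x : Γ × O) (R : ℕ) :
    (E.cyl x R).image (tr g) = E.cyl (tr g x) R := by
  ext y
  rw [mem_image, E.mem_cyl]
  constructor
  · rintro ⟨z, hz, rfl⟩
    simpa [tr, mul_assoc] using E.mem_cyl.1 hz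
  · intro h
    refine ⟨tr g⁻¹ y, E.mem_cyl.2 ?_, by simp [tr]⟩
    simpa [tr, mul_assoc] using h

variable {p : ℝ}

theorem tau_nonneg (h0 : 0 ≤ p) (h1 : p ≤ 1) (K : ℕ) (a y : Γ × O) : 0 ≤ E.tau p K a y :=
  tauW_nonneg _ h0 h1 _ _ _

theorem tau_le_one (h0 : 0 ≤ p) (h1 : p ≤ 1) (K : ℕ) (a y : Γ × O) : E.tau p K a y ≤ 1 :=
  tauW_le_one _ h0 h1 _ _ _

/-- Any region gives at most the connection in the window. -/
theorem tauW_le_tau (h0 : 0 ≤ p) (h1 : p ≤ 1) (S : Finset (Γ × O)) (K : ℕ) (a y : Γ × O) :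
    tauW E.nb S p a y K ≤ E.tau p K a y :=
  tauW_le_window E.hl (E.covers_cyl K) S h0 h1 a y

theorem tau_eq_zero {K : ℕ} {a y : Γ × O} (h : y ∉ E.cyl a K) : E.tau p K a y = 0 :=
  tauW_eq_zero E.hl (E.covers_cyl K) _ p fun hc => h hc.1

theorem tau_mono (h0 : 0 ≤ p) (h1 : p ≤ 1) {K K' : ℕ} (h : K ≤ K') (a y : Γ × O) :
    E.tau p K a y ≤ E.tau p K' a y :=
  tauW_mono E.hl (E.cyl_subset (E.self_mem_cyl a 0) (by omega)) h h0 h1 a y

theorem tau_mono_p {q : ℝ} (h0 : 0 ≤ p) (hpq : p ≤ q) (h1 : q ≤ 1) (K : ℕ) (a y : Γ × O) :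
    E.tau p K a y ≤ E.tau q K a y :=
  tauW_mono_p _ h0 hpq h1 _ _ _

theorem tau_comm (h0 : 0 ≤ p) (h1 : p ≤ 1) (K : ℕ) (a y : Γ × O) :
    E.tau p K a y = E.tau p K y a := by
  refine le_antisymm ?_ ?_
  · rw [tau, tauW_comm]
    exact E.tauW_le_tau h0 h1 _ K y a
  · rw [tau, tauW_comm]
    exact E.tauW_le_tau h0 h1 _ K a y

theorem tau_tr (g : Γ) (p : ℝ) (K : ℕ) (a y : Γ × O) :
    E.tau p K (tr g a) (tr g y) = E.tau p K a y := by
  rw [tau, ← E.image_cyl g a K]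
  exact tauW_map E.hl (trIso E.hinv g) (E.cyl a K) p a y K

/-- The points within `K` open steps of any start are at most `vol`. -/
theorem sum_tau_le_vol (h0 : 0 ≤ p) (h1 : p ≤ 1) (F : Finset (Γ × O)) (K : ℕ) (a : Γ × O) :
    ∑ y ∈ F, E.tau p K a y ≤ E.vol p K := by
  classical
  calc ∑ y ∈ F, E.tau p K a y = ∑ y ∈ F.filter (fun y => y ∈ E.cyl a K), E.tau p K a y :=
        (sum_filter_of_ne fun y _ hne => by_contra fun h => hne (E.tau_eq_zero h)).symm
    _ ≤ ∑ y ∈ E.cyl a K, E.tau p K a y := sum_le_sum_of_subset_of_nonneg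
        (fun y hy => (mem_filter.1 hy).2) fun y _ _ => E.tau_nonneg h0 h1 K a y
    _ = ∑ y ∈ E.cyl ((1 : Γ), a.2) K, E.tau p K ((1 : Γ), a.2) y := by
        have e : tr a.1 ((1 : Γ), a.2) = a := by simp [tr]
        conv_lhs => rw [← e, ← E.image_cyl]
        rw [sum_image fun x _ y _ h => tr_injective a.1 h]
        exact sum_congr rfl fun y _ => E.tau_tr _ _ _ _ _
    _ ≤ E.vol p K := single_le_sum
        (f := fun o => ∑ y ∈ E.cyl ((1 : Γ), o) K, E.tau p K ((1 : Γ), o) y)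
        (fun o _ => sum_nonneg fun y _ => E.tau_nonneg h0 h1 K _ y) (mem_univ a.2)

theorem one_le_vol (h0 : 0 ≤ p) (h1 : p ≤ 1) (K : ℕ) : 1 ≤ E.vol p K := by
  refine le_trans ?_ (E.sum_tau_le_vol h0 h1 {((1 : Γ), E.o₁)} K ((1 : Γ), E.o₁))
  rw [sum_singleton, tau, tauW_self]

theorem vol_nonneg (h0 : 0 ≤ p) (h1 : p ≤ 1) (K : ℕ) : 0 ≤ E.vol p K :=
  zero_le_one.trans (E.one_le_vol h0 h1 K)

theorem vol_mono_p {q : ℝ} (h0 : 0 ≤ p) (hpq : p ≤ q) (h1 : q ≤ 1) (K : ℕ) :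
    E.vol p K ≤ E.vol q K :=
  sum_le_sum fun _ _ => sum_le_sum fun _ _ => E.tau_mono_p h0 hpq h1 _ _ _

theorem continuous_vol (K : ℕ) : Continuous fun p : ℝ => E.vol p K :=
  continuous_finsetSum _ fun _ _ => continuous_finsetSum _ fun _ _ => tauW_continuous _ _ _ _

theorem continuous_own (K : ℕ) : Continuous fun p : ℝ => E.own p K :=
  continuous_finsetSum _ fun _ _ => continuous_finsetSum _ fun _ _ => tauW_continuous _ _ _ _

theorem own_nonneg (h0 : 0 ≤ p) (h1 : p ≤ 1) (K : ℕ) : 0 ≤ E.own p K :=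
  sum_nonneg fun _ _ => sum_nonneg fun _ _ => E.tau_nonneg h0 h1 _ _ _

theorem own_le_vol (h0 : 0 ≤ p) (h1 : p ≤ 1) (K : ℕ) : E.own p K ≤ E.vol p K :=
  sum_le_sum fun _ _ => sum_le_sum_of_subset_of_nonneg (filter_subset _ _) fun _ _ _ =>
    E.tau_nonneg h0 h1 _ _ _

/-- The points over the start within `K` open steps are at most `own`. -/
theorem sum_fibre_le_own (h0 : 0 ≤ p) (h1 : p ≤ 1) (F : Finset (Γ × O)) (K : ℕ) (a : Γ × O)
    (hF : ∀ y ∈ F, E.pos y = E.pos a) : ∑ y ∈ F, E.tau p K a y ≤ E.own p K := by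
  classical
  calc ∑ y ∈ F, E.tau p K a y = ∑ y ∈ F.filter (fun y => y ∈ E.cyl a K), E.tau p K a y :=
        (sum_filter_of_ne fun y _ hne => by_contra fun h => hne (E.tau_eq_zero h)).symm
    _ ≤ ∑ y ∈ (E.cyl a K).filter (fun y => E.pos y = E.pos a), E.tau p K a y :=
        sum_le_sum_of_subset_of_nonneg (fun y hy => by
          obtain ⟨h2, h3⟩ := mem_filter.1 hy
          exact mem_filter.2 ⟨h3, hF y h2⟩) fun y _ _ => E.tau_nonneg h0 h1 K a y
    _ = ∑ y ∈ (E.cyl ((1 : Γ), a.2) K).filter (fun y => E.pos y = 1),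
          E.tau p K ((1 : Γ), a.2) y := by
        have e : tr a.1 ((1 : Γ), a.2) = a := by simp [tr]
        conv_lhs => rw [← e, ← E.image_cyl, filter_image]
        rw [sum_image fun x _ y _ h => tr_injective a.1 h]
        refine sum_congr (filter_congr fun y _ => ?_) fun y _ => E.tau_tr _ _ _ _ _
        rw [E.pos_tr, E.pos_tr]
        simp [pos]
    _ ≤ E.own p K := single_le_sum
        (f := fun o => ∑ y ∈ (E.cyl ((1 : Γ), o) K).filter (fun y => E.pos y = 1),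
          E.tau p K ((1 : Γ), o) y)
        (fun o _ => sum_nonneg fun y _ => E.tau_nonneg h0 h1 K _ y) (mem_univ a.2)

theorem own_mono (h0 : 0 ≤ p) (h1 : p ≤ 1) {K K' : ℕ} (h : K ≤ K') : E.own p K ≤ E.own p K' :=
  sum_le_sum fun o _ => (sum_le_sum fun y _ => E.tau_mono h0 h1 h _ y).trans
    (sum_le_sum_of_subset_of_nonneg
      (filter_subset_filter _ (E.cyl_subset (E.self_mem_cyl _ 0) (by omega)))
      fun _ _ _ => E.tau_nonneg h0 h1 _ _ _)

theorem vol_mono (h0 : 0 ≤ p) (h1 : p ≤ 1) {K K' : ℕ} (h : K ≤ K') : E.vol p K ≤ E.vol p K' :=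
  sum_le_sum fun o _ => (sum_le_sum fun y _ => E.tau_mono h0 h1 h _ y).trans
    (sum_le_sum_of_subset_of_nonneg (E.cyl_subset (E.self_mem_cyl _ 0) (by omega))
      fun _ _ _ => E.tau_nonneg h0 h1 _ _ _)

end Vale.Agent.P165.FP.Base
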