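import Vale.Agent.P165.FQ.Layer
import Vale.Agent.P165.FP.Recursion

/-!
# A small form of the short connections makes connection probabilities square summable

If the quadratic form of the connections of at most `n` edges is less than `n / 2`, the layer
inequality bounds the sums of squares of all connection probabilities. For an invariant graph this
form bound is stable under small changes of the parameter.
-/

namespace Vale.Agent.P165.FQ

open Finset FF

section General

variable {V ι : Type} [DecidableEq V] [Fintype ι] {nb : V → ι → V} {G : SimpleGraph V}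

/-- The probability of an open walk of at most `n` edges inside `S`. -/
noncomputable def tauW (nb : V → ι → V) (S : Finset V) (p : ℝ) (x y : V) (n : ℕ) : ℝ :=
  avg (inE nb S) p fun η => ind (Within x n η y)

theorem tauW_nonneg (S : Finset V) {p : ℝ} (h0 : 0 ≤ p) (h1 : p ≤ 1) (x y : V) (n : ℕ) :
    0 ≤ tauW nb S p x y n :=
  avg_nonneg _ h0 h1 fun _ _ => ind_nonneg _

theorem tauW_le_one (S : Finset V) {p : ℝ} (h0 : 0 ≤ p) (h1 : p ≤ 1) (x y : V) (n : ℕ) :
    tauW nb S p x y n ≤ 1 :=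
  (avg_mono _ h0 h1 fun _ _ => ind_le_one _).trans (avg_one _ _).le

theorem tauW_continuous (S : Finset V) (x y : V) (n : ℕ) :
    Continuous fun p : ℝ => tauW nb S p x y n := by
  refine continuous_finsetSum _ fun η _ => Continuous.mul ?_ continuous_const
  simp only [wt]
  fun_prop

theorem tauW_mono_p (S : Finset V) {p q : ℝ} (h0 : 0 ≤ p) (hpq : p ≤ q) (h1 : q ≤ 1) (x y : V)
    (n : ℕ) : tauW nb S p x y n ≤ tauW nb S q x y n :=
  avg_mono_p _ h0 hpq h1 _ (monotone_ind (inc_within x y n))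

/-- An automorphism moves short connections. -/
theorem tauW_map (hl : Labelling G nb) (φ : G ≃g G) (S : Finset V) (p : ℝ) (x y : V) (n : ℕ) :
    tauW nb (S.image φ) p (φ x) (φ y) n = tauW nb S p x y n := by
  classical
  have hinj := Sym2.map.injective φ.injective
  have hE : inE nb (S.image φ) = (inE nb S).image (Sym2.map φ) := by
    ext e
    induction e using Sym2.ind with
    | _ a b =>
      obtain ⟨a, rfl⟩ := φ.surjective a
      obtain ⟨b, rfl⟩ := φ.surjective b
      rw [← Sym2.map_mk, hinj.mem_finset_image, inE_iff hl, inE_iff hl]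
      simp [φ.map_adj_iff, φ.injective.eq_iff]
  rw [tauW, tauW, hE, avg_image _ hinj]
  refine avg_congr _ _ fun η _ => ?_
  have hadj : ∀ u v, (SimpleGraph.fromEdgeSet (η : Set (Sym2 V))).Adj u v ↔
      (SimpleGraph.fromEdgeSet
        ((η.image (Sym2.map φ) : Finset _) : Set (Sym2 V))).Adj (φ u) (φ v) := by
    intro u v
    rw [SimpleGraph.fromEdgeSet_adj, SimpleGraph.fromEdgeSet_adj, mem_coe, mem_coe, ← Sym2.map_mk,
      hinj.mem_finset_image, φ.injective.ne_iff]
  let ψ : SimpleGraph.fromEdgeSet (η : Set (Sym2 V)) ≃g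
      SimpleGraph.fromEdgeSet ((η.image (Sym2.map φ) : Finset _) : Set (Sym2 V)) :=
    { toEquiv := φ.toEquiv, map_rel_iff' := fun {u v} => (hadj u v).symm }
  refine congrArg ind (propext ⟨fun ⟨w, hw⟩ => ?_, fun ⟨w, hw⟩ => ?_⟩)
  · exact ⟨(w.map ψ.symm.toHom).copy (φ.symm_apply_apply x) (φ.symm_apply_apply y),
      (SimpleGraph.Walk.length_copy _ _ _).trans_le
        ((SimpleGraph.Walk.length_map _ _).trans_le hw)⟩
  · exact ⟨w.map ψ.toHom, by rw [SimpleGraph.Walk.length_map]; exact hw⟩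

/-- The windows hold all short walks from their centre. -/
def Covers (G : SimpleGraph V) (B : V → Finset V) (n : ℕ) : Prop :=
  ∀ x u (w : G.Walk x u), w.length ≤ n → ∀ v ∈ w.support, v ∈ B x

theorem within_graph (hl : Labelling G nb) {S : Finset V} {η : Finset (Sym2 V)} (hη : η ⊆ inE nb S)
    {x y : V} {n : ℕ} (h : Within x n η y) : ∃ w : G.Walk x y, w.length ≤ n := by
  obtain ⟨w, hw⟩ := h
  refine ⟨w.mapLe fun u v huv => ?_, by
    rw [SimpleGraph.Walk.mapLe, SimpleGraph.Walk.length_map]; exact hw⟩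
  exact ((inE_iff hl).1 (hη (mem_coe.1 ((SimpleGraph.fromEdgeSet_adj _).1 huv).1))).1

/-- Short connections only need the window. -/
theorem tauW_le_window (hl : Labelling G nb) {B : V → Finset V} {n : ℕ} (hB : Covers G B n)
    (S : Finset V) {p : ℝ} (h0 : 0 ≤ p) (h1 : p ≤ 1) (x y : V) :
    tauW nb S p x y n ≤ tauW nb (B x) p x y n := by
  classical
  have hpt : ∀ η, η ⊆ inE nb S → Within x n η y → Within x n (η ∩ inE nb (B x)) y := by
    intro η hη h
    obtain ⟨w, hw⟩ := h
    have hG : ∀ u v, (SimpleGraph.fromEdgeSet (η : Set (Sym2 V))).Adj u v → G.Adj u v :=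
      fun u v huv => ((inE_iff hl).1 (hη (mem_coe.1 ((SimpleGraph.fromEdgeSet_adj _).1 huv).1))).1
    have hsupp : ∀ v ∈ w.support, v ∈ B x := fun v hv => hB x y (w.mapLe hG)
      (by rw [SimpleGraph.Walk.mapLe, SimpleGraph.Walk.length_map]; exact hw) v
      (by rw [SimpleGraph.Walk.mapLe, SimpleGraph.Walk.support_map]
          exact List.mem_map.2 ⟨v, hv, rfl⟩)
    refine ⟨w.transfer _ fun e he => ?_, by rw [SimpleGraph.Walk.length_transfer]; exact hw⟩
    have heη := w.edges_subset_edgeSet he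
    rw [SimpleGraph.edgeSet_fromEdgeSet] at heη ⊢
    refine ⟨mem_coe.2 (mem_inter.2 ⟨mem_coe.1 heη.1, (inE_iff hl).2
      ⟨((inE_iff hl).1 (hη (mem_coe.1 heη.1))).1, fun v hv => hsupp v ?_⟩⟩), heη.2⟩
    exact SimpleGraph.Walk.mem_support_of_mem_edges he hv
  refine (avg_mono _ h0 h1 fun η hη => ind_mono (hpt η hη)).trans ?_
  set E := inE nb S
  set A := inE nb (B x)
  have e := avg_split (inter_subset_left (s₁ := E) (s₂ := A)) p
    (fun η => ind (Within x n η y)) fun _ => (1 : ℝ)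
  simp only [mul_one, avg_one] at e
  refine le_trans ?_ (avg_mono_set (inter_subset_right (s₁ := E)) h0 h1
    (monotone_ind (inc_within x y n)))
  rw [← e]
  refine le_of_eq (avg_congr _ _ fun η hη => ?_)
  rw [show η ∩ (E ∩ A) = η ∩ A by rw [← inter_assoc, inter_eq_left.2 hη]]

/-- Nothing short joins two points unless each is in the window of the other. -/
theorem tauW_eq_zero (hl : Labelling G nb) {B : V → Finset V} {n : ℕ} (hB : Covers G B n)
    (S : Finset V) (p : ℝ) {x y : V} (h : ¬ (y ∈ B x ∧ x ∈ B y)) : tauW nb S p x y n = 0 := by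
  refine (avg_congr _ _ fun η hη => if_neg fun hw => h ?_).trans (by simp [avg])
  obtain ⟨w, hw'⟩ := within_graph hl hη hw
  exact ⟨hB x y w hw' y w.end_mem_support,
    hB y x w.reverse (by simpa using hw') x (by simp)⟩

/-- The quadratic form of the short connections is at most `η n`. -/
def FormSmall (nb : V → ι → V) (B : V → Finset V) (n : ℕ) (p η : ℝ) : Prop :=
  ∀ (F : Finset V) (f : V → ℝ), (∀ x, 0 ≤ f x) →
    ∑ x ∈ F, ∑ y ∈ F, f x * f y * tauW nb (B x) p x y n ≤ η * n * ∑ x ∈ F, f x ^ 2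

/-- A small form gives square summability. -/
theorem square_summable (hl : Labelling G nb) {B : V → Finset V} {n : ℕ} (hn : 1 ≤ n)
    (hB : Covers G B n) {N : ℕ} (hN : ∀ x, (B x).card ≤ N) {p : ℝ} (hp : 0 ≤ p) (hp1 : p ≤ 1)
    (h : FormSmall nb B n p (1 / 2)) :
    ∃ K : ℝ, ∀ (x : V) (S F : Finset V), ∑ y ∈ F, tauIn nb S p x y ^ 2 ≤ K := by
  classical
  refine ⟨4 * N, fun o S F => ?_⟩
  set F₀ := insert o S with hF₀
  set v : V → ℝ := fun x => tauIn nb S p x o
  set c : V → ℝ := fun x => tauW nb S p x o n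
  have hn0 : (0 : ℝ) < n := Nat.cast_pos.2 hn
  have hv : ∀ x, 0 ≤ v x := fun x => tauIn_nonneg S hp hp1 x o
  have hc : ∀ x, 0 ≤ c x := fun x => tauW_nonneg _ hp hp1 x o n
  have hv0 : ∀ x, x ∉ F₀ → v x = 0 := fun x hx => by
    simp only [hF₀, mem_insert, not_or] at hx
    exact tauIn_eq_zero hx.1 (Or.inl hx.2) p
  have hrec : ∀ x, (n : ℝ) * v x ≤ n * c x + ∑ z ∈ F₀, tauW nb (B x) p x z n * v z := by
    intro x
    refine (tauIn_layers S x o hp hp1 n).trans (add_le_add le_rfl ?_)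
    calc ∑ u ∈ insert x S, tauW nb S p x u n * v u
        ≤ ∑ u ∈ insert x S, tauW nb (B x) p x u n * v u := sum_le_sum fun u _ =>
          mul_le_mul_of_nonneg_right (tauW_le_window hl hB S hp hp1 x u) (hv u)
      _ ≤ ∑ u ∈ insert x S ∪ F₀, tauW nb (B x) p x u n * v u :=
          sum_le_sum_of_subset_of_nonneg subset_union_left fun u _ _ =>
            mul_nonneg (tauW_nonneg _ hp hp1 _ _ _) (hv u)
      _ = _ := (sum_subset subset_union_right fun u _ hu => by rw [hv0 u hu, mul_zero]).symm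
  have hc2 : ∑ x ∈ F₀, c x ^ 2 ≤ N := by
    calc ∑ x ∈ F₀, c x ^ 2 ≤ ∑ x ∈ F₀, (if x ∈ B o then (1 : ℝ) else 0) := by
          refine sum_le_sum fun x _ => ?_
          split_ifs with hx
          · exact pow_le_one₀ (hc x) (tauW_le_one _ hp hp1 x o n)
          · simp only [c]
            rw [tauW_eq_zero hl hB S p fun h => hx h.2]
            norm_num
      _ ≤ ((B o).card : ℝ) := by
          rw [sum_boole]
          exact Nat.cast_le.2 (card_le_card fun x hx => (mem_filter.1 hx).2)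
      _ ≤ _ := Nat.cast_le.2 (hN o)
  have hsq : ∑ x ∈ F₀, v x ^ 2 ≤ 4 * ∑ x ∈ F₀, c x ^ 2 := by
    have h1 : (n : ℝ) * ∑ x ∈ F₀, v x ^ 2 ≤ (n : ℝ) * ∑ x ∈ F₀, (c x ^ 2 + v x ^ 2 / 4) +
        ∑ x ∈ F₀, ∑ z ∈ F₀, v x * v z * tauW nb (B x) p x z n := by
      rw [mul_sum, mul_sum, ← sum_add_distrib]
      refine sum_le_sum fun x _ => ?_
      have h2 := mul_le_mul_of_nonneg_left (hrec x) (hv x)
      rw [mul_add, mul_sum, sum_congr rfl fun z _ =>
        show v x * (tauW nb (B x) p x z n * v z) = v x * v z * tauW nb (B x) p x z n by ring]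
        at h2
      nlinarith [mul_nonneg hn0.le (sq_nonneg (c x - v x / 2))]
    have h3 := h1.trans (add_le_add le_rfl (h F₀ v hv))
    rw [sum_add_distrib, ← sum_div] at h3
    nlinarith
  have hsym : ∀ y, tauIn nb S p o y = v y := fun y => by
    simp only [v]
    rw [tauIn_eq, tauIn_eq]
    exact avg_congr _ _ fun η _ =>
      congrArg ind (propext ⟨SimpleGraph.Reachable.symm, SimpleGraph.Reachable.symm⟩)
  calc ∑ y ∈ F, tauIn nb S p o y ^ 2 = ∑ y ∈ F, v y ^ 2 := sum_congr rfl fun y _ => by rw [hsym]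
    _ ≤ ∑ y ∈ F ∪ F₀, v y ^ 2 :=
        sum_le_sum_of_subset_of_nonneg subset_union_left fun _ _ _ => sq_nonneg _
    _ = ∑ y ∈ F₀, v y ^ 2 := (sum_subset subset_union_right fun y _ hy => by simp [hv0 y hy]).symm
    _ ≤ _ := by linarith

end General

section Invariant

variable {Γ O ι : Type} [Group Γ] [DecidableEq Γ] [DecidableEq O] [Fintype O] [Fintype ι]
  {G : SimpleGraph (Γ × O)} {nb : Γ × O → ι → Γ × O}

/-- The form bound is stable in the parameter. -/
theorem formSmall_eventually (hl : Labelling G nb) (hinv : Inv G)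
    {B : Γ × O → Finset (Γ × O)} (hBtr : ∀ g x, (B x).image (tr g) = B (tr g x)) {n : ℕ}
    (hn : 1 ≤ n) (hB : Covers G B n) {q η η' : ℝ} (h : FormSmall nb B n q η) (hη : η < η') :
    ∀ᶠ p in nhds q, FormSmall nb B n p η' := by
  classical
  set D : ℝ → ℝ := fun p => ∑ o : O, ∑ y ∈ B ((1 : Γ), o),
    |tauW nb (B ((1 : Γ), o)) p ((1 : Γ), o) y n - tauW nb (B ((1 : Γ), o)) q ((1 : Γ), o) y n|
    with hD
  set N : ℝ := ∑ o : O, ((B ((1 : Γ), o)).card : ℝ) with hN
  have hn0 : (0 : ℝ) < n := Nat.cast_pos.2 hn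
  have hcont : Continuous fun p => D p * N :=
    (continuous_finsetSum _ fun o _ => continuous_finsetSum _ fun y _ =>
      ((tauW_continuous _ _ y n).sub continuous_const).abs).mul continuous_const
  have h0 : D q * N = 0 := by simp [hD]
  filter_upwards [(hcont.tendsto q).eventually_le_const
    (show D q * N < (η' - η) * n by rw [h0]; exact mul_pos (by linarith) hn0)] with p hpD F f hf
  have hD0 : 0 ≤ D p := sum_nonneg fun _ _ => sum_nonneg fun _ _ => abs_nonneg _
  have hinvW : ∀ g r x y, tauW nb (B (tr g x)) r (tr g x) (tr g y) n = tauW nb (B x) r x y n :=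
    fun g r x y => by
      rw [← hBtr g x]
      exact tauW_map hl (trIso hinv g) (B x) r x y n
  have hbase : ∀ x : Γ × O, tr x.1⁻¹ x = ((1 : Γ), x.2) := fun x => by simp [tr]
  have hentry : ∀ x y, tauW nb (B x) p x y n - tauW nb (B x) q x y n ≤
      D p * (if y ∈ B x ∧ x ∈ B y then 1 else 0) := by
    intro x y
    split_ifs with hy
    swap
    · simp [tauW_eq_zero hl hB _ _ hy]
    rw [mul_one, ← hinvW x.1⁻¹ p x y, ← hinvW x.1⁻¹ q x y, hbase]
    refine (le_abs_self _).trans (le_trans ?_ (single_le_sum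
      (fun o _ => sum_nonneg fun _ _ => abs_nonneg _) (mem_univ x.2)))
    refine single_le_sum (f := fun z => |tauW nb (B ((1 : Γ), x.2)) p ((1 : Γ), x.2) z n -
      tauW nb (B ((1 : Γ), x.2)) q ((1 : Γ), x.2) z n|) (fun z _ => abs_nonneg _) ?_
    rw [← hbase x, ← hBtr x.1⁻¹ x]
    exact mem_image_of_mem _ hy.1
  have hrow : ∀ x, ((F.filter fun y => y ∈ B x).card : ℝ) ≤ N := fun x => by
    refine le_trans (Nat.cast_le.2 (card_le_card fun y hy => (mem_filter.1 hy).2)) ?_
    rw [← card_image_of_injective (B x) (tr_injective x.1⁻¹), hBtr, hbase, hN]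
    exact single_le_sum (f := fun o => ((B ((1 : Γ), o)).card : ℝ))
      (fun _ _ => Nat.cast_nonneg _) (mem_univ x.2)
  have hnear : ∑ x ∈ F, ∑ y ∈ F, f x * f y * (if y ∈ B x ∧ x ∈ B y then (1 : ℝ) else 0)
      ≤ N * ∑ x ∈ F, f x ^ 2 := by
    have h1 : ∀ x ∈ F, ∀ y ∈ F, f x * f y * (if y ∈ B x ∧ x ∈ B y then (1 : ℝ) else 0) ≤
        (if y ∈ B x then f x ^ 2 / 2 else 0) + (if x ∈ B y then f y ^ 2 / 2 else 0) := by
      intro x _ y _
      by_cases hy : y ∈ B x ∧ x ∈ B y
      · rw [if_pos hy, if_pos hy.1, if_pos hy.2]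
        linarith [sq_nonneg (f x - f y)]
      · rw [if_neg hy, mul_zero]
        split_ifs <;> positivity
    refine (sum_le_sum fun x hx => sum_le_sum (h1 x hx)).trans ?_
    simp only [sum_add_distrib]
    rw [sum_comm (f := fun x y => if x ∈ B y then f y ^ 2 / 2 else 0)]
    have h2 : ∑ x ∈ F, ∑ y ∈ F, (if y ∈ B x then f x ^ 2 / 2 else 0) ≤
        N * ∑ x ∈ F, f x ^ 2 / 2 := by
      rw [mul_sum]
      refine sum_le_sum fun x _ => ?_
      rw [← sum_filter, sum_const, nsmul_eq_mul]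
      exact mul_le_mul_of_nonneg_right (hrow x) (by positivity)
    rw [← sum_div] at h2
    linarith
  calc ∑ x ∈ F, ∑ y ∈ F, f x * f y * tauW nb (B x) p x y n
      ≤ ∑ x ∈ F, ∑ y ∈ F, (f x * f y * tauW nb (B x) q x y n +
          D p * (f x * f y * (if y ∈ B x ∧ x ∈ B y then 1 else 0))) := by
        refine sum_le_sum fun x _ => sum_le_sum fun y _ => ?_
        nlinarith [mul_le_mul_of_nonneg_left (hentry x y) (mul_nonneg (hf x) (hf y))]
    _ = ∑ x ∈ F, ∑ y ∈ F, f x * f y * tauW nb (B x) q x y n +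
          D p * ∑ x ∈ F, ∑ y ∈ F, f x * f y * (if y ∈ B x ∧ x ∈ B y then 1 else 0) := by
        simp only [sum_add_distrib, mul_sum]
    _ ≤ η * n * ∑ x ∈ F, f x ^ 2 + D p * (N * ∑ x ∈ F, f x ^ 2) :=
        add_le_add (h F f hf) (mul_le_mul_of_nonneg_left hnear hD0)
    _ ≤ η' * n * ∑ x ∈ F, f x ^ 2 := by
        rw [← mul_assoc, ← add_mul]
        exact mul_le_mul_of_nonneg_right (by linarith) (sum_nonneg fun _ _ => sq_nonneg _)

end Invariant

end Vale.Agent.P165.FQ
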