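import Vale.Agent.P165.FQ.Glue
import Vale.Agent.P165.FP.Chains

/-!
# Chains with few steps: many half spaces, each reached with probability about the inverse of their
number by an open walk of logarithmic length
-/

namespace Vale.Agent.P165.FQ

open Finset FF FreeGroup Vale.Agent.P165.FP

section General

variable {V ι : Type} [DecidableEq V] [Fintype ι] {nb : V → ι → V} {G : SimpleGraph V}

theorem hitN_nonneg (S : Finset V) {p : ℝ} (h0 : 0 ≤ p) (h1 : p ≤ 1) (a : V) (T : Set V) (n : ℕ) :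
    0 ≤ hitN nb S p a T n :=
  avg_nonneg _ h0 h1 fun _ _ => ind_nonneg _

theorem hitN_mono (hl : Labelling G nb) {S S' : Finset V} (hS : S ⊆ S') {T T' : Set V} (hT : T ⊆ T')
    {n n' : ℕ} (hn : n ≤ n') {p : ℝ} (h0 : 0 ≤ p) (h1 : p ≤ 1) (a : V) :
    hitN nb S p a T n ≤ hitN nb S' p a T' n' :=
  (avg_mono_set (inE_mono hl hS) h0 h1 (monotone_ind (inc_hitN T n a))).trans
    (avg_mono _ h0 h1 fun _ _ => ind_mono fun ⟨t, ht, w, hw⟩ => ⟨t, hT ht, w, hw.trans hn⟩)

/-- Moving the start along an open walk. -/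
theorem hitN_move (hl : Labelling G nb) {S : Finset V} {p : ℝ} (h0 : 0 ≤ p) (h1 : p ≤ 1) {g z : V}
    (w : G.Walk g z) (hw : ∀ v ∈ w.support, v ∈ S) (T : Set V) (n : ℕ) :
    p ^ w.length * hitN nb S p z T n ≤ hitN nb S p g T (w.length + n) := by
  set A := w.edges.toFinset
  have hA : A ⊆ inE nb S := fun e he => (inE_iff hl).2 ⟨w.edges_subset_edgeSet (List.mem_toFinset.1 he),
    fun v hv => hw v (SimpleGraph.Walk.mem_support_of_mem_edges (List.mem_toFinset.1 he) hv)⟩
  refine le_trans (mul_le_mul_of_nonneg_right ?_ (hitN_nonneg S h0 h1 z T n)) (le_trans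
    (harris (inE nb S) h0 h1 (fun η => ind (A ⊆ η)) (fun η => ind (HitN T n z η))
      (monotone_ind (A := fun η => A ⊆ η) fun _ _ h h' => h'.trans h) (monotone_ind (inc_hitN T n z)))
    (avg_mono _ h0 h1 fun η _ => ?_))
  · refine le_trans ?_ (pow_card_le A h0 h1 hA)
    exact pow_le_pow_of_le_one h0 h1 (w.edges.toFinset_card_le.trans (le_of_eq w.length_edges))
  · show ind (A ⊆ η) * ind (HitN T n z η) ≤ ind (HitN T (w.length + n) g η)
    unfold ind
    by_cases hAη : A ⊆ η
    swap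
    · rw [if_neg hAη, zero_mul]; split_ifs <;> norm_num
    by_cases hz : HitN T n z η
    swap
    · rw [if_neg hz, mul_zero]; split_ifs <;> norm_num
    have hg : HitN T (w.length + n) g η := by
      obtain ⟨t, ht, w', hw'⟩ := hz
      have hmem : ∀ e ∈ w.edges, e ∈ (SimpleGraph.fromEdgeSet (η : Set (Sym2 V))).edgeSet := by
        intro e he
        rw [SimpleGraph.edgeSet_fromEdgeSet]
        exact ⟨hAη (List.mem_toFinset.2 he), G.not_isDiag_of_mem_edgeSet (w.edges_subset_edgeSet he)⟩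
      exact ⟨t, ht, (w.transfer _ hmem).append w', by simpa using hw'⟩
    rw [if_pos hAη, if_pos hz, if_pos hg, mul_one]

theorem hitN_map (hl : Labelling G nb) (φ : G ≃g G) (S : Finset V) (p : ℝ) (a : V) (T : Set V) (n : ℕ) :
    hitN nb (S.image φ) p (φ a) T n = hitN nb S p a (φ ⁻¹' T) n := by
  have hinj := Sym2.map.injective φ.injective
  have hE : inE nb (S.image φ) = (inE nb S).image (Sym2.map φ) := by
    ext e
    induction e using Sym2.ind with
    | _ a b =>
      obtain ⟨a, rfl⟩ := φ.surjective a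
      obtain ⟨b, rfl⟩ := φ.surjective b
      rw [← Sym2.map_mk, hinj.mem_finset_image, inE_iff hl, inE_iff hl]
      simp [φ.map_adj_iff, φ.injective.eq_iff]
  rw [hitN, hitN, hE, avg_image _ hinj]
  refine avg_congr _ _ fun η _ => ?_
  have hadj : ∀ u v, (SimpleGraph.fromEdgeSet (η : Set (Sym2 V))).Adj u v ↔
      (SimpleGraph.fromEdgeSet ((η.image (Sym2.map φ) : Finset _) : Set (Sym2 V))).Adj (φ u) (φ v) := by
    intro u v
    rw [SimpleGraph.fromEdgeSet_adj, SimpleGraph.fromEdgeSet_adj, mem_coe, mem_coe, ← Sym2.map_mk,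
      hinj.mem_finset_image, φ.injective.ne_iff]
  let ψ : SimpleGraph.fromEdgeSet (η : Set (Sym2 V)) ≃g
      SimpleGraph.fromEdgeSet ((η.image (Sym2.map φ) : Finset _) : Set (Sym2 V)) :=
    { toEquiv := φ.toEquiv, map_rel_iff' := fun {u v} => (hadj u v).symm }
  refine congrArg ind (propext ⟨fun ⟨t, ht, w, hw⟩ => ?_, fun ⟨t, ht, w, hw⟩ => ?_⟩)
  · obtain ⟨s, rfl⟩ := φ.surjective t
    exact ⟨s, ht, (w.map ψ.symm.toHom).copy (φ.symm_apply_apply a) (φ.symm_apply_apply s),
      (SimpleGraph.Walk.length_copy _ _ _).trans_le ((SimpleGraph.Walk.length_map _ _).trans_le hw)⟩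
  · exact ⟨φ t, ht, w.map ψ.toHom, by simpa [SimpleGraph.Walk.length_map] using hw⟩

end General

end Vale.Agent.P165.FQ

namespace Vale.Agent.P165.FP.Base

open Finset FF FreeGroup Vale.Agent.P165.FP Vale.Agent.P165.FQ

variable {Γ O ι α : Type} [Group Γ] [Fintype ι] [DecidableEq α] [Fintype α] [Fintype O]
  [DecidableEq Γ] [DecidableEq O] (E : Base Γ O ι α) {p : ℝ}

/-- The chance of joining the anchor to the half space of `v` inside `om ρ` in `n` steps. -/
noncomputable def PsiN (ρ n : ℕ) (p : ℝ) (v : List (α × Bool)) : ℝ :=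
  hitN E.nb (E.om ρ) p (1, E.o₁) (E.above 1 v) n

theorem psiN_nonneg (ρ n : ℕ) (h0 : 0 ≤ p) (h1 : p ≤ 1) (v : List (α × Bool)) :
    0 ≤ E.PsiN ρ n p v :=
  hitN_nonneg _ h0 h1 _ _ _

theorem psiN_mono {ρ ρ' n n' : ℕ} (h : ρ ≤ ρ') (hn : n ≤ n') (h0 : 0 ≤ p) (h1 : p ≤ 1)
    (v : List (α × Bool)) : E.PsiN ρ n p v ≤ E.PsiN ρ' n' p v :=
  hitN_mono E.hl (E.om_mono h) Set.Subset.rfl hn h0 h1 _

theorem psi_le_psiN (ρ : ℕ) (h0 : 0 ≤ p) (h1 : p ≤ 1) (v : List (α × Bool)) :
    E.Psi ρ p v ≤ E.PsiN ρ (inE E.nb (E.om ρ)).card p v :=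
  avg_mono _ h0 h1 fun η hη => ind_mono fun ⟨t, ht, hc⟩ => by
    obtain ⟨w, hw⟩ := exists_walk_le hc
    exact ⟨t, ht, w, hw.trans (card_le_card hη)⟩

omit [Fintype O] in
theorem hitN_tr (γ : Γ) (S : Finset (Γ × O)) (p : ℝ) (a : Γ × O) (q : FreeGroup α)
    (w : List (α × Bool)) (n : ℕ) :
    hitN E.nb (S.image (tr γ)) p (tr γ a) (E.above q w) n
      = hitN E.nb S p a (E.above ((E.π γ)⁻¹ * q) w) n := by
  have h := hitN_map E.hl (trIso E.hinv γ) S p a (E.above q w) n
  rw [show (trIso E.hinv γ) ⁻¹' (E.above q w) = E.above ((E.π γ)⁻¹ * q) w from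
    Set.ext fun x => E.tr_mem_above] at h
  exact h

/-- Two connections joined by a marker. -/
theorem psiN_join (hp : 0 ≤ p) (hp1 : p ≤ 1) (ρ ρ' ℓ : ℕ) {u v : List (α × Bool)}
    (hu : E.Strict u) (hv : E.Strict v) :
    E.c₁ p * E.Psi ρ p u * E.PsiN ρ' ℓ p v ≤
      E.PsiN (ρ + E.blockLen + ρ') ((inE E.nb (E.om ρ)).card + E.blockLen + ℓ) p (E.join u v) := by
  classical
  set t := u ++ E.mark (u.getLastD E.a₀) with ht
  set R := ρ + E.blockLen + ρ'
  set Z := (E.om ρ).filter fun z => ((FreeGroup.mk u)⁻¹ * E.pos z).norm < E.L with hZdef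
  let word : Γ × O → List (α × Bool) := fun z =>
    ((E.pos z)⁻¹ * FreeGroup.mk u).toWord ++ E.mark (u.getLastD E.a₀)
  choose γ hγ W hW hsup using fun z => E.exists_path (word z) z
  have hword : ∀ z, E.pos z * FreeGroup.mk (word z) = FreeGroup.mk t := fun z => by
    rw [← mul_mk, mk_toWord, mul_assoc (E.pos z)⁻¹, mul_inv_cancel_left, mul_mk]
  have hzlen : ∀ z ∈ Z, (W z).length ≤ E.blockLen := fun z hz => by
    refine (hW z).trans ?_
    rw [blockLen]
    refine Nat.mul_le_mul le_rfl ?_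
    have h := (mem_filter.1 hz).2
    rw [norm_symm, FreeGroup.norm] at h
    simp only [word, List.length_append, E.mark_length]
    omega
  have hredt : Red t := E.red_marked hu
  have hthead : ∀ {y : List (α × Bool)}, u <+: y → y.head? ≠ some E.a₀ := fun {y} hy => by
    obtain ⟨c, rfl⟩ := hy
    rw [List.head?_append_of_ne_nil _ hu.2.1]
    exact hu.2.2
  have hsupp : ∀ z ∈ Z, ∀ x ∈ (W z).support, x ∈ E.om R := by
    intro z hz x hx
    refine E.mem_om.2 ⟨?_, ?_⟩
    · have h1 := E.len_support (W z) hx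
      have h2 := (E.mem_om.1 (mem_filter.1 hz).1).1
      have h3 := hzlen z hz
      omega
    obtain ⟨i, -, hn⟩ := hsup z x hx
    set s := ((E.pos z)⁻¹ * FreeGroup.mk u).toWord with hs
    have hsL : s.length < E.L := by
      have h := (mem_filter.1 hz).2
      rwa [norm_symm, FreeGroup.norm] at h
    by_cases his : i ≤ s.length
    · refine E.not_b₀ hu.1 hu.2.2 (lt_of_le_of_lt
        (norm_mul_three _ (E.pos z * FreeGroup.mk ((word z).take i)) _) ?_)
      have e : ((FreeGroup.mk u)⁻¹ * (E.pos z * FreeGroup.mk ((word z).take i))).norm < 2 * E.L := by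
        rw [show (word z).take i = s.take i from List.take_append_of_le_length his, ← mul_assoc]
        refine lt_of_le_of_lt (FreeGroup.norm_mul_le _ _) ?_
        have h1 := (mem_filter.1 hz).2
        have h2 := norm_mk_take_le s i
        omega
      rw [R₁]; omega
    · push Not at his
      set j := i - s.length
      have e : E.pos z * FreeGroup.mk ((word z).take i)
          = FreeGroup.mk (u ++ (E.mark (u.getLastD E.a₀)).take j) := by
        rw [show (word z).take i = s ++ (E.mark (u.getLastD E.a₀)).take j by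
          simp only [word, ← hs, List.take_append, List.take_of_length_le his.le, j],
          ← mul_mk, hs, mk_toWord, mul_assoc (E.pos z)⁻¹, mul_inv_cancel_left, mul_mk]
      rw [e] at hn
      refine E.not_b₀ ?_ (hthead (List.prefix_append _ _)) (lt_of_le_of_lt hn (by rw [R₁]; omega))
      refine red_of_init hredt ((List.prefix_append_right_inj _).2 (List.take_prefix _ _))
  let B : Γ × O → Finset (Sym2 (Γ × O)) := fun z => (W z).edges.toFinset
  let g : Γ × O → Γ × O := fun z => (γ z, E.o₁)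
  let S2 : Γ × O → Finset (Γ × O) := fun z => (E.om ρ').image (tr (γ z))
  have hπ : ∀ z, E.π (γ z) = FreeGroup.mk t := fun z => (hγ z).trans (hword z)
  have hS2 : ∀ z ∈ Z, S2 z ⊆ E.om R ∧ ∀ x ∈ S2 z, x ∈ E.above 1 u := by
    intro z hz
    have key : ∀ y ∈ E.om ρ', u <+: (FreeGroup.mk t * E.pos y).toWord := fun y hy => by
      have h := (E.mem_om.1 hy).2
      have e : t = (u ++ [E.pad (u.getLastD E.a₀)]) ++ List.replicate E.R₁ (li E.a₀) := by
        simp [ht, mark]
      have h' : (u ++ [E.pad (u.getLastD E.a₀)]) <+: (FreeGroup.mk t * E.pos y).toWord := by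
        rw [e]
        refine prefix_mul (e ▸ hredt) ?_
        rw [invRev_replicate, li_li]
        exact h
      exact (List.prefix_append _ _).trans h'
    have hmem : ∀ x ∈ S2 z, x ∈ E.om R ∧ x ∈ E.above 1 u := by
      intro x hx
      obtain ⟨y, hy, rfl⟩ := mem_image.1 hx
      have hk := key y hy
      rw [← hπ z, ← E.pos_tr] at hk
      refine ⟨E.mem_om.2 ⟨?_, fun hb => ?_⟩, E.mem_above_one.2 hk⟩
      · have h1 := E.len_mul (γ z) y.1
        have h2 := E.len_support (W z) (W z).end_mem_support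
        have h3 := (E.mem_om.1 hy).1
        have h4 := (E.mem_om.1 (mem_filter.1 hz).1).1
        have h5 := hzlen z hz
        show E.len (γ z * y.1) ≤ R
        have h2' : E.len (γ z) ≤ E.len z.1 + (W z).length := h2
        omega
      · obtain ⟨c, hc⟩ := hb
        refine hthead hk ?_
        rw [← hc, b₀]
        obtain ⟨m, hm⟩ : ∃ m, E.R₁ = m + 1 := ⟨E.R₁ - 1, by have := E.one_le_R; omega⟩
        simp [hm, List.replicate_succ]
    exact ⟨fun x hx => (hmem x hx).1, fun x hx => (hmem x hx).2⟩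
  have hB : ∀ z ∈ Z, B z ⊆ inE E.nb (E.om R) ∧ (B z).card ≤ E.blockLen ∧
      ∀ x, OnBlock B z x → cl (B z) x (g z) := by
    intro z hz
    have htoB : ∀ x ∈ (W z).support, cl (B z) x (g z) := fun x hx => by
      have hmem : ∀ e ∈ ((W z).dropUntil x hx).edges,
          e ∈ (SimpleGraph.fromEdgeSet ((B z : Finset _) : Set (Sym2 (Γ × O)))).edgeSet := by
        intro e he
        have he' := (W z).edges_dropUntil_subset_edges hx he
        rw [SimpleGraph.edgeSet_fromEdgeSet]
        exact ⟨List.mem_toFinset.2 he', E.G.not_isDiag_of_mem_edgeSet ((W z).edges_subset_edgeSet he')⟩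
      exact ⟨((W z).dropUntil x hx).transfer _ hmem⟩
    refine ⟨fun e he => (inE_iff E.hl).2 ⟨(W z).edges_subset_edgeSet (List.mem_toFinset.1 he),
      fun x hx => hsupp z hz x (SimpleGraph.Walk.mem_support_of_mem_edges (List.mem_toFinset.1 he) hx)⟩,
      ((W z).edges.toFinset_card_le).trans ((W z).length_edges.le.trans (hzlen z hz)), ?_⟩
    rintro x (rfl | ⟨e, he, hx⟩)
    · exact htoB _ (W x).start_mem_support
    · exact htoB x (SimpleGraph.Walk.mem_support_of_mem_edges (List.mem_toFinset.1 he) hx)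
  have hβ : ∀ z ∈ Z, E.PsiN ρ' ℓ p v ≤ hitN E.nb (S2 z) p (g z) (E.above 1 (E.join u v)) ℓ := by
    intro z hz
    have e : g z = tr (γ z) ((1 : Γ), E.o₁) := by simp [g, tr]
    rw [e, E.hitN_tr, PsiN]
    refine hitN_mono E.hl Subset.rfl (fun y hy => ?_) le_rfl hp hp1 _
    rw [E.mem_above_one] at hy
    show E.join u v <+: (((E.π (γ z))⁻¹ * 1)⁻¹ * E.pos y).toWord
    rw [mul_one, inv_inv, hπ z]
    have hred : Red (t ++ (E.pos y).toWord) := by
      refine red_append.2 ⟨hredt, red_toWord _, fun a ha b hb => ?_⟩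
      rw [ht, List.getLast?_append, E.mark_getLast, Option.some_or, Option.mem_def,
        Option.some.injEq] at ha
      subst ha
      rw [li_li]
      obtain ⟨c, hc⟩ := hy
      rw [← hc, List.head?_append_of_ne_nil _ hv.2.1] at hb
      exact E.strict_head hv b hb
    rw [toWord_append hred]
    exact (List.prefix_append_right_inj t).2 hy
  have hmain := glueN E.hl (E.om_mono (by omega : ρ ≤ R)) hp hp1 (T := E.above 1 (E.join u v)) Z
    (E.not_mem_above_one hu.2.1 E.o₁)
    (fun x y hadj hx hy hys => mem_filter.2 ⟨hys, by simpa using E.cross hadj hx hy⟩)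
    B g E.blockLen hB S2 hS2 ℓ (E.psiN_nonneg ρ' ℓ hp hp1 v) hβ
  refine le_trans ?_ hmain
  rw [mul_right_comm (p ^ E.blockLen)]
  have hn := mul_nonneg (E.psi_nonneg ρ hp hp1 u) (E.psiN_nonneg ρ' ℓ hp hp1 v)
  have hc : E.c₁ p ≤ p ^ E.blockLen := by
    rw [c₁]; have := pow_nonneg hp E.blockLen; linarith
  have := mul_le_mul_of_nonneg_right hc hn
  simp only [Psi, PsiN, ← mul_assoc] at this ⊢
  exact this

/-- Stop words of a code whose weighted sum exceeds one. -/
theorem exists_stopN (hp : 0 < p) (hp1 : p ≤ 1) {θ : ℝ} (hθ : 0 < θ) (hnb : ¬ E.Bound p θ) :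
    ∃ (r : ℕ) (κ : ℝ), 0 < κ ∧ κ ≤ 1 ∧ ∀ n : ℕ, ∀ t : ℝ, (1 / 2 : ℝ) ^ n ≤ t → t ≤ 1 →
      ∃ W : Finset (List (α × Bool)), PrefixFree W ∧
        (∀ w ∈ W, E.Strict w ∧ w.length ≤ (n + 1) * r ∧ κ * t ≤ E.PsiN ((n + 1) * r) ((n + 1) * r) p w) ∧
        t ^ (-θ) ≤ W.card := by
  classical
  simp only [Bound, not_forall, not_le] at hnb
  obtain ⟨ρ, W₀, hW₀, hs₀, hgt₀⟩ := hnb
  set W₁ := W₀.filter fun v => 0 < E.Psi ρ p v with hW₁
  have hW₁' : PrefixFree W₁ := fun u hu v hv h => hW₀ u (mem_filter.1 hu).1 v (mem_filter.1 hv).1 h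
  have hs₁ : ∀ v ∈ W₁, E.Strict v := fun v hv => hs₀ v (mem_filter.1 hv).1
  set P : List (α × Bool) → ℝ := fun v => E.c₁ p * E.Psi ρ p v with hP
  have hc := E.c₁_pos hp
  have hP0 : ∀ v ∈ W₁, 0 < P v := fun v hv => mul_pos hc (mem_filter.1 hv).2
  have hPhalf : ∀ v, P v ≤ 1 / 2 := fun v =>
    (mul_le_of_le_one_right hc.le (E.psi_le_one ρ hp.le hp1 v)).trans (E.c₁_le_half hp.le hp1)
  have hgt : 1 < ∑ v ∈ W₁, P v ^ θ := by
    have e : ∑ v ∈ W₁, P v ^ θ = E.c₁ p ^ θ * ∑ v ∈ W₁, E.Psi ρ p v ^ θ := by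
      rw [mul_sum]
      exact sum_congr rfl fun v _ => Real.mul_rpow hc.le (E.psi_nonneg ρ hp.le hp1 v)
    rw [e]
    refine lt_of_lt_of_eq hgt₀ (congrArg (fun x : ℝ => E.c₁ p ^ θ * x) ?_)
    refine (sum_filter_of_ne fun v _ hne => ?_).symm
    refine lt_of_le_of_ne (E.psi_nonneg ρ hp.le hp1 v) fun h => hne ?_
    rw [← h, Real.zero_rpow hθ.ne']
  have hne : W₁.Nonempty := nonempty_of_sum_ne_zero (s := W₁) (f := fun v => P v ^ θ) (by linarith)
  set κ := W₁.inf' hne P with hκ
  have hκ0 : 0 < κ := (Finset.lt_inf'_iff hne).2 hP0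
  have hκle : ∀ v ∈ W₁, κ ≤ P v := fun v hv => inf'_le _ hv
  set r := ρ + (inE E.nb (E.om ρ)).card + E.blockLen + E.R₁ + 1 + W₁.sup List.length with hr
  refine ⟨r, κ, hκ0, (hκle _ hne.choose_spec).trans ((hPhalf _).trans (by norm_num)), fun n => ?_⟩
  have hbase : ∀ v ∈ W₁, ∀ n : ℕ, v.length ≤ (n + 1) * r ∧
      ∀ t : ℝ, t ≤ 1 → κ * t ≤ E.PsiN ((n + 1) * r) ((n + 1) * r) p v := fun v hv n => by
    have h1 : r ≤ (n + 1) * r := Nat.le_mul_of_pos_left r (Nat.succ_pos n)
    have h2 : v.length ≤ W₁.sup List.length := le_sup (f := List.length) hv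
    refine ⟨by omega, fun t ht => (mul_le_of_le_one_right hκ0.le ht).trans ((hκle v hv).trans ?_)⟩
    exact (mul_le_of_le_one_left (E.psi_nonneg ρ hp.le hp1 v) (E.c₁_le_one hp.le hp1)).trans
      ((E.psi_le_psiN ρ hp.le hp1 v).trans (E.psiN_mono (by omega) (by omega) hp.le hp1 v))
  induction n with
  | zero =>
    intro t ht0 ht1
    rw [pow_zero] at ht0
    obtain rfl : t = 1 := le_antisymm ht1 ht0
    refine ⟨W₁, hW₁', fun w hw => ⟨hs₁ w hw, (hbase w hw 0).1, (hbase w hw 0).2 1 le_rfl⟩, ?_⟩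
    rw [Real.one_rpow]
    exact_mod_cast hne.card_pos
  | succ n ih =>
    intro t ht0 ht1
    have htpos : 0 < t := lt_of_lt_of_le (by positivity) ht0
    have hsub : ∀ v ∈ W₁, ∃ S : Finset (List (α × Bool)), PrefixFree S ∧
        (∀ w ∈ S, v <+: w ∧ E.Strict w ∧ w.length ≤ (n + 1 + 1) * r ∧
          κ * t ≤ E.PsiN ((n + 1 + 1) * r) ((n + 1 + 1) * r) p w) ∧
        P v ^ θ * t ^ (-θ) ≤ S.card := by
      intro v hv
      rcases le_or_gt (P v) t with hle | hlt
      · refine ⟨{v}, ?_, ?_, ?_⟩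
        · intro a ha b hb _
          rw [mem_singleton] at ha hb
          rw [ha, hb]
        · intro w hw
          rw [mem_singleton] at hw
          subst hw
          exact ⟨List.prefix_refl _, hs₁ w hv, (hbase w hv (n + 1)).1, (hbase w hv (n + 1)).2 t ht1⟩
        · rw [card_singleton, Nat.cast_one, Real.rpow_neg htpos.le, ← div_eq_mul_inv,
            div_le_one (Real.rpow_pos_of_pos htpos θ)]
          exact Real.rpow_le_rpow (hP0 v hv).le hle hθ.le
      · have hPv := hP0 v hv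
        obtain ⟨S, hS, hSw, hcard⟩ := ih (t / P v) (by
            rw [le_div_iff₀ hPv]
            refine le_trans (mul_le_mul_of_nonneg_left (hPhalf v) (by positivity)) ?_
            rw [← pow_succ]; exact ht0)
          ((div_le_one hPv).2 hlt.le)
        refine ⟨S.image (E.join v), ?_, ?_, ?_⟩
        · intro a ha b hb hab
          obtain ⟨a, ha', rfl⟩ := mem_image.1 ha
          obtain ⟨b, hb', rfl⟩ := mem_image.1 hb
          rw [hS a ha' b hb' (E.join_prefix hW₁' hv hv hab).2]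
        · intro w hw
          obtain ⟨w, hw', rfl⟩ := mem_image.1 hw
          obtain ⟨hws, hwl, hwp⟩ := hSw w hw'
          refine ⟨by rw [join, List.append_assoc]; exact List.prefix_append _ _,
            E.strict_join (hs₁ v hv) hws, ?_, ?_⟩
          · have : v.length ≤ W₁.sup List.length := le_sup (f := List.length) hv
            have e : (n + 1 + 1) * r = (n + 1) * r + r := by ring
            simp only [join, List.length_append, E.mark_length]
            omega
          · refine le_trans ?_ (le_trans (E.psiN_join hp.le hp1 ρ ((n + 1) * r) ((n + 1) * r)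
              (hs₁ v hv) hws) (E.psiN_mono ?_ ?_ hp.le hp1 _))
            · calc κ * t = P v * (κ * (t / P v)) := by
                    rw [mul_div_assoc', mul_div_cancel₀ _ hPv.ne']
                _ ≤ P v * E.PsiN ((n + 1) * r) ((n + 1) * r) p w :=
                    mul_le_mul_of_nonneg_left hwp hPv.le
            · have e : (n + 1 + 1) * r = (n + 1) * r + r := by ring
              omega
            · have e : (n + 1 + 1) * r = (n + 1) * r + r := by ring
              omega
        · rw [card_image_of_injOn fun a ha b hb e => hS a ha b hb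
            ((E.join_prefix hW₁' hv hv (show E.join v a <+: E.join v b by rw [e])).2)]
          refine le_trans (le_of_eq ?_) hcard
          rw [Real.div_rpow htpos.le hPv.le, Real.rpow_neg hPv.le, div_inv_eq_mul, mul_comm]
    choose! S hSpf hSw hScard using hsub
    refine ⟨W₁.biUnion S, ?_, fun w hw => ?_, ?_⟩
    · intro a ha b hb hab
      obtain ⟨v, hv, ha'⟩ := mem_biUnion.1 ha
      obtain ⟨v', hv', hb'⟩ := mem_biUnion.1 hb
      have e : v = v' := by
        rcases List.prefix_or_prefix_of_prefix (((hSw v hv a ha').1).trans hab) (hSw v' hv' b hb').1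
          with h | h
        · exact hW₁' v hv v' hv' h
        · exact (hW₁' v' hv' v hv h).symm
      subst e
      exact hSpf v hv a ha' b hb' hab
    · obtain ⟨v, hv, hw'⟩ := mem_biUnion.1 hw
      exact (hSw v hv w hw').2
    · rw [card_biUnion fun v hv v' hv' hne => disjoint_left.2 fun a ha ha' => hne (by
        rcases List.prefix_or_prefix_of_prefix (hSw v hv a ha).1 (hSw v' hv' a ha').1 with h | h
        · exact hW₁' v hv v' hv' h
        · exact (hW₁' v' hv' v hv h).symm), Nat.cast_sum]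
      calc t ^ (-θ) ≤ (∑ v ∈ W₁, P v ^ θ) * t ^ (-θ) :=
            le_mul_of_one_le_left (Real.rpow_nonneg htpos.le _) hgt.le
        _ ≤ ∑ v ∈ W₁, ((S v).card : ℝ) := by rw [sum_mul]; exact sum_le_sum hScard

theorem exists_chainsN (hp0 : 0 < p) (hp1 : p ≤ 1) {θ : ℝ} (hθ : 0 < θ) (hnb : ¬ E.Bound p θ) :
    ∃ (C : ℕ) (κ : ℝ), 0 < κ ∧ ∀ L : ℕ, 1 ≤ L → ∀ m : α × Bool,
      ∃ W : Finset (List (α × Bool)), PrefixFree W ∧
        (∀ w ∈ W, Red w ∧ w.head? = some m ∧ w.length ≤ C * (Nat.log 2 L + 1)) ∧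
        κ * (L : ℝ) ^ θ ≤ W.card ∧
        ∀ p' : ℝ, p ≤ p' → p' ≤ 1 → ∀ z, ∀ w ∈ W, κ / L ≤
          hitN E.nb (E.chainSet z m C L) p' z (E.above (E.pos z) w) (C * (Nat.log 2 L + 1)) := by
  classical
  obtain ⟨r, κ₀, hκ0, hκ1, hstop⟩ := E.exists_stopN hp0 hp1 hθ hnb
  set k := E.leg * (E.R₁ + 3) with hk
  set C := E.L * k + k + 2 * r + E.R₁ + 2 with hC
  refine ⟨C, p ^ k * κ₀, mul_pos (pow_pos hp0 _) hκ0, fun L hL m => ?_⟩
  set lg := Nat.log 2 L
  have hLpos : (0 : ℝ) < L := by exact_mod_cast hL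
  have hsmall : (1 / 2 : ℝ) ^ (lg + 1) ≤ 1 / L := by
    rw [one_div_pow]
    refine one_div_le_one_div_of_le hLpos ?_
    have h := Nat.lt_pow_succ_log_self one_lt_two L
    calc (L : ℝ) ≤ ((2 ^ (lg + 1) : ℕ) : ℝ) := by exact_mod_cast h.le
      _ = 2 ^ (lg + 1) := by push_cast; ring
  obtain ⟨W', hW', hWw, hcard⟩ := hstop (lg + 1) (1 / L) hsmall
    ((div_le_one hLpos).2 (by exact_mod_cast hL))
  set head := [m] ++ E.mark m with hhead
  have hredh : Red head := red_append.2 ⟨List.isChain_singleton m, E.red_mark m, fun x hx y hy => by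
    simp only [List.getLast?_singleton, Option.mem_def, Option.some.injEq] at hx
    simp only [mark, List.head?_cons, Option.mem_def, Option.some.injEq] at hy
    subst hx hy
    exact (E.pad_spec m).1⟩
  have hredw : ∀ y : List (α × Bool), Red y → y.head? ≠ some E.a₀ → Red (head ++ y) := by
    intro y hy hy0
    refine red_append.2 ⟨hredh, hy, fun x hx b hb => ?_⟩
    rw [hhead, List.getLast?_append, E.mark_getLast, Option.some_or, Option.mem_def,
      Option.some.injEq] at hx
    subst hx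
    rw [li_li]
    exact fun e => hy0 (by rw [Option.mem_def] at hb; rw [hb, e])
  refine ⟨W'.image (head ++ ·), ?_, ?_, ?_, ?_⟩
  · intro a ha b hb hab
    obtain ⟨a, ha', rfl⟩ := mem_image.1 ha
    obtain ⟨b, hb', rfl⟩ := mem_image.1 hb
    rw [hW' a ha' b hb' ((List.prefix_append_right_inj _).1 hab)]
  · intro w hw
    obtain ⟨w, hw', rfl⟩ := mem_image.1 hw
    refine ⟨hredw w (hWw w hw').1.1 (hWw w hw').1.2.2, by simp [hhead], ?_⟩
    have h1 := (hWw w hw').2.1
    have e1 : (lg + 1 + 1) * r = (lg + 1) * r + r := by ring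
    have e2 : C * (lg + 1) = (E.L * k + k) * (lg + 1) + 2 * ((lg + 1) * r) + (E.R₁ + 2) * (lg + 1) := by
      rw [hC]; ring
    have e3 : E.R₁ + 2 ≤ (E.R₁ + 2) * (lg + 1) := Nat.le_mul_of_pos_right _ (Nat.succ_pos _)
    have e4 : r ≤ (lg + 1) * r := Nat.le_mul_of_pos_left _ (Nat.succ_pos _)
    simp only [hhead, List.length_append, List.length_singleton, E.mark_length]
    omega
  · rw [card_image_of_injective _ (List.append_right_injective head)]
    refine le_trans ?_ hcard
    rw [one_div, Real.inv_rpow hLpos.le, Real.rpow_neg hLpos.le, inv_inv]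
    exact mul_le_of_le_one_left (Real.rpow_nonneg hLpos.le _)
      (mul_le_one₀ (pow_le_one₀ hp0.le hp1) hκ0.le hκ1)
  · intro p' hpp hp' z w hw
    refine le_trans ?_ (avg_mono_p _ hp0.le hpp hp' _ (monotone_ind (inc_hitN _ _ _)))
    obtain ⟨w, hw', rfl⟩ := mem_image.1 hw
    obtain ⟨hws, -, hwp⟩ := hWw w hw'
    obtain ⟨γ, hγ, W, hWl, -⟩ := E.exists_path head z
    have hlen : W.length ≤ k := hWl.trans (by
      rw [hk]
      refine Nat.mul_le_mul le_rfl ?_
      simp only [hhead, List.length_append, List.length_singleton, E.mark_length]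
      omega)
    have hk1 : k ≤ C * (lg + 1) := le_trans (by omega) (Nat.le_mul_of_pos_right C (Nat.succ_pos lg))
    set R := (lg + 1 + 1) * r
    have hsup : ∀ v ∈ W.support, v ∈ E.chainSet z m C L := by
      intro v hv
      have h1 := E.len_walk (W.takeUntil v hv)
      have h2 := E.norm_walk (W.takeUntil v hv)
      have h3 := (W.length_takeUntil_le_length hv).trans hlen
      refine E.mem_chainSet.2 ⟨(h1.trans h3).trans hk1, Or.inr ?_⟩
      have := Nat.mul_le_mul (le_refl E.L) h3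
      omega
    have hreg : ∀ y ∈ E.om R, tr γ y ∈ E.chainSet z m C L := by
      intro y hy
      obtain ⟨hy1, hy2⟩ := E.mem_om.1 hy
      refine E.mem_chainSet.2 ⟨?_, Or.inl ?_⟩
      · have h1 := E.len_walk W
        have h2 := E.len_mul (z.1⁻¹ * γ) y.1
        have e1 : R = (lg + 1) * r + r := by ring
        have e2 : C * (lg + 1) = k * (lg + 1) + 2 * ((lg + 1) * r) + (E.L * k + E.R₁ + 2) * (lg + 1) := by
          rw [hC]; ring
        have e3 : k ≤ k * (lg + 1) := Nat.le_mul_of_pos_right _ (Nat.succ_pos _)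
        have e4 : r ≤ (lg + 1) * r := Nat.le_mul_of_pos_left _ (Nat.succ_pos _)
        have h1' : E.len (z.1⁻¹ * γ) ≤ W.length := h1
        show E.len (z.1⁻¹ * (γ * y.1)) ≤ C * (lg + 1)
        rw [← mul_assoc]
        omega
      · show [m] <+: ((E.pos z)⁻¹ * E.pos (tr γ y)).toWord
        rw [E.pos_tr, hγ, ← mul_assoc, inv_mul_cancel_left]
        have e : head = [m, E.pad m] ++ List.replicate E.R₁ (li E.a₀) := by simp [hhead, mark]
        have h' : [m, E.pad m] <+: (FreeGroup.mk head * E.pos y).toWord := by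
          rw [e]
          refine prefix_mul (e ▸ hredh) ?_
          rw [invRev_replicate, li_li]
          exact hy2
        exact (List.prefix_append [m] [E.pad m]).trans h'
    have hmove := hitN_move E.hl (nb := E.nb) hp0.le hp1 W hsup (E.above (E.pos z) (head ++ w)) R
    refine le_trans ?_ (hmove.trans (hitN_mono E.hl Subset.rfl Set.Subset.rfl ?_ hp0.le hp1 _))
    swap
    · have e1 : R = (lg + 1) * r + r := by ring
      have e2 : C * (lg + 1) = k * (lg + 1) + 2 * ((lg + 1) * r) + (E.L * k + E.R₁ + 2) * (lg + 1) := by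
        rw [hC]; ring
      have e3 : k ≤ k * (lg + 1) := Nat.le_mul_of_pos_right _ (Nat.succ_pos _)
      have e4 : r ≤ (lg + 1) * r := Nat.le_mul_of_pos_left _ (Nat.succ_pos _)
      omega
    rw [mul_div_assoc]
    refine mul_le_mul (pow_le_pow_of_le_one hp0.le hp1 hlen) ?_ (by positivity) (pow_nonneg hp0.le _)
    rw [mul_one_div] at hwp
    refine hwp.trans ?_
    refine le_trans ?_ (hitN_mono E.hl (S := (E.om R).image (tr γ)) (fun x hx => by
      obtain ⟨y, hy, rfl⟩ := mem_image.1 hx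
      exact hreg y hy) Set.Subset.rfl le_rfl hp0.le hp1 _)
    rw [show ((γ, E.o₁) : Γ × O) = tr γ ((1 : Γ), E.o₁) by simp [tr], E.hitN_tr, PsiN]
    refine hitN_mono E.hl Subset.rfl (fun y hy => ?_) le_rfl hp0.le hp1 _
    rw [E.mem_above_one] at hy
    show head ++ w <+: (((E.π γ)⁻¹ * E.pos z)⁻¹ * E.pos y).toWord
    rw [mul_inv_rev, inv_inv, hγ, inv_mul_cancel_left]
    rw [toWord_append (hredw _ (red_toWord _) (by
      obtain ⟨c, hc⟩ := hy
      rw [← hc, List.head?_append_of_ne_nil _ hws.2.1]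
      exact hws.2.2))]
    exact (List.prefix_append_right_inj head).2 hy

end Vale.Agent.P165.FP.Base
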