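import Vale.Agent.P165.FQ.Glue

/-!
# Open walks of bounded length

`Within a K η y`: some open walk of at most `K` steps leads from `a` to `y`, so that
`HitN T K a η` is `∃ t ∈ T, Within a K η t`.
-/

namespace Vale.Agent.P165.FQ

open Finset FF

variable {V : Type}

/-- `y` is reached from `a` by an open walk of at most `K` steps. -/
def Within (a : V) (K : ℕ) (η : Finset (Sym2 V)) (y : V) : Prop :=
  ∃ w : (SimpleGraph.fromEdgeSet (η : Set (Sym2 V))).Walk a y, w.length ≤ K

theorem within_refl (a : V) (K : ℕ) (η : Finset (Sym2 V)) : Within a K η a := ⟨.nil, Nat.zero_le K⟩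

theorem within_mono {a y : V} {K K' : ℕ} {η η' : Finset (Sym2 V)} (hK : K ≤ K') (h : η ⊆ η')
    (hy : Within a K η y) : Within a K' η' y := by
  obtain ⟨w, hw⟩ := hy
  exact ⟨w.mapLe (SimpleGraph.fromEdgeSet_mono (coe_subset.2 h)), by
    rw [SimpleGraph.Walk.length_map]; omega⟩

theorem within_trans {a y t : V} {K K' : ℕ} {η : Finset (Sym2 V)} (h : Within a K η y)
    (h' : Within y K' η t) : Within a (K + K') η t := by
  obtain ⟨w, hw⟩ := h
  obtain ⟨w', hw'⟩ := h'
  exact ⟨w.append w', by rw [SimpleGraph.Walk.length_append]; omega⟩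

theorem within_symm {a y : V} {K : ℕ} {η : Finset (Sym2 V)} (h : Within a K η y) :
    Within y K η a := by
  obtain ⟨w, hw⟩ := h
  exact ⟨w.reverse, by rw [SimpleGraph.Walk.length_reverse]; omega⟩

theorem within_edge {y x : V} {η : Finset (Sym2 V)} (hne : y ≠ x) (h : s(y, x) ∈ η) :
    Within y 1 η x :=
  ⟨.cons ((SimpleGraph.fromEdgeSet_adj _).2 ⟨h, hne⟩) .nil, by simp⟩

theorem inc_within (a y : V) (K : ℕ) : Inc fun η : Finset (Sym2 V) => Within a K η y :=
  fun _ _ h => within_mono le_rfl h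

theorem within_of_walk {η η' : Finset (Sym2 V)} {a y : V} {K : ℕ}
    (w : (SimpleGraph.fromEdgeSet (η : Set (Sym2 V))).Walk a y) (hw : w.length ≤ K)
    (h : ∀ e ∈ w.edges, e ∈ η') : Within a K η' y := by
  refine ⟨w.transfer _ fun e he => ?_, by rw [SimpleGraph.Walk.length_transfer]; exact hw⟩
  have h2 := w.edges_subset_edgeSet he
  rw [SimpleGraph.edgeSet_fromEdgeSet] at h2 ⊢
  exact ⟨mem_coe.2 (h e he), h2.2⟩

/-- The last step. -/
theorem within_succ {a y : V} {K : ℕ} {η : Finset (Sym2 V)} (h : Within a (K + 1) η y) :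
    Within a K η y ∨ ∃ x, Within a K η x ∧ x ≠ y ∧ s(x, y) ∈ η := by
  obtain ⟨w, hw⟩ := within_symm h
  cases w with
  | nil => exact Or.inl (within_refl _ K η)
  | @cons _ x _ hadj w' =>
    obtain ⟨he, hne⟩ := (SimpleGraph.fromEdgeSet_adj _).1 hadj
    refine Or.inr ⟨x, within_symm ⟨w', ?_⟩, hne.symm, ?_⟩
    · rw [SimpleGraph.Walk.length_cons] at hw; omega
    · rw [Sym2.eq_swap]; exact he

theorem hitN_iff {T : Set V} {K : ℕ} {a : V} {η : Finset (Sym2 V)} :
    HitN T K a η ↔ ∃ t ∈ T, Within a K η t := Iff.rfl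

/-- Distances are measured inside the available edges. -/
theorem within_inter_self [DecidableEq V] {E η : Finset (Sym2 V)} (h : η ⊆ E) {a y : V} {K : ℕ} :
    Within a K (η ∩ E) y ↔ Within a K η y := by
  rw [inter_eq_left.2 h]

end Vale.Agent.P165.FQ
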