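import Vale.Agent.P165.FP.Insert
import Vale.Agent.P165.FQ.Within

/-!
# Short open paths: a union bound without separation, and insertion without error

Distances are lengths of open walks. If many points have a short open path to a target with a small
probability, then with a probability that is not small one of them has one: given an open path,
another point gains only the chance of reaching that path. An increasing event of the explored ball
with many such points then mostly reaches the target by a walk that is not much longer, since the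
edges whose closing gives an exit lie on one short walk.
-/

namespace Vale.Agent.P165.FQ

open Finset FF

variable {V : Type}

variable [DecidableEq V]

/-- The part of a walk before its first use of an edge in `π`. -/
theorem first_use {η π : Finset (Sym2 V)} :
    ∀ {a y : V} (w : (SimpleGraph.fromEdgeSet (η : Set (Sym2 V))).Walk a y),
      (∃ e ∈ w.edges, e ∈ π) →
        ∃ u, (∃ e ∈ π, u ∈ e) ∧
          ∃ w' : (SimpleGraph.fromEdgeSet (η : Set (Sym2 V))).Walk a u,
            w'.length < w.length ∧ ∀ e ∈ w'.edges, e ∈ w.edges ∧ e ∉ π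
  | _, _, .nil, ⟨e, he, _⟩ => by simp at he
  | a, _, .cons (v := b) hadj w, ⟨e, he, heπ⟩ => by
      by_cases hab : s(a, b) ∈ π
      · exact ⟨a, ⟨_, hab, Sym2.mem_mk_left a b⟩, .nil, by simp, by simp⟩
      · rw [SimpleGraph.Walk.edges_cons, List.mem_cons] at he
        rcases he with rfl | he
        · exact absurd heπ hab
        obtain ⟨u, hu, w', hlen, hw'⟩ := first_use w ⟨e, he, heπ⟩
        refine ⟨u, hu, .cons hadj w', by simp [hlen], fun f hf => ?_⟩
        rw [SimpleGraph.Walk.edges_cons, List.mem_cons] at hf ⊢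
        rcases hf with rfl | hf
        · exact ⟨Or.inl rfl, hab⟩
        · exact ⟨Or.inr (hw' f hf).1, (hw' f hf).2⟩

omit [DecidableEq V] in
/-- The last step of a walk out of a set, with lengths. -/
theorem last_leave {H : SimpleGraph V} (P : V → Prop) :
    ∀ {z t : V} (w : H.Walk z t), (∃ v ∈ w.support, P v) → ¬ P t →
      ∃ y x, H.Adj y x ∧ P y ∧ ¬ P x ∧
        ∃ σ : H.Walk x t, σ.length < w.length ∧ ∀ v ∈ σ.support, ¬ P v
  | _, _, .nil, ⟨v, hv, hP⟩, ht => by
      simp only [SimpleGraph.Walk.support_nil, List.mem_singleton] at hv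
      exact absurd (hv ▸ hP) ht
  | z, t, .cons (v := b) hadj w, ⟨v, hv, hP⟩, ht => by
      by_cases hrest : ∃ u ∈ w.support, P u
      · obtain ⟨y, x, h1, h2, h3, σ, h4, h5⟩ := last_leave P w hrest ht
        exact ⟨y, x, h1, h2, h3, σ, by rw [SimpleGraph.Walk.length_cons]; omega, h5⟩
      · push Not at hrest
        rw [SimpleGraph.Walk.support_cons, List.mem_cons] at hv
        rcases hv with rfl | hv
        · exact ⟨v, b, hadj, hP, hrest _ w.start_mem_support, w, by simp, hrest⟩
        · exact absurd hP (hrest v hv)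

/-! ### The union bound -/

/-- An increasing function, given that one of some edge sets is open. -/
theorem cover_le {α : Type} [DecidableEq α] (E : Finset α) {p : ℝ} (h0 : 0 ≤ p) (h1 : p ≤ 1)
    (f : Finset α → ℝ) (hf : Monotone f) {C : ℝ} (P : Finset (Finset α))
    (hP : ∀ π ∈ P, π ⊆ E) (hC : ∀ π ∈ P, avg (E \ π) p (fun ξ => f (ξ ∪ π)) ≤ C) :
    avg E p (fun η => ind (∃ π ∈ P, π ⊆ η) * f η)
      ≤ C * avg E p (fun η => ind (∃ π ∈ P, π ⊆ η)) := by
  classical
  induction P using Finset.induction with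
  | empty => simp [ind, avg]
  | @insert π P _ ih =>
    obtain ⟨hπE, hP⟩ := forall_mem_insert _ _ _ |>.1 hP
    obtain ⟨hπC, hC⟩ := forall_mem_insert _ _ _ |>.1 hC
    set D : Finset α → Prop := fun ξ => ∃ π' ∈ P, π' ⊆ ξ ∪ π with hD
    have hsplit : ∀ η, ind (∃ π' ∈ insert π P, π' ⊆ η) = ind (∃ π' ∈ P, π' ⊆ η) +
        (if π ⊆ η then 1 - ind (D (η \ π)) else 0) := by
      intro η
      by_cases hπ : π ⊆ η
      · rw [if_pos hπ, hD]
        simp only [sdiff_union_of_subset hπ]
        rw [show ind (∃ π' ∈ insert π P, π' ⊆ η) = 1 from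
          if_pos ⟨π, mem_insert_self _ _, hπ⟩]
        ring
      · rw [if_neg hπ, add_zero]
        exact congrArg ind (propext ⟨fun ⟨q, hq, h⟩ => ((mem_insert.1 hq).resolve_left
          fun e => hπ (e ▸ h)) |> fun hq' => ⟨q, hq', h⟩,
          fun ⟨q, hq, h⟩ => ⟨q, mem_insert_of_mem hq, h⟩⟩)
    have hg : Monotone fun ξ => ind (D ξ) := fun ξ ξ' h => ind_mono fun ⟨q, hq, h'⟩ =>
      ⟨q, hq, h'.trans (union_subset_union h subset_rfl)⟩
    have hh := harris (E \ π) h0 h1 (fun ξ => ind (D ξ)) (fun ξ => f (ξ ∪ π)) hg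
      fun ξ ξ' h => hf (union_subset_union h subset_rfl)
    have e2 : avg E p (fun η => (if π ⊆ η then 1 - ind (D (η \ π)) else 0) * f η)
        = p ^ π.card * (avg (E \ π) p (fun ξ => f (ξ ∪ π))
          - avg (E \ π) p (fun ξ => ind (D ξ) * f (ξ ∪ π))) := by
      have h := avg_forced hπE p fun ξ => f (ξ ∪ π) + (-1) * (ind (D ξ) * f (ξ ∪ π))
      rw [avg_add, avg_mul] at h
      rw [show avg (E \ π) p (fun ξ => f (ξ ∪ π))
          - avg (E \ π) p (fun ξ => ind (D ξ) * f (ξ ∪ π)) = avg (E \ π) p (fun ξ => f (ξ ∪ π))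
          + -1 * avg (E \ π) p (fun ξ => ind (D ξ) * f (ξ ∪ π)) from by ring, ← h]
      refine avg_congr _ _ fun η _ => ?_
      by_cases hπ : π ⊆ η
      · simp only [if_pos hπ, sdiff_union_of_subset hπ]; ring
      · simp only [if_neg hπ, zero_mul]
    have e3 : avg E p (fun η => if π ⊆ η then 1 - ind (D (η \ π)) else 0)
        = p ^ π.card * (1 - avg (E \ π) p (fun ξ => ind (D ξ))) := by
      have h := avg_forced hπE p fun ξ => 1 + (-1) * ind (D ξ)
      rw [avg_add, avg_mul, avg_one] at h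
      rw [show (1 : ℝ) - avg (E \ π) p (fun ξ => ind (D ξ))
          = 1 + -1 * avg (E \ π) p (fun ξ => ind (D ξ)) from by ring, ← h]
      exact avg_congr _ _ fun η _ => if_congr Iff.rfl (by ring) rfl
    have hD1 : avg (E \ π) p (fun ξ => ind (D ξ)) ≤ 1 :=
      (avg_mono _ h0 h1 fun _ _ => ind_le_one _).trans (avg_one _ _).le
    rw [avg_congr E p (fun η _ => by rw [hsplit η, add_mul]), avg_add, e2,
      avg_congr E p (fun η _ => hsplit η), avg_add, e3, mul_add]
    refine add_le_add (ih hP hC) ?_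
    rw [mul_left_comm C]
    refine mul_le_mul_of_nonneg_left ?_ (pow_nonneg h0 _)
    refine le_trans ?_ (mul_le_mul_of_nonneg_right hπC (sub_nonneg.2 hD1))
    linarith [hh]

open Classical in
/-- Many points with short open paths to `T`: one of them has one with good probability. -/
theorem union_lower (E : Finset (Sym2 V)) {p : ℝ} (h0 : 0 ≤ p) (h1 : p ≤ 1) (T : Set V) (l : ℕ)
    (Z : Finset V) {β B : ℝ} (hβ : ∀ z ∈ Z, β ≤ avg E p (fun η => ind (HitN T l z η)))
    (hB : ∀ u, ∑ z ∈ Z, avg E p (fun η => ind (Within u l η z)) ≤ B) :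
    (Z.card : ℝ) * β ≤ avg E p (fun η => ind (∃ z ∈ Z, HitN T l z η))
      * ((Z.card : ℝ) * β + ((l : ℝ) + 1) * B) := by
  set N : Finset (Sym2 V) → ℝ := fun η => ∑ z ∈ Z, ind (HitN T l z η) with hN
  rcases Z.eq_empty_or_nonempty with rfl | ⟨z₁, hz₁⟩
  · simp [ind, avg]
  have hB0 : 0 ≤ B :=
    (sum_nonneg fun _ _ => avg_nonneg _ h0 h1 fun _ _ => ind_nonneg _).trans (hB z₁)
  set P := E.powerset.filter fun π : Finset (Sym2 V) => ∃ z ∈ Z, ∃ t ∈ T,
    ∃ w : (SimpleGraph.fromEdgeSet (π : Set (Sym2 V))).Walk z t,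
      w.length ≤ l ∧ w.edges.toFinset = π with hP
  set U := avg E p (fun η => ind (∃ z ∈ Z, HitN T l z η)) with hU
  have hev : ∀ η, η ⊆ E → ((∃ π ∈ P, π ⊆ η) ↔ ∃ z ∈ Z, HitN T l z η) := by
    intro η hη
    constructor
    · rintro ⟨π, hπ, hle⟩
      obtain ⟨-, z, hz, t, ht, w, hw, -⟩ := mem_filter.1 hπ
      exact ⟨z, hz, t, ht, within_mono le_rfl hle ⟨w, hw⟩⟩
    · rintro ⟨z, hz, t, ht, w, hw⟩
      have hsub : w.edges.toFinset ⊆ η := fun e he => by
        have h2 := w.edges_subset_edgeSet (List.mem_toFinset.1 he)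
        rw [SimpleGraph.edgeSet_fromEdgeSet] at h2
        exact h2.1
      refine ⟨_, mem_filter.2 ⟨mem_powerset.2 (hsub.trans hη), z, hz, t, ht,
        w.transfer _ fun e he => ?_, ?_, ?_⟩, hsub⟩
      · rw [SimpleGraph.edgeSet_fromEdgeSet]
        exact ⟨mem_coe.2 (List.mem_toFinset.2 he),
          (SimpleGraph.fromEdgeSet _).not_isDiag_of_mem_edgeSet (w.edges_subset_edgeSet he)⟩
      · rw [SimpleGraph.Walk.length_transfer]; exact hw
      · rw [SimpleGraph.Walk.edges_transfer]
  have hmono : Monotone N := fun η η' h =>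
    sum_le_sum fun z _ => ind_mono (inc_hitN T l z η η' h)
  have hcond : ∀ π ∈ P, avg (E \ π) p (fun ξ => N (ξ ∪ π)) ≤ avg E p N + ((l : ℝ) + 1) * B := by
    intro π hπ
    obtain ⟨-, z₀, -, t₀, -, w₀, hw₀, hedges⟩ := mem_filter.1 hπ
    set W := w₀.support.toFinset with hW
    have hends : ∀ u, (∃ e ∈ π, u ∈ e) → u ∈ W := by
      rintro u ⟨e, he, hu⟩
      rw [← hedges, List.mem_toFinset] at he
      exact List.mem_toFinset.2 (SimpleGraph.Walk.mem_support_of_mem_edges he hu)
    have hWc : (W.card : ℝ) ≤ (l : ℝ) + 1 := by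
      have := List.toFinset_card_le w₀.support
      rw [SimpleGraph.Walk.length_support] at this
      exact_mod_cast (this.trans (Nat.add_le_add_right hw₀ 1))
    have hpt : ∀ ξ, N (ξ ∪ π) ≤ N ξ + ∑ u ∈ W, ∑ z ∈ Z, ind (Within u l ξ z) := by
      intro ξ
      rw [hN, sum_comm (s := W)]
      beta_reduce
      rw [← sum_add_distrib]
      refine sum_le_sum fun z _ => ?_
      have hnn : ∀ u ∈ W, 0 ≤ ind (Within u l ξ z) := fun _ _ => ind_nonneg _
      by_cases hh : HitN T l z (ξ ∪ π)
      swap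
      · rw [show ind (HitN T l z (ξ ∪ π)) = 0 from if_neg hh]
        exact add_nonneg (ind_nonneg _) (sum_nonneg hnn)
      rw [show ind (HitN T l z (ξ ∪ π)) = 1 from if_pos hh]
      obtain ⟨t, ht, w, hw⟩ := hh
      have hmem : ∀ e ∈ w.edges, e ∈ ξ ∪ π := fun e he => by
        have h2 := w.edges_subset_edgeSet he
        rw [SimpleGraph.edgeSet_fromEdgeSet] at h2
        exact h2.1
      by_cases huse : ∃ e ∈ w.edges, e ∈ π
      · obtain ⟨u, hu, w', hlen, hw'⟩ := first_use w huse
        have h3 : Within u l ξ z := within_symm (within_of_walk w' (by omega) fun e he =>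
          (mem_union.1 (hmem e (hw' e he).1)).resolve_right (hw' e he).2)
        refine le_trans ?_ (le_add_of_nonneg_left (ind_nonneg _))
        exact le_trans (if_pos h3).ge (single_le_sum hnn (hends u hu))
      · push Not at huse
        refine le_trans ?_ (le_add_of_nonneg_right (sum_nonneg hnn))
        exact le_of_eq (if_pos ⟨t, ht, within_of_walk w hw fun e he =>
          (mem_union.1 (hmem e he)).resolve_right (huse e he)⟩).symm
    refine (avg_mono _ h0 h1 fun ξ _ => hpt ξ).trans ?_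
    rw [avg_add]
    refine add_le_add (avg_mono_set sdiff_subset h0 h1 hmono) ?_
    rw [avg_sum]
    calc ∑ u ∈ W, avg (E \ π) p (fun ξ => ∑ z ∈ Z, ind (Within u l ξ z)) ≤ ∑ _u ∈ W, B := by
          refine sum_le_sum fun u _ => le_trans ?_ (hB u)
          rw [avg_sum]
          exact sum_le_sum fun z _ =>
            avg_mono_set sdiff_subset h0 h1 (monotone_ind (inc_within u z l))
      _ = (W.card : ℝ) * B := by rw [sum_const, nsmul_eq_mul]
      _ ≤ ((l : ℝ) + 1) * B := mul_le_mul_of_nonneg_right hWc hB0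
  have h := cover_le E h0 h1 N hmono P (fun π hπ => mem_powerset.1 (mem_filter.1 hπ).1) hcond
  have e1 : avg E p (fun η => ind (∃ π ∈ P, π ⊆ η)) = U :=
    avg_congr _ _ fun η hη => congrArg ind (propext (hev η hη))
  have e2 : avg E p (fun η => ind (∃ π ∈ P, π ⊆ η) * N η) = avg E p N := by
    refine avg_congr _ _ fun η hη => ?_
    by_cases hex : ∃ π ∈ P, π ⊆ η
    · rw [show ind (∃ π ∈ P, π ⊆ η) = 1 from if_pos hex, one_mul]
    · rw [show ind (∃ π ∈ P, π ⊆ η) = 0 from if_neg hex, zero_mul]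
      exact (sum_eq_zero fun z hz => if_neg fun hc => hex ((hev η hη).2 ⟨z, hz, hc⟩)).symm
  rw [e1, e2] at h
  have hlow : (Z.card : ℝ) * β ≤ avg E p N := by
    rw [hN, avg_sum]
    calc (Z.card : ℝ) * β = ∑ _z ∈ Z, β := by rw [sum_const, nsmul_eq_mul]
      _ ≤ _ := sum_le_sum hβ
  have hU1 : U ≤ 1 := (avg_mono _ h0 h1 fun _ _ => ind_le_one _).trans (avg_one _ _).le
  nlinarith [mul_le_mul_of_nonneg_right hlow (sub_nonneg.2 hU1)]

/-! ### The explored edges -/

open Classical in
/-- The edges of `D` at a vertex within fewer than `K` open steps of `a`. -/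
noncomputable def seenK (D : Finset (Sym2 V)) (a : V) (K : ℕ) (η : Finset (Sym2 V)) :
    Finset (Sym2 V) :=
  D.filter fun e => ∃ v ∈ e, ∃ j < K, Within a j (η ∩ D) v

theorem within_congr {D : Finset (Sym2 V)} {a : V} {K : ℕ} {η η' : Finset (Sym2 V)}
    (h : η' ∩ seenK D a K η = η ∩ seenK D a K η) :
    ∀ j, j ≤ K → ∀ y, Within a j (η' ∩ D) y ↔ Within a j (η ∩ D) y := by
  intro j
  induction j with
  | zero =>
    intro _ y
    constructor <;> rintro ⟨w, hw⟩ <;> cases w with
    | nil => exact within_refl _ _ _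
    | cons _ _ => simp at hw
  | succ j ih =>
    intro hj y
    have key : ∀ x, x ≠ y → Within a j (η ∩ D) x → s(x, y) ∈ D →
        (s(x, y) ∈ η' ↔ s(x, y) ∈ η) := fun x _ hx hD => by
      classical
      have hmem : s(x, y) ∈ seenK D a K η :=
        mem_filter.2 ⟨hD, x, Sym2.mem_mk_left x y, j, by omega, hx⟩
      have h2 := Finset.ext_iff.1 h s(x, y)
      simpa only [mem_inter, hmem, and_true] using h2
    constructor
    · intro hy
      rcases within_succ hy with hy | ⟨x, hx, hne, he⟩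
      · exact within_mono (Nat.le_succ j) subset_rfl ((ih (by omega) y).1 hy)
      · have hx' := (ih (by omega) x).1 hx
        exact within_trans hx' (within_edge hne (mem_inter.2
          ⟨(key x hne hx' (mem_inter.1 he).2).1 (mem_inter.1 he).1, (mem_inter.1 he).2⟩))
    · intro hy
      rcases within_succ hy with hy | ⟨x, hx, hne, he⟩
      · exact within_mono (Nat.le_succ j) subset_rfl ((ih (by omega) y).2 hy)
      · exact within_trans ((ih (by omega) x).2 hx) (within_edge hne (mem_inter.2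
          ⟨(key x hne hx (mem_inter.1 he).2).2 (mem_inter.1 he).1, (mem_inter.1 he).2⟩))

theorem seenK_congr {D : Finset (Sym2 V)} {a : V} {K : ℕ} {η η' : Finset (Sym2 V)}
    (h : η' ∩ seenK D a K η = η ∩ seenK D a K η) : seenK D a K η' = seenK D a K η := by
  classical
  refine filter_congr fun e _ => exists_congr fun v => and_congr_right fun _ =>
    exists_congr fun j => and_congr_right fun hj => within_congr h j hj.le v

theorem seenK_inter (D : Finset (Sym2 V)) (a : V) (K : ℕ) (η : Finset (Sym2 V)) :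
    (η ∩ seenK D a K η) ∩ seenK D a K η = η ∩ seenK D a K η := by
  rw [inter_assoc, inter_self]

/-! ### Insertion -/

/-- Opening `e` gives an exit: it leaves the ball and continues to `T` in fewer than `l` steps. -/
def Exit (D : Finset (Sym2 V)) (a : V) (K l : ℕ) (T : Set V) (η : Finset (Sym2 V))
    (e : Sym2 V) : Prop :=
  ¬ HitN T (K + l) a η ∧ ∃ y x, e = s(y, x) ∧ y ≠ x ∧ Within a K (η ∩ D) y ∧
    ¬ Within a K (η ∩ D) x ∧
    ∃ t ∈ T, ∃ σ : (SimpleGraph.fromEdgeSet (η : Set (Sym2 V))).Walk x t, σ.length < l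

open Classical in
/-- At most `l` edges give an exit when closed, and then the target is reached. -/
theorem exit_count (D : Finset (Sym2 V)) (a : V) (K l : ℕ) (T : Set V) (η : Finset (Sym2 V)) :
    (∑ e ∈ η, ind (Exit D a K l T (η.erase e) e)) ≤ (l : ℝ) * ind (HitN T (K + l) a η) := by
  set P := η.filter fun e => Exit D a K l T (η.erase e) e with hP
  have hsum : (∑ e ∈ η, ind (Exit D a K l T (η.erase e) e)) = (P.card : ℝ) := by
    simp only [ind, sum_boole, hP]
  rw [hsum]
  rcases P.eq_empty_or_nonempty with h | hne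
  · rw [h, card_empty, Nat.cast_zero]
    exact mul_nonneg (Nat.cast_nonneg _) (ind_nonneg _)
  let Lev : ℕ → Prop := fun j => ∃ e ∈ P, ∃ y x, e = s(y, x) ∧ y ≠ x ∧
    Within a j ((η.erase e) ∩ D) y ∧ ¬ Within a K ((η.erase e) ∩ D) x ∧
    ∃ t ∈ T, ∃ σ : (SimpleGraph.fromEdgeSet ((η.erase e : Finset (Sym2 V)) : Set (Sym2 V))).Walk x t,
      σ.length < l
  have hex : ∃ j, j ≤ K ∧ Lev j := by
    obtain ⟨e, he⟩ := hne
    obtain ⟨-, -, y, x, h1, h2, h3, h4, h5⟩ := mem_filter.1 he
    exact ⟨K, le_rfl, e, he, y, x, h1, h2, h3, h4, h5⟩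
  obtain ⟨hjK, e, he, y, x, rfl, hyx, hy, hx, t, ht, σ, hσ⟩ := Nat.find_spec hex
  have hmin : ∀ i < Nat.find hex, ¬ Lev i := fun i hi h =>
    Nat.find_min hex hi ⟨by omega, h⟩
  generalize Nat.find hex = j at hjK hy hmin
  have heη : s(y, x) ∈ η := (mem_filter.1 he).1
  obtain ⟨α, hα⟩ := hy
  have hαe : ∀ f ∈ α.edges, f ∈ η.erase s(y, x) ∧ f ∈ D := fun f hf => by
    have h2 := α.edges_subset_edgeSet hf
    rw [SimpleGraph.edgeSet_fromEdgeSet] at h2
    exact mem_inter.1 h2.1
  have hσe : ∀ f ∈ σ.edges, f ∈ η.erase s(y, x) := fun f hf => by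
    have h2 := σ.edges_subset_edgeSet hf
    rw [SimpleGraph.edgeSet_fromEdgeSet] at h2
    exact h2.1
  have hhit : HitN T (K + l) a η := ⟨t, ht, within_mono (by omega) subset_rfl
    (within_trans (within_trans (within_of_walk α hα fun f hf => mem_of_mem_erase (hαe f hf).1)
      (within_edge hyx heη)) (within_of_walk σ le_rfl fun f hf => mem_of_mem_erase (hσe f hf)))⟩
  rw [show ind (HitN T (K + l) a η) = 1 from if_pos hhit, mul_one]
  have hsub : P ⊆ insert s(y, x) σ.edges.toFinset := by
    intro f hf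
    by_contra hnot
    rw [mem_insert, List.mem_toFinset, not_or] at hnot
    obtain ⟨hfe, hfσ⟩ := hnot
    obtain ⟨hfη, hnh, y', x', hf', hne', hy', hx', hrest⟩ := mem_filter.1 hf
    by_cases hfα : f ∈ α.edges
    · obtain ⟨u, ⟨f', hf'', hu⟩, w', hlen, hw'⟩ :=
        first_use (π := {f}) α ⟨f, hfα, mem_singleton_self f⟩
      rw [mem_singleton] at hf''
      subst hf''
      have hu' : Within a w'.length ((η.erase f') ∩ D) u := within_of_walk w' le_rfl fun g hg =>
        mem_inter.2 ⟨mem_erase.2 ⟨fun h => (hw' g hg).2 (mem_singleton.2 h),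
          mem_of_mem_erase (hαe g (hw' g hg).1).1⟩, (hαe g (hw' g hg).1).2⟩
      have hK : Within a K ((η.erase f') ∩ D) u := within_mono (by omega) subset_rfl hu'
      rw [hf'] at hu
      rcases Sym2.mem_iff.1 hu with rfl | rfl
      · exact hmin w'.length (by omega) ⟨f', hf, u, x', hf', hne', hu', hx', hrest⟩
      · exact hx' hK
    · refine hnh ⟨t, ht, within_mono (by omega) subset_rfl (within_trans (within_trans
        (within_of_walk α hα fun g hg => mem_erase.2
          ⟨fun h => hfα (h ▸ hg), mem_of_mem_erase (hαe g hg).1⟩)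
        (within_edge hyx (mem_erase.2 ⟨Ne.symm hfe, heη⟩)))
        (within_of_walk σ le_rfl fun g hg => mem_erase.2
          ⟨fun h => hfσ (h ▸ hg), mem_of_mem_erase (hσe g hg)⟩))⟩
  have := (card_le_card hsub).trans (card_insert_le _ _)
  have h2 := List.toFinset_card_le σ.edges
  rw [SimpleGraph.Walk.length_edges] at h2
  exact_mod_cast (show P.card ≤ l by omega)

open Classical in
/-- Insertion: an increasing event of the balls inside `D`, from which trials succeed with
probability at least `c`, mostly reaches the target within `K + l` steps. -/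
theorem insertion {E D : Finset (Sym2 V)} (hD : D ⊆ E) {p : ℝ} (h0 : 0 < p) (h1 : p ≤ 1)
    (a : V) (T : Set V) (K l : ℕ) (Z : Finset V) (A : Finset (Sym2 V) → Prop) (hInc : Inc A)
    (hdet : ∀ η η', η ⊆ E → η' ⊆ E →
      (∀ j, j ≤ K → ∀ y, Within a j (η' ∩ D) y ↔ Within a j (η ∩ D) y) → A η → A η')
    {c : ℝ} (htrial : ∀ η, η ⊆ E → A η →
      c ≤ avg E p (fun ω => ind (∃ z ∈ Z, Within a K (η ∩ D) z ∧ HitN T l z ω))) :
    c * avg E p (fun η => ind (A η))
      ≤ (1 + (1 - p) / p * l) * avg E p (fun η => ind (A η ∧ HitN T (K + l) a η)) := by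
  have hp0 : 0 ≤ p := h0.le
  let Ks : Finset (Sym2 V) → Finset (Sym2 V) := seenK D a K
  let obs : Finset (Sym2 V) → Finset (Sym2 V) := fun η => η ∩ Ks η
  let Succ : Finset (Sym2 V) → Finset (Sym2 V) → Prop := fun q ω =>
    ∃ z ∈ Z, Within a K (q ∩ D) z ∧ HitN T l z ω
  have hself : ∀ η, Ks (obs η) = Ks η := fun η => seenK_congr (seenK_inter D a K η)
  have hKs : ∀ η, η ⊆ E → Ks (obs η) ⊆ E := fun η _ => (filter_subset _ _).trans hD
  have hobsE : ∀ η, η ⊆ E → obs η ⊆ E := fun η hη => inter_subset_left.trans hη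
  have hloc : ∀ η η', η ⊆ E → η' ⊆ E → η' ∩ Ks (obs η) = η ∩ Ks (obs η) → obs η' = obs η := by
    intro η η' _ _ h
    rw [hself] at h
    simp only [obs]
    rw [show Ks η' = Ks η from seenK_congr h, h]
  have hball : ∀ η j, j ≤ K → ∀ y, Within a j (obs η ∩ D) y ↔ Within a j (η ∩ D) y :=
    fun η => within_congr (seenK_inter D a K η)
  have hA : ∀ η, η ⊆ E → ind (A η) = ind (A (obs η)) := fun η hη => congrArg ind (propext
    ⟨hdet η (obs η) hη (hobsE η hη) (hball η),
      hdet (obs η) η (hobsE η hη) hη fun j hj y => (hball η j hj y).symm⟩)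
  set C := E.powerset.image obs with hC
  have hexp : ∀ (F : Finset (Sym2 V) → ℝ), ∀ η, η ⊆ E →
      F (obs η) = ∑ q ∈ C, ind (obs η = q) * F q := by
    intro F η hη
    rw [sum_eq_single_of_mem (obs η) (mem_image_of_mem _ (mem_powerset.2 hη))]
    · rw [show ind (obs η = obs η) = 1 from if_pos rfl, one_mul]
    · intro q _ hq
      rw [show ind (obs η = q) = 0 from if_neg (Ne.symm hq), zero_mul]
  set L := avg E p (fun η => ind (A η) *
    avg (Ks (obs η)) p fun ξ => ind (Succ (obs η) ((η \ Ks (obs η)) ∪ ξ))) with hL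
  have hfresh : L = avg E p (fun η => ind (A η) * avg E p fun ω => ind (Succ (obs η) ω)) := by
    have e1 : ∀ q, avg E p (fun η => ind (obs η = q) * ind (A q) *
          avg (Ks (obs η)) p fun ξ => ind (Succ q ((η \ Ks (obs η)) ∪ ξ)))
        = avg E p (fun η => ind (obs η = q) * ind (A q)) * avg E p fun ω => ind (Succ q ω) :=
      fun q => FXZ.resample E p obs Ks hKs hloc (fun q' => ind (q' = q) * ind (A q))
        fun ω => ind (Succ q ω)
    calc L = ∑ q ∈ C, avg E p (fun η => ind (obs η = q) * ind (A q) *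
          avg (Ks (obs η)) p fun ξ => ind (Succ q ((η \ Ks (obs η)) ∪ ξ))) := by
          rw [← avg_sum, hL]
          refine avg_congr _ _ fun η hη => ?_
          rw [hA η hη, hexp (fun q => ind (A q) * avg (Ks (obs η)) p fun ξ =>
            ind (Succ q ((η \ Ks (obs η)) ∪ ξ))) η hη]
          exact sum_congr rfl fun q _ => (mul_assoc _ _ _).symm
      _ = ∑ q ∈ C, avg E p (fun η => ind (obs η = q) * ind (A q) *
          avg E p fun ω => ind (Succ q ω)) := by
          refine sum_congr rfl fun q _ => ?_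
          rw [e1 q, mul_comm, ← avg_mul]
          exact avg_congr _ _ fun η _ => mul_comm _ _
      _ = _ := by
          rw [← avg_sum]
          refine avg_congr _ _ fun η hη => ?_
          rw [hA η hη, hexp (fun q => ind (A q) * avg E p fun ω => ind (Succ q ω)) η hη]
          exact sum_congr rfl fun q _ => mul_assoc _ _ _
  have hlow : c * avg E p (fun η => ind (A η)) ≤ L := by
    rw [hfresh, ← avg_mul]
    refine avg_mono _ hp0 h1 fun η hη => ?_
    by_cases h : A η
    · rw [show ind (A η) = 1 from if_pos h, mul_one, one_mul]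
      refine (htrial η hη h).trans (avg_mono _ hp0 h1 fun ω _ => ind_mono ?_)
      exact fun ⟨z, hz, hw, hh⟩ => ⟨z, hz, (hball η K le_rfl z).2 hw, hh⟩
    · rw [show ind (A η) = 0 from if_neg h, mul_zero, zero_mul]
  -- a success needs at most one edge
  have hopen : L ≤ avg E p (fun η => ind (A η ∧ HitN T (K + l) a η)) + avg E p (fun η =>
      ∑ e ∈ E \ η, ind (A η ∧ Exit D a K l T η e)) := by
    rw [hL, ← avg_add]
    refine avg_mono E hp0 h1 fun η hη => ?_
    set R := ind (A η ∧ HitN T (K + l) a η) + ∑ e ∈ E \ η, ind (A η ∧ Exit D a K l T η e)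
    have hR : 0 ≤ R := add_nonneg (ind_nonneg _) (sum_nonneg fun _ _ => ind_nonneg _)
    by_cases hA : A η
    swap
    · rw [show ind (A η) = 0 from if_neg hA, zero_mul]
      exact hR
    rw [show ind (A η) = 1 from if_pos hA, one_mul]
    refine le_trans (avg_mono _ hp0 h1 (g := fun _ => R * 1) fun ξ hξ => ?_)
      (by rw [avg_mul, avg_one, mul_one])
    rw [mul_one]
    by_cases hS : Succ (obs η) ((η \ Ks (obs η)) ∪ ξ)
    swap
    · rw [show ind (Succ (obs η) ((η \ Ks (obs η)) ∪ ξ)) = 0 from if_neg hS]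
      exact hR
    rw [show ind (Succ (obs η) ((η \ Ks (obs η)) ∪ ξ)) = 1 from if_pos hS]
    by_cases hH : HitN T (K + l) a η
    · exact le_trans (le_of_eq (if_pos ⟨hA, hH⟩).symm)
        (le_add_of_nonneg_right (sum_nonneg fun _ _ => ind_nonneg _))
    obtain ⟨z, -, hz, t, ht, w, hw⟩ := hS
    rw [hball η K le_rfl] at hz
    have ht' : ¬ Within a K (η ∩ D) t := fun h =>
      hH ⟨t, ht, within_mono (Nat.le_add_right K l) inter_subset_left h⟩
    obtain ⟨y, x, hadj, hy, hx, σ, hσ, hout⟩ :=
      last_leave (Within a K (η ∩ D)) w ⟨z, w.start_mem_support, hz⟩ ht'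
    obtain ⟨heω, hyx⟩ := (SimpleGraph.fromEdgeSet_adj _).1 hadj
    have hσe : ∀ e ∈ σ.edges, e ∈ η := by
      intro e he
      have h2 := σ.edges_subset_edgeSet he
      rw [SimpleGraph.edgeSet_fromEdgeSet] at h2
      rcases mem_union.1 (mem_coe.1 h2.1) with h3 | h3
      · exact (mem_sdiff.1 h3).1
      · have h4 := hξ h3
        rw [hself] at h4
        obtain ⟨-, v, hve, j, hj, hv⟩ := mem_filter.1 h4
        induction e using Sym2.ind with
        | _ c d =>
          have hvK := within_mono hj.le subset_rfl hv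
          rcases Sym2.mem_iff.1 hve with rfl | rfl
          · exact absurd hvK (hout _ (σ.fst_mem_support_of_mem_edges he))
          · exact absurd hvK (hout _ (σ.snd_mem_support_of_mem_edges he))
    have he : s(y, x) ∈ E \ η := by
      refine mem_sdiff.2 ⟨?_, fun h => hH ⟨t, ht, within_mono (by omega) subset_rfl (within_trans
        (within_trans (within_mono le_rfl inter_subset_left hy) (within_edge hyx h))
        (within_of_walk σ le_rfl hσe))⟩⟩
      rcases mem_union.1 (mem_coe.1 heω) with h3 | h3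
      · exact hη (mem_sdiff.1 h3).1
      · exact hKs η hη (hξ h3)
    obtain ⟨σ', hσ'⟩ := within_of_walk σ le_rfl hσe
    refine le_trans ?_ (le_add_of_nonneg_left (ind_nonneg _))
    refine le_trans (le_of_eq ?_) (single_le_sum
      (f := fun e => ind (A η ∧ Exit D a K l T η e)) (fun _ _ => ind_nonneg _) he)
    exact (if_pos ⟨hA, hH, y, x, rfl, hyx, hy, hx, t, ht, σ', by omega⟩).symm
  -- opening that edge
  have hq : avg E p (fun η => ∑ e ∈ E \ η, ind (A η ∧ Exit D a K l T η e))
      ≤ (1 - p) / p * ((l : ℝ) * avg E p (fun η => ind (A η ∧ HitN T (K + l) a η))) := by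
    rw [FXZ.avg_open_edge E h0.ne' fun η e => A η ∧ Exit D a K l T η e, ← avg_mul E p (l : ℝ)]
    refine mul_le_mul_of_nonneg_left (avg_mono E hp0 h1 fun η _ => ?_)
      (div_nonneg (sub_nonneg.2 h1) hp0)
    by_cases hA : A η
    · simp only [hA, true_and]
      exact (sum_le_sum fun e _ => ind_mono fun h => h.2).trans (exit_count D a K l T η)
    · refine le_trans (le_of_eq (sum_eq_zero fun e _ => ?_))
        (mul_nonneg (Nat.cast_nonneg _) (ind_nonneg _))
      exact if_neg fun h => hA (hInc _ _ (erase_subset _ _) h.1)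
  refine hlow.trans (hopen.trans ((add_le_add le_rfl hq).trans (le_of_eq ?_)))
  ring

open Classical in
/-- Insertion with the union bound: `m` marked points in the ball suffice. -/
theorem insertion_union {E D : Finset (Sym2 V)} (hD : D ⊆ E) {p : ℝ} (h0 : 0 < p) (h1 : p ≤ 1)
    (a : V) (T : Set V) (K l : ℕ) (Z : Finset V) {β B : ℝ} (hβ0 : 0 ≤ β) (hB0 : 0 ≤ B)
    (hβ : ∀ z ∈ Z, β ≤ avg E p (fun η => ind (HitN T l z η)))
    (hB : ∀ u, ∑ z ∈ Z, avg E p (fun η => ind (Within u l η z)) ≤ B)
    (A : Finset (Sym2 V) → Prop) (hInc : Inc A)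
    (hdet : ∀ η η', η ⊆ E → η' ⊆ E →
      (∀ j, j ≤ K → ∀ y, Within a j (η' ∩ D) y ↔ Within a j (η ∩ D) y) → A η → A η')
    (m : ℕ) (hm : ∀ η, η ⊆ E → A η → m ≤ (Z.filter (Within a K (η ∩ D))).card) :
    (m : ℝ) * β * avg E p (fun η => ind (A η))
      ≤ ((m : ℝ) * β + ((l : ℝ) + 1) * B) * (1 + (1 - p) / p * l)
        * avg E p (fun η => ind (A η ∧ HitN T (K + l) a η)) := by
  set M := (m : ℝ) * β + ((l : ℝ) + 1) * B with hM
  have hmβ : 0 ≤ (m : ℝ) * β := mul_nonneg (Nat.cast_nonneg _) hβ0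
  have hlB : 0 ≤ ((l : ℝ) + 1) * B := mul_nonneg (by positivity) hB0
  rcases (add_nonneg hmβ hlB).eq_or_lt with h | hpos
  · rw [show M = 0 from h.symm, show (m : ℝ) * β = 0 by linarith]
    simp
  have hins := insertion hD h0 h1 a T K l Z A hInc hdet (c := (m : ℝ) * β / M) fun η hη hA => by
    set W := Z.filter (Within a K (η ∩ D)) with hW
    have hU : avg E p (fun ω => ind (∃ z ∈ W, HitN T l z ω))
        = avg E p (fun ω => ind (∃ z ∈ Z, Within a K (η ∩ D) z ∧ HitN T l z ω)) := by
      refine avg_congr _ _ fun ω _ => congrArg ind (propext ?_)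
      simp only [hW, mem_filter, and_assoc]
    rw [← hU, div_le_iff₀ hpos]
    set u := avg E p (fun ω => ind (∃ z ∈ W, HitN T l z ω))
    have h2 := union_lower E h0.le h1 T l W (B := B) (fun z hz => hβ z (mem_filter.1 hz).1)
      fun u => (sum_le_sum_of_subset_of_nonneg (filter_subset _ _) fun _ _ _ =>
        avg_nonneg _ h0.le h1 fun _ _ => ind_nonneg _).trans (hB u)
    have hu : u ≤ 1 := (avg_mono _ h0.le h1 fun _ _ => ind_le_one _).trans (avg_one _ _).le
    have hmW : (m : ℝ) * β ≤ (W.card : ℝ) * β :=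
      mul_le_mul_of_nonneg_right (Nat.cast_le.2 (hm η hη hA)) hβ0
    nlinarith [mul_le_mul_of_nonneg_right hmW (sub_nonneg.2 hu)]
  rw [div_mul_eq_mul_div, div_le_iff₀ hpos] at hins
  linarith

end Vale.Agent.P165.FQ
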