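import Vale.Agent.P165.FQ.Targets
import Vale.Agent.P165.FQ.Chains
import Vale.Agent.P165.FQ.Insert

/-!
# The expected number of short connections to a code-compatible family of fibres

Whatever the kernel, the count is a small power of a level `N`, plus the second moment of the ball
over `N`. The chains are valid on an interval of parameters and the code bound is used only at its
upper end, so the constant is uniform.
-/

namespace Vale.Agent.P165.FQ

open Finset FF Vale.Agent.P165.FP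

section General

variable {V ι : Type} [DecidableEq V] [Fintype ι]

open Classical in
/-- A count is at most the levels below `N` that it reaches, plus its square over `N`. -/
theorem count_le_levels (n N : ℕ) (hN : 1 ≤ N) :
    (n : ℝ) ≤ (∑ j ∈ range N, ind (j + 1 ≤ n)) + (n : ℝ) ^ 2 / N := by
  have hNr : (1 : ℝ) ≤ N := by exact_mod_cast hN
  have hmin : ((min n N : ℕ) : ℝ) ≤ ∑ j ∈ range N, ind (j + 1 ≤ n) := by
    calc ((min n N : ℕ) : ℝ) = ∑ j ∈ range (min n N), (1 : ℝ) := by simp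
      _ ≤ ∑ j ∈ range (min n N), ind (j + 1 ≤ n) := sum_le_sum fun j hj => by
          rw [mem_range] at hj
          rw [ind, if_pos (by omega)]
      _ ≤ _ := sum_le_sum_of_subset_of_nonneg (range_mono (min_le_right n N))
          fun _ _ _ => ind_nonneg _
  by_cases h : n ≤ N
  · rw [min_eq_left h] at hmin
    exact hmin.trans (le_add_of_nonneg_right (by positivity))
  · rw [min_eq_right (Nat.le_of_lt (Nat.lt_of_not_le h))] at hmin
    have hn : (N : ℝ) ≤ n := by exact_mod_cast Nat.le_of_lt (Nat.lt_of_not_le h)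
    have h2 : (n : ℝ) ≤ (n : ℝ) ^ 2 / N := by
      rw [le_div_iff₀ (by linarith)]
      nlinarith
    linarith [(Nat.cast_nonneg N : (0 : ℝ) ≤ N)]

/-- Summing a power slightly above minus one, losing only a little. -/
theorem sum_rpow_add_le (N : ℕ) (hN : 1 ≤ N) {η δ : ℝ} (hη : 0 ≤ η) (hδ : 0 < δ) :
    ∑ j ∈ range N, ((j : ℝ) + 1) ^ (η - 1) ≤ (1 + 1 / δ) * (N : ℝ) ^ (η + δ) := by
  have hN1 : (1 : ℝ) ≤ N := by exact_mod_cast hN
  have hNδ : (1 : ℝ) ≤ (N : ℝ) ^ δ := Real.one_le_rpow hN1 hδ.le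
  have h1 : ∀ j ∈ range N, ((j : ℝ) + 1) ^ (η - 1) ≤ (N : ℝ) ^ η * ((j : ℝ) + 1)⁻¹ := fun j hj => by
    rw [Real.rpow_sub (by positivity), Real.rpow_one, div_eq_mul_inv]
    refine mul_le_mul_of_nonneg_right (Real.rpow_le_rpow (by positivity) ?_ hη) (by positivity)
    exact_mod_cast mem_range.1 hj
  refine (sum_le_sum h1).trans ?_
  rw [← mul_sum, Real.rpow_add (by linarith), mul_left_comm]
  refine mul_le_mul_of_nonneg_left (le_trans ?_ (le_trans (harmonic_le_one_add_log N) ?_))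
    (by positivity)
  · simp [harmonic]
  · have h2 := Real.log_le_rpow_div (x := (N : ℝ)) (by positivity) hδ
    rw [add_mul, one_mul, one_div, inv_mul_eq_div]
    linarith

/-- A logarithmic range is below every power. -/
theorem log_steps_le (C : ℕ) {L : ℕ} (hL : 1 ≤ L) {δ : ℝ} (hδ : 0 < δ) :
    ((C * (Nat.log 2 L + 1) : ℕ) : ℝ) ≤ C * (1 / (δ * Real.log 2) + 1) * (L : ℝ) ^ δ := by
  have hLr : (1 : ℝ) ≤ L := by exact_mod_cast hL
  have hl2 : (0 : ℝ) < Real.log 2 := Real.log_pos one_lt_two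
  have h1 : (Nat.log 2 L : ℝ) * Real.log 2 ≤ Real.log L := by
    have h6 := Real.log_le_log (show (0 : ℝ) < ((2 ^ Nat.log 2 L : ℕ) : ℝ) by positivity)
      (show ((2 ^ Nat.log 2 L : ℕ) : ℝ) ≤ L by exact_mod_cast Nat.pow_log_le_self 2 (by omega))
    push_cast at h6
    rwa [Real.log_pow] at h6
  have h2 := Real.log_le_rpow_div (x := (L : ℝ)) (by linarith) hδ
  have h3 : (1 : ℝ) ≤ (L : ℝ) ^ δ := Real.one_le_rpow hLr hδ.le
  have h4 : (Nat.log 2 L : ℝ) ≤ 1 / (δ * Real.log 2) * (L : ℝ) ^ δ := by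
    rw [div_mul_eq_mul_div, one_mul, le_div_iff₀ (by positivity)]
    rw [le_div_iff₀ hδ] at h2
    nlinarith
  push_cast
  rw [mul_assoc]
  refine mul_le_mul_of_nonneg_left ?_ (Nat.cast_nonneg C)
  rw [add_mul, one_mul]
  linarith

theorem hitN_le_hit (nb : V → ι → V) (S : Finset V) {p : ℝ} (h0 : 0 ≤ p) (h1 : p ≤ 1) (a : V)
    (T : Set V) (n : ℕ) : hitN nb S p a T n ≤ hit nb S p a T :=
  avg_mono _ h0 h1 fun _ _ => ind_mono fun ⟨t, ht, w, _⟩ => ⟨t, ht, ⟨w⟩⟩

theorem hit_mono_p (nb : V → ι → V) (S : Finset V) {p q : ℝ} (h0 : 0 ≤ p) (h : p ≤ q) (h1 : q ≤ 1)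
    (a : V) (T : Set V) : hit nb S p a T ≤ hit nb S q a T :=
  avg_mono_p _ h0 h h1 _ (monotone_ind (inc_hit T a))

end General

end Vale.Agent.P165.FQ

namespace Vale.Agent.P165.FP.Base

open Finset FF FreeGroup Vale.Agent.P165.FP Vale.Agent.P165.FQ

variable {Γ O ι α : Type} [Group Γ] [Fintype ι] [DecidableEq α] [Fintype α] [Fintype O]
  [DecidableEq Γ] [DecidableEq O] (E : Base Γ O ι α)

open Classical in
/-- The short connections from `a` to all fibres of a code-compatible family. -/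
theorem exists_tailN {ps : ℝ} (hps : 0 < ps) (hps1 : ps ≤ 1) {θ θ' δ κ p₁ : ℝ} (C : ℕ)
    (hδ : 0 < δ) (hθ' : 0 < θ') (hθ'1 : θ' ≤ 1) (hratio : θ' * (1 - δ) ≤ θ)
    (hbound : E.Bound ps θ') (hp₁ : 0 < p₁) (hκ : 0 < κ)
    (hch : ∀ L : ℕ, 1 ≤ L → ∀ m : α × Bool, ∃ W : Finset (List (α × Bool)), PrefixFree W ∧
      (∀ w ∈ W, Red w ∧ w.head? = some m) ∧ κ * (L : ℝ) ^ θ ≤ W.card ∧
      ∀ p' : ℝ, p₁ ≤ p' → p' ≤ 1 → ∀ z, ∀ w ∈ W, κ / L ≤
        hitN E.nb (E.chainSet z m C L) p' z (E.above (E.pos z) w) (C * (Nat.log 2 L + 1)))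
    {M : ℝ} (hM0 : 0 ≤ M) (hM : ∀ L : ℕ, 1 ≤ L → ∀ (S Z : Finset (Γ × O)) (u : Γ × O),
      ((C * (Nat.log 2 L + 1) : ℕ) + 1 : ℝ) * ∑ z ∈ Z, avg (inE E.nb S) ps
        (fun η => ind (Within u (C * (Nat.log 2 L + 1)) η z)) ≤ M * (L : ℝ) ^ δ) :
    ∃ K₀ : ℝ, 0 ≤ K₀ ∧ ∀ p : ℝ, p₁ ≤ p → p ≤ ps →
      ∀ (R K : ℕ) (m : α × Bool) (a : Γ × O), a ∈ E.above 1 [m] → (E.pos a).norm ≤ E.L + 1 →
      ∀ (Q : Finset (FreeGroup α)) (ext : FreeGroup α → α × Bool),
      (∀ x ∈ Q, [m] <+: x.toWord ∧ Red (x.toWord ++ [ext x])) →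
      Set.InjOn (fun x => x.toWord ++ [ext x]) Q →
      PrefixFree (Q.image fun x => x.toWord ++ [ext x]) →
      ∀ (N : ℕ), 1 ≤ N →
        ∑ x ∈ Q, ∑ y ∈ (E.side a R m).filter (fun y => E.pos y = x),
            avg (inE E.nb (E.side a R m)) p (fun η => ind (Within a K η y))
          ≤ K₀ * (N : ℝ) ^ (4 * δ) + avg (inE E.nb (E.side a R m)) p
              (fun η => (((E.side a R m).filter (Within a K η)).card : ℝ) ^ 2) / N := by
  obtain ⟨Kt, hKt, hcheap⟩ := E.exists_cheap_targets hps hps1 hθ' hθ'1 hratio hκ hbound C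
  set cl' : ℝ := 1 + 1 / p₁ * (C * (1 / (δ * Real.log 2) + 1)) with hcl
  have hl2 : (0 : ℝ) < Real.log 2 := Real.log_pos one_lt_two
  have hcl0 : 0 ≤ cl' := by positivity
  set Λ : ℝ := (κ + M) * cl' / κ
  have hΛ : 0 ≤ Λ := by positivity
  refine ⟨Λ * Kt * (1 + 1 / δ), by positivity,
    fun p hp hpps R K m a ha hna Q ext hQ hinj hpf N hN => ?_⟩
  have h0 : 0 < p := hp₁.trans_le hp
  have h1 : p ≤ 1 := hpps.trans hps1
  set U := E.side a R m
  set D := inE E.nb U
  let fib : FreeGroup α → Finset (Γ × O) := fun x => U.filter fun y => E.pos y = x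
  let cnt : FreeGroup α → Finset (Sym2 (Γ × O)) → ℕ := fun x η =>
    ((fib x).filter (Within a K η)).card
  -- one level
  have hlev : ∀ j : ℕ, ∑ x ∈ Q, avg D p (fun η => ind (j + 1 ≤ cnt x η))
      ≤ Λ * Kt * ((j : ℝ) + 1) ^ (3 * δ - 1) := by
    intro j
    choose W hWpf hWhead hWcard hWhit using hch (j + 1) (Nat.succ_pos j)
    set l := C * (Nat.log 2 (j + 1) + 1) with hldef
    let S : FreeGroup α → Finset (Γ × O) := fun x =>
      U ∪ (fib x).biUnion fun z => E.chainSet z (ext x) C (j + 1)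
    obtain ⟨w, hw, hwsum⟩ := hcheap m a ha hna Q ext hQ hinj hpf (j + 1) (Nat.succ_pos j) W hWpf
      hWhead hWcard S fun x _ y hy => by
        rcases mem_union.1 hy with hy | hy
        · refine Or.inl ?_
          simp only [U, side, mem_filter] at hy
          exact hy.2
        · obtain ⟨z, hz, hyz⟩ := mem_biUnion.1 hy
          have hzx : E.pos z = x := (mem_filter.1 hz).2
          rcases (E.mem_chainSet.1 hyz).2 with h | h
          · exact Or.inr (Or.inl (hzx ▸ h))
          · exact Or.inr (Or.inr (hzx ▸ h))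
    set L : ℝ := ((j + 1 : ℕ) : ℝ)
    have hLj : L = (j : ℝ) + 1 := by simp [L]
    have hL1 : 1 ≤ L := by rw [hLj]; linarith [(Nat.cast_nonneg j : (0 : ℝ) ≤ j)]
    have hLδ : 1 ≤ L ^ δ := Real.one_le_rpow hL1 hδ.le
    have hx : ∀ x ∈ Q, avg D p (fun η => ind (j + 1 ≤ cnt x η))
        ≤ Λ * L ^ (2 * δ) * hit E.nb (S x) ps a (E.above x (w x)) := by
      intro x _
      set ES := inE E.nb (S x)
      have hD : D ⊆ ES := inE_mono E.hl subset_union_left
      set T := E.above x (w x)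
      have hβ : ∀ z ∈ fib x, κ / L ≤ avg ES p (fun η => ind (HitN T l z η)) := by
        intro z hz
        have h2 := hWhit (ext x) p hp h1 z (w x) (hw x)
        rw [(mem_filter.1 hz).2] at h2
        exact h2.trans (hitN_mono E.hl
          ((subset_biUnion_of_mem (fun z => E.chainSet z (ext x) C (j + 1)) hz).trans subset_union_right)
          Set.Subset.rfl le_rfl h0.le h1 z)
      have hBl : ∀ u, ∑ z ∈ fib x, avg ES p (fun η => ind (Within u l η z))
          ≤ M * L ^ δ / ((l : ℝ) + 1) := fun u => by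
        rw [le_div_iff₀' (by positivity)]
        refine le_trans (mul_le_mul_of_nonneg_left (sum_le_sum fun z _ => avg_mono_p _ h0.le hpps hps1 _
          (monotone_ind (inc_within u z l))) (by positivity)) ?_
        exact hM (j + 1) (Nat.succ_pos j) (S x) (fib x) u
      have hins := insertion_union (D := D) hD h0 h1 a T K l (fib x) (β := κ / L)
        (by positivity) (by positivity) hβ hBl (fun η => j + 1 ≤ cnt x (η ∩ D))
        (fun η η' h hA => hA.trans (card_le_card fun y hy => mem_filter.2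
          ⟨(mem_filter.1 hy).1, within_mono le_rfl (inter_subset_inter h le_rfl) (mem_filter.1 hy).2⟩))
        (fun η η' _ _ hag hA => hA.trans (card_le_card fun y hy => mem_filter.2
          ⟨(mem_filter.1 hy).1, (hag K le_rfl y).2 (mem_filter.1 hy).2⟩))
        (j + 1) fun η _ hA => hA
      rw [mul_div_cancel₀ κ (show L ≠ 0 by linarith),
        mul_div_cancel₀ _ (show ((l : ℝ) + 1) ≠ 0 by positivity)] at hins
      have hsplit := avg_split hD p (fun η => ind (j + 1 ≤ cnt x η)) fun _ => (1 : ℝ)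
      simp only [mul_one, avg_one] at hsplit
      rw [← hsplit]
      set P := avg ES p fun η => ind (j + 1 ≤ cnt x (η ∩ D) ∧ HitN T (K + l) a η) with hP
      have hP1 : P ≤ hit E.nb (S x) ps a T :=
        (avg_mono _ h0.le h1 fun η _ => ind_mono fun h => h.2).trans
          ((hitN_le_hit E.nb (S x) h0.le h1 a T _).trans (hit_mono_p E.nb (S x) h0.le hpps hps1 a T))
      have hP0 : 0 ≤ P := avg_nonneg _ h0.le h1 fun _ _ => ind_nonneg _
      have hl : 1 + (1 - p) / p * (l : ℝ) ≤ cl' * L ^ δ := by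
        rw [hcl, add_mul, one_mul]
        refine add_le_add hLδ ?_
        rw [mul_assoc]
        refine mul_le_mul ?_ (log_steps_le C (Nat.succ_pos j) hδ) (Nat.cast_nonneg l) (by positivity)
        exact div_le_div₀ zero_le_one (by linarith) hp₁ hp
      have hfac : κ + M * L ^ δ ≤ (κ + M) * L ^ δ := by nlinarith
      have h2δ : L ^ (2 * δ) = L ^ δ * L ^ δ := by
        rw [← Real.rpow_add (by linarith)]; ring_nf
      have hp' : 0 ≤ (1 - p) / p := div_nonneg (by linarith) h0.le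
      have hchain : κ * avg ES p (fun η => ind (j + 1 ≤ cnt x (η ∩ D)))
          ≤ (κ + M) * L ^ δ * (cl' * L ^ δ) * hit E.nb (S x) ps a T :=
        hins.trans (mul_le_mul (mul_le_mul hfac hl (by positivity) (by positivity)) hP1 hP0
          (by positivity))
      rw [← le_div_iff₀' hκ] at hchain
      refine hchain.trans (le_of_eq ?_)
      rw [h2δ]
      simp only [Λ]
      field_simp
    refine (sum_le_sum hx).trans ?_
    rw [← mul_sum]
    refine (mul_le_mul_of_nonneg_left hwsum (by positivity)).trans (le_of_eq ?_)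
    rw [← hLj, show 3 * δ - 1 = 2 * δ + (δ - 1) by ring, Real.rpow_add (by linarith)]
    ring
  -- all levels
  have hpt : ∀ η ∈ D.powerset, ∑ x ∈ Q, ∑ y ∈ fib x, ind (Within a K η y) ≤
      (∑ x ∈ Q, ∑ j ∈ range N, ind (j + 1 ≤ cnt x η))
        + ((U.filter (Within a K η)).card : ℝ) ^ 2 / N := by
    intro η _
    have e : ∀ x, ∑ y ∈ fib x, ind (Within a K η y) = (cnt x η : ℝ) := fun x => by
      simp only [ind, sum_boole, cnt]
    simp only [e]
    refine (sum_le_sum fun x _ => count_le_levels (cnt x η) N hN).trans ?_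
    rw [sum_add_distrib, ← sum_div]
    refine add_le_add le_rfl (div_le_div_of_nonneg_right ?_ (Nat.cast_nonneg N))
    have hsum : ∑ x ∈ Q, (cnt x η : ℝ) ≤ ((U.filter (Within a K η)).card : ℝ) := by
      rw [← Nat.cast_sum]
      refine Nat.cast_le.2 ?_
      rw [← card_biUnion]
      · exact card_le_card fun y hy => by
          obtain ⟨x, -, hy⟩ := mem_biUnion.1 hy
          exact mem_filter.2 ⟨(mem_filter.1 (mem_filter.1 hy).1).1, (mem_filter.1 hy).2⟩
      · intro x _ x' _ hne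
        refine disjoint_left.2 fun y hy hy' => hne ?_
        exact (mem_filter.1 (mem_filter.1 hy).1).2.symm.trans (mem_filter.1 (mem_filter.1 hy').1).2
    calc ∑ x ∈ Q, (cnt x η : ℝ) ^ 2 ≤ (∑ x ∈ Q, (cnt x η : ℝ)) ^ 2 :=
          sum_sq_le_sq_sum_of_nonneg fun x _ => Nat.cast_nonneg _
      _ ≤ _ := pow_le_pow_left₀ (sum_nonneg fun x _ => Nat.cast_nonneg _) hsum 2
  calc ∑ x ∈ Q, ∑ y ∈ fib x, avg D p (fun η => ind (Within a K η y))
      = avg D p (fun η => ∑ x ∈ Q, ∑ y ∈ fib x, ind (Within a K η y)) := by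
        simp only [avg_sum]
    _ ≤ avg D p (fun η => (∑ x ∈ Q, ∑ j ∈ range N, ind (j + 1 ≤ cnt x η))
          + ((U.filter (Within a K η)).card : ℝ) ^ 2 / N) :=
        avg_mono _ h0.le h1 fun η hη => hpt η (mem_powerset.2 hη)
    _ = (∑ j ∈ range N, ∑ x ∈ Q, avg D p (fun η => ind (j + 1 ≤ cnt x η)))
          + avg D p (fun η => ((U.filter (Within a K η)).card : ℝ) ^ 2) / N := by
        rw [avg_add, avg_sum]
        simp only [avg_sum]
        rw [sum_comm]
        congr 1
        simp only [avg, sum_div, mul_div_assoc]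
    _ ≤ _ := by
        refine add_le_add ((sum_le_sum fun j _ => hlev j).trans ?_) le_rfl
        rw [← mul_sum]
        refine le_trans (mul_le_mul_of_nonneg_left (sum_rpow_add_le N hN
          (by linarith : 0 ≤ 3 * δ) hδ) (by positivity)) (le_of_eq ?_)
        rw [show 3 * δ + δ = 4 * δ by ring]
        ring

end Vale.Agent.P165.FP.Base
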