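import Vale.Agent.P165.FQ.Exit
import Vale.Agent.P165.FF.Main
import Vale.Agent.P165.FF.Transport
import Vale.Agent.P165.FF.Unique
import Vale.Agent.P165.SG.Classes

/-!
# Nonuniqueness from a small form at the last subcritical parameter

At the supremum of the parameters with an exit certificate a small form of the short connections
persists slightly above, where percolation occurs and connection probabilities are square summable.
-/

namespace Vale.Agent.P165.FQ

open Finset MeasureTheory ProbabilityTheory FF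

variable {Γ O ι : Type} [Group Γ] [Fintype ι] [Fintype O] [DecidableEq Γ] [DecidableEq O]
  {G : SimpleGraph (Γ × O)} {nb : Γ × O → ι → Γ × O}

/-- A parameter below which there always is an exit certificate. -/
def Sub (nb : Γ × O → ι → Γ × O) (p : ℝ) : Prop :=
  0 < p ∧ p ≤ 1 ∧ ∀ q, 0 ≤ q → q < p → Witness nb q

/-- A small form at every such parameter gives a nonuniqueness phase. -/
theorem pc_lt_pu_of_small [Infinite Γ] [Nonempty O] (hl : Labelling G nb) (hinv : Inv G)
    (hc : G.Connected)
    (hsmall : ∀ p : ℝ, Sub nb p → ∃ (B : Γ × O → Finset (Γ × O)) (n : ℕ), 1 ≤ n ∧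
      Covers G B n ∧ (∀ g x, (B x).image (tr g) = B (tr g x)) ∧ FormSmall nb B n p (1 / 4)) :
    pc G < pu G := by
  classical
  have hinf : Infinite (Γ × O) := Prod.infinite_of_left
  have : Countable (Γ × O) := countable_of_connected hl.listing hc
  set p0 : ℝ := 1 / ((Fintype.card ι : ℝ) + 1) with hp0
  have hp0pos : 0 < p0 := by positivity
  have hp01 : p0 ≤ 1 := by
    rw [hp0, div_le_one (by positivity)]; linarith [Nat.cast_nonneg (α := ℝ) (Fintype.card ι)]
  set W : Set ℝ := {p | 0 ≤ p ∧ p ≤ 1 ∧ Witness nb p}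
  set ps : ℝ := sSup W
  have hbdd : BddAbove W := ⟨1, fun p hp => hp.2.1⟩
  have hmem0 : p0 ∈ W := by
    refine ⟨hp0pos.le, hp01, witness_small hp0pos.le hp01 ?_⟩
    rw [hp0, div_mul_eq_mul_div, one_mul, div_lt_one (by positivity)]
    linarith
  have hp0ps : p0 ≤ ps := le_csSup hbdd hmem0
  have hps1 : ps ≤ 1 := csSup_le ⟨p0, hmem0⟩ fun p hp => hp.2.1
  have hps0 : 0 < ps := hp0pos.trans_le hp0ps
  have hsub : Sub nb ps := by
    refine ⟨hps0, hps1, fun q hq0 hq => ?_⟩
    obtain ⟨r, hr, hqr⟩ := exists_lt_of_lt_csSup ⟨p0, hmem0⟩ hq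
    exact witness_mono hq0 hqr.le hr.2.1 hr.2.2
  obtain ⟨B, n, hn1, hB, hBtr, hn⟩ := hsmall ps hsub
  set N : ℕ := ∑ o : O, (B ((1 : Γ), o)).card with hN
  have hcard : ∀ x, (B x).card ≤ N := fun x => by
    rw [← card_image_of_injective (B x) (tr_injective x.1⁻¹), hBtr, hN,
      show tr x.1⁻¹ x = ((1 : Γ), x.2) by simp [tr]]
    exact single_le_sum (f := fun o => (B ((1 : Γ), o)).card) (fun _ _ => Nat.zero_le _)
      (mem_univ x.2)
  have hps_lt : ps < 1 := by
    refine lt_of_le_of_ne hps1 fun h => ?_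
    rw [h] at hn
    obtain ⟨K, hK⟩ := square_summable hl hn1 hB hcard (p := 1) zero_le_one le_rfl fun F f hf =>
      (hn F f hf).trans (mul_le_mul_of_nonneg_right
        (mul_le_mul_of_nonneg_right (by norm_num) (Nat.cast_nonneg n))
        (sum_nonneg fun _ _ => sq_nonneg _))
    obtain ⟨M, hM⟩ := exists_nat_gt K
    obtain ⟨F, hF⟩ := Infinite.exists_subset_card_eq (Γ × O) M
    obtain ⟨x⟩ := hc.nonempty
    choose S hS using fun y => T_one hl hc x y
    have hbig : ∀ y ∈ F, tauIn nb (F.biUnion S) 1 x y = 1 := fun y hy =>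
      le_antisymm (tauIn_le_one _ zero_le_one le_rfl x y)
        ((hS y).ge.trans (tauIn_mono hl (subset_biUnion_of_mem S hy) zero_le_one le_rfl x y))
    have h2 := hK x (F.biUnion S) F
    rw [sum_congr rfl fun y hy => by rw [hbig y hy, one_pow], sum_const, hF, nsmul_eq_mul,
      mul_one] at h2
    linarith
  obtain ⟨ε, hε, hεb⟩ := Metric.eventually_nhds_iff.1
    (formSmall_eventually hl hinv hBtr hn1 hB hn (show (1 : ℝ) / 4 < 1 / 2 by norm_num))
  set p2 : ℝ := ps + min (ε / 2) ((1 - ps) / 2) with hp2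
  have hmin : 0 < min (ε / 2) ((1 - ps) / 2) := lt_min (by linarith) (by linarith)
  have hp2ps : ps < p2 := by linarith
  have hp21 : p2 < 1 := by
    have := min_le_right (ε / 2) ((1 - ps) / 2); linarith
  have hn2 : FormSmall nb B n p2 (1 / 2) := by
    refine hεb ?_
    rw [Real.dist_eq, hp2, add_sub_cancel_left, abs_of_pos hmin]
    have := min_le_left (ε / 2) ((1 - ps) / 2); linarith
  obtain ⟨K, hK⟩ := square_summable hl hn1 hB hcard (p := p2) (by linarith) hp21.le hn2
  set q : unitInterval := ⟨(ps + p2) / 2, by constructor <;> linarith⟩ with hq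
  have hqv : (q : ℝ) = (ps + p2) / 2 := rfl
  set p3 : ℝ := (ps + (q : ℝ)) / 2 with hp3
  have hnw : ¬ Witness nb p3 := fun hw => by
    have : p3 ≤ ps := le_csSup hbdd ⟨by linarith, by linarith, hw⟩
    linarith
  simp only [Witness, not_forall, not_exists, not_and, not_lt] at hnw
  obtain ⟨o, ho⟩ := hnw
  have hperc : 0 < perc G q (hasInfinite G) := by
    refine lt_of_lt_of_le (infAt_pos_of_phi hl ((1 : Γ), o) q (p₀ := p3) (by linarith)
      (by linarith) (by linarith) fun p hp T hT =>
        (ho T hT).trans (phiIn_mono (by linarith) hp.1 (hp.2.trans q.2.2) T _)) ?_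
    exact measure_mono (by rw [hasInfinite_eq]; exact Set.subset_iUnion (infAt G) _)
  refine pc_lt_pu G q p2 (by linarith) hperc (perc_one_unique hc) fun q' hq' => ?_
  refine not_unique_of_sq hl hc (quasiTransitive_of_inv hinv) q' K fun x S F => ?_
  refine le_trans (sum_le_sum fun y _ => ?_) (hK x S F)
  exact pow_le_pow_left₀ (tauIn_nonneg S q'.2.1 q'.2.2 x y)
    (tauIn_mono_p S q'.2.1 hq'.le hp21.le x y) 2

end Vale.Agent.P165.FQ
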