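import Vale.Agent.P165.FQ.Basic

/-!
# The last entrance of a short connection

A connection of at most `n` steps into a set splits at its last entrance into two disjoint
connections of at most `n` steps, the second inside the set; short connections only use a window.
-/

namespace Vale.Agent.P165.FQ

open Finset FF Vale.Agent.P165.FP

variable {V ι : Type} [DecidableEq V] [Fintype ι] {nb : V → ι → V} {G : SimpleGraph V}

/-- A short connection stays in the window of its start. -/
theorem tauW_le_inter (hl : Labelling G nb) {B : V → Finset V} {n : ℕ} (hB : Covers G B n)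
    (S : Finset V) {p : ℝ} (h0 : 0 ≤ p) (h1 : p ≤ 1) (x y : V) :
    tauW nb S p x y n ≤ tauW nb (S ∩ B x) p x y n := by
  classical
  have hpt : ∀ η, η ⊆ inE nb S → Within x n η y → Within x n (η ∩ inE nb (S ∩ B x)) y := by
    intro η hη ⟨w, hw⟩
    have hG : ∀ u v, (SimpleGraph.fromEdgeSet (η : Set (Sym2 V))).Adj u v → G.Adj u v :=
      fun u v huv => ((inE_iff hl).1 (hη (mem_coe.1 ((SimpleGraph.fromEdgeSet_adj _).1 huv).1))).1
    have hsupp : ∀ v ∈ w.support, v ∈ B x := fun v hv => hB x y (w.mapLe hG)
      (by rw [SimpleGraph.Walk.mapLe, SimpleGraph.Walk.length_map]; exact hw) v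
      (by rw [SimpleGraph.Walk.mapLe, SimpleGraph.Walk.support_map]
          exact List.mem_map.2 ⟨v, hv, rfl⟩)
    refine within_of_walk w hw fun e he => ?_
    have heη := w.edges_subset_edgeSet he
    rw [SimpleGraph.edgeSet_fromEdgeSet] at heη
    refine mem_inter.2 ⟨mem_coe.1 heη.1, (inE_iff hl).2
      ⟨((inE_iff hl).1 (hη (mem_coe.1 heη.1))).1, fun v hv => mem_inter.2
        ⟨inE_mem (hη (mem_coe.1 heη.1)) hv,
          hsupp v (SimpleGraph.Walk.mem_support_of_mem_edges he hv)⟩⟩⟩
  exact (avg_mono _ h0 h1 fun η hη => ind_mono (hpt η hη)).trans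
    (avg_inter_le _ _ h0 h1 (f := fun L => ind (Within x n L y)) (monotone_ind (inc_within x y n)))

/-- Split at the last entrance into `K`; `Z` contains every entry point. -/
theorem tauW_last_entrance (hl : Labelling G nb) (S S' : Finset V) (K : Set V) (Z : Finset V)
    {p : ℝ} (h0 : 0 ≤ p) (h1 : p ≤ 1) {a : V} (ha : a ∉ K)
    (hZ : ∀ x y, G.Adj x y → x ∉ K → y ∈ K → y ∈ S → y ∈ Z)
    (hS' : ∀ y ∈ S, y ∈ K → y ∈ S') {y : V} (hy : y ∈ K) (n : ℕ) :
    tauW nb S p a y n ≤ ∑ z ∈ Z, tauW nb S p a z n * tauW nb S' p z y n := by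
  classical
  have hinc : ∀ z, Inc fun η => Within z n (η ∩ inE nb S') y :=
    fun z η η' h h' => inc_within z y n _ _ (inter_subset_inter h le_rfl) h'
  have hpt : ∀ η, η ⊆ inE nb S → ind (Within a n η y) ≤
      ∑ z ∈ Z, ind (box (fun L => Within a n L z) (fun L => Within z n (L ∩ inE nb S') y) η) := by
    intro η hη
    by_cases hc : Within a n η y
    swap
    · rw [show ind (Within a n η y) = 0 from if_neg hc]
      exact sum_nonneg fun _ _ => ind_nonneg _
    obtain ⟨w, hw⟩ := within_symm hc
    set π := w.bypass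
    have hlen : π.length ≤ n := le_trans w.length_bypass_le_length hw
    have hG : ∀ e ∈ π.edges, e ∈ η := fun e he => by
      have := π.edges_subset_edgeSet he
      rw [SimpleGraph.edgeSet_fromEdgeSet] at this
      exact this.1
    rcases exit_split K π hy with hin | ⟨z, b, w1, hzb, w2, hz, hb, hw1, hed, -⟩
    · exact absurd (hin a π.end_mem_support) ha
    have hl2 : w1.length + 1 + w2.length ≤ n := by
      have := congrArg List.length hed
      simp only [List.length_append, List.length_cons, SimpleGraph.Walk.length_edges] at this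
      omega
    have hzS : z ∈ S := inE_mem (hη (hG s(z, b) (by simp [hed]))) (Sym2.mem_mk_left z b)
    have hzZ : z ∈ Z :=
      hZ b z ((inE_iff hl).1 (hη (hG s(z, b) (by simp [hed])))).1.symm hb hz hzS
    refine le_trans ?_ (single_le_sum (fun _ _ => ind_nonneg _) hzZ)
    refine ind_mono fun _ => ?_
    have hnd := (w.bypass_isPath).isTrail.edges_nodup
    rw [hed, List.nodup_append] at hnd
    refine ⟨insert s(z, b) w2.edges.toFinset, w1.edges.toFinset, ?_, ?_, ?_, ?_, ?_⟩
    · exact insert_subset (hG _ (by simp [hed]))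
        fun e he => hG e (by simp [hed, List.mem_toFinset.1 he])
    · exact fun e he => hG e (by simp [hed, List.mem_toFinset.1 he])
    · refine disjoint_left.2 fun e he he' => ?_
      rw [mem_insert, List.mem_toFinset, ← List.mem_cons] at he
      exact hnd.2.2 e (List.mem_toFinset.1 he') e he rfl
    · refine within_mono (show 1 + w2.length ≤ n by omega) subset_rfl
        (within_symm (within_trans (within_edge hzb.ne (mem_insert_self _ _))
          (within_of_walk w2 le_rfl fun e he => mem_insert_of_mem (List.mem_toFinset.2 he))))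
    · refine within_symm (within_of_walk w1 (show w1.length ≤ n by omega) fun e he => ?_)
      have heη := hη (hG e (by simp [hed, he]))
      exact mem_inter.2 ⟨List.mem_toFinset.2 he, (inE_iff hl).2 ⟨((inE_iff hl).1 heη).1,
        fun v hv => hS' v (inE_mem heη hv)
          (hw1 v (SimpleGraph.Walk.mem_support_of_mem_edges he hv))⟩⟩
  refine (avg_mono _ h0 h1 hpt).trans ?_
  rw [avg_sum]
  refine sum_le_sum fun z _ => ?_
  exact (bk _ h0 h1 _ _ (inc_within a z n) (hinc z)).trans (mul_le_mul le_rfl
    (avg_inter_le _ _ h0 h1 (f := fun L => ind (Within z n L y)) (monotone_ind (inc_within z y n)))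
    (avg_nonneg _ h0 h1 fun _ _ => ind_nonneg _) (tauW_nonneg S h0 h1 a z n))

end Vale.Agent.P165.FQ
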