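import Vale.Agent.P165.FQ.Entrance
import Vale.Agent.P165.FQ.Threshold

/-!
# Closing the circle below the last parameter

The number of points within `K` open steps is at most `K` times the own fibre times the bound on
prefix-free families. Both of these are bounded by small powers of that number, so below the last
parameter, where it is finite, it is at most a fixed multiple of `(K + 1) ^ 3`, uniformly, and the
own fibre is at most a small power of `K + 1`. The bounds pass to the last parameter by continuity.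
-/

namespace Vale.Agent.P165.FQ

open Finset

/-- A bounded pair of quantities that bound each other by small powers is polynomial, with
constants that only depend on those of the hypotheses. -/
theorem self_bound {δ ε C0 CT C1 : ℝ} (hδ : 0 < δ) (hε : 111 * δ ≤ ε) (hε1 : ε ≤ 1) (hC0 : 0 ≤ C0) (hCT : 0 ≤ CT) (hC1 : 0 ≤ C1) (k c : ℕ) :
    ∃ C : ℝ, 0 ≤ C ∧ ∀ (V U : ℕ → ℝ) (B : ℝ), (∀ K, 1 ≤ V K) → (∀ K, V K ≤ B) →
      (∀ K, 0 ≤ U K) → (∀ K, U K ≤ B) →
      (∀ K : ℕ, V K ≤ C0 * ((K : ℝ) + 1) * U (K + k) * (CT * V K ^ (12 * δ))) →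
      (∀ K K' Q : ℕ, 1 ≤ Q → c * (K + 1 + Nat.log 2 ⌈V K⌉₊) ≤ K' →
        U K ≤ C1 * Q * V K ^ (24 * δ) + C1 * V K ^ (12 * δ) * U K' / Q) →
      ∀ K : ℕ, V K ≤ C * ((K : ℝ) + 1) ^ 3 ∧ U K ≤ C * ((K : ℝ) + 1) ^ ε := by
  have hε0 : 0 < ε := by linarith
  have hl2 : (0 : ℝ) < Real.log 2 := Real.log_pos one_lt_two
  set D : ℝ := 2 / (δ * Real.log 2) with hD
  set C2 : ℝ := (((c : ℝ) + 1) * (1 + D)) ^ ε with hC2
  set C4 : ℝ := C1 * (2 * C1 * C2 + 2) with hC4
  set C5 : ℝ := C0 * CT * (2 * C4) * ((k : ℝ) + 1) ^ ε with hC5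
  refine ⟨max (C5 ^ 2) (2 * C4 * C5), le_trans (sq_nonneg C5) (le_max_left _ _),
    fun V U B hV hVB hU hUB hvol hown => ?_⟩
  have hP : ∀ K : ℕ, (1 : ℝ) ≤ (K : ℝ) + 1 := fun K => by
    linarith [(Nat.cast_nonneg K : (0 : ℝ) ≤ K)]
  set P : ℕ → ℝ := fun K => (K : ℝ) + 1 with hPdef
  set X : ℝ := ⨆ K, V K / P K ^ 3
  set Z : ℝ := ⨆ K, U K / P K ^ ε
  have hbX : BddAbove (Set.range fun K => V K / P K ^ 3) := ⟨B, by
    rintro _ ⟨K, rfl⟩
    exact (div_le_self (zero_le_one.trans (hV K)) (one_le_pow₀ (hP K))).trans (hVB K)⟩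
  have hbZ : BddAbove (Set.range fun K => U K / P K ^ ε) := ⟨B, by
    rintro _ ⟨K, rfl⟩
    exact (div_le_self (hU K) (Real.one_le_rpow (hP K) hε0.le)).trans (hUB K)⟩
  have hP0 : ∀ K, 0 < P K := fun K => by linarith [hP K]
  have hVX : ∀ K, V K ≤ X * P K ^ 3 := fun K => by
    rw [← div_le_iff₀ (pow_pos (hP0 K) 3)]; exact le_ciSup hbX K
  have hUZ : ∀ K, U K ≤ Z * P K ^ ε := fun K => by
    rw [← div_le_iff₀ (Real.rpow_pos_of_pos (hP0 K) ε)]; exact le_ciSup hbZ K
  have hX1 : 1 ≤ X := by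
    refine le_trans ?_ (le_ciSup hbX 0)
    simpa [hPdef] using hV 0
  have hZ0 : 0 ≤ Z := by
    refine le_trans ?_ (le_ciSup hbZ 0)
    simpa [hPdef] using hU 0
  have hC20 : 0 ≤ C2 := Real.rpow_nonneg (by positivity) _
  have hC40 : 0 ≤ C4 := by positivity
  have hpw : ∀ K (a : ℝ), 0 ≤ a → V K ^ a ≤ X ^ a * P K ^ (3 * a) := fun K a ha => by
    refine (Real.rpow_le_rpow (zero_le_one.trans (hV K)) (hVX K) ha).trans (le_of_eq ?_)
    rw [Real.mul_rpow (zero_le_one.trans hX1) (pow_nonneg (hP0 K).le 3),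
      ← Real.rpow_natCast (P K) 3, ← Real.rpow_mul (hP0 K).le]
    norm_num
  -- the own fibre
  have hZle : Z ≤ 2 * C4 * X ^ (37 * δ) := by
    have hstep : ∀ K, U K / P K ^ ε ≤ C4 * X ^ (37 * δ) + Z / 2 := by
      intro K
      have hV0 : 0 < V K := zero_lt_one.trans_le (hV K)
      have hPε : 0 < P K ^ ε := Real.rpow_pos_of_pos (hP0 K) ε
      set n := Nat.log 2 ⌈V K⌉₊
      set K' := c * (K + 1 + n)
      have hVδ : 1 ≤ V K ^ δ := Real.one_le_rpow (hV K) hδ.le
      have hn : (n : ℝ) ≤ D * V K ^ δ := by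
        have h1 : ((2 : ℕ) ^ n : ℕ) ≤ ⌈V K⌉₊ :=
          Nat.pow_log_le_self 2 (Nat.pos_iff_ne_zero.1 (Nat.ceil_pos.2 hV0))
        have h2 : (2 : ℝ) ^ n ≤ 2 * V K := by
          have h3 : ((2 ^ n : ℕ) : ℝ) ≤ (⌈V K⌉₊ : ℝ) := Nat.cast_le.2 h1
          push_cast at h3
          linarith [Nat.ceil_lt_add_one hV0.le, hV K]
        have h4 := Real.log_le_log (by positivity) h2
        rw [Real.log_pow] at h4
        have h5 := Real.log_le_rpow_div (show (0 : ℝ) ≤ 2 * V K by positivity) hδ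
        rw [Real.mul_rpow two_pos.le hV0.le] at h5
        have h6 : (2 : ℝ) ^ δ ≤ 2 := Real.rpow_le_self_of_one_le one_le_two (by linarith)
        rw [hD, div_mul_eq_mul_div, le_div_iff₀ (by positivity)]
        rw [le_div_iff₀ hδ] at h5
        have h7 := mul_le_mul_of_nonneg_right h6 (zero_le_one.trans hVδ)
        nlinarith [mul_le_mul_of_nonneg_right h4 hδ.le]
      have hK' : P K' ≤ ((c : ℝ) + 1) * (1 + D) * (P K * V K ^ δ) := by
        have hD0 : 0 ≤ D := by positivity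
        have hc : (0 : ℝ) ≤ c := Nat.cast_nonneg c
        have hPV : P K + n ≤ (1 + D) * (P K * V K ^ δ) := by
          have h1 : P K ≤ P K * V K ^ δ := le_mul_of_one_le_right (hP0 K).le hVδ
          have h2 : V K ^ δ ≤ P K * V K ^ δ := le_mul_of_one_le_left (by linarith) (hP K)
          nlinarith [mul_le_mul_of_nonneg_left h2 hD0]
        have e : P K' = (c : ℝ) * (P K + n) + 1 := by
          simp only [hPdef, K']
          push_cast
          ring
        have h1 : (1 : ℝ) ≤ P K + n := by linarith [hP K, (Nat.cast_nonneg n : (0 : ℝ) ≤ n)]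
        rw [e]
        nlinarith [mul_le_mul_of_nonneg_left hPV (show (0 : ℝ) ≤ (c : ℝ) + 1 by positivity)]
      have hUK' : U K' ≤ C2 * Z * (P K ^ ε * V K ^ δ) := by
        refine (hUZ K').trans ?_
        refine (mul_le_mul_of_nonneg_left (Real.rpow_le_rpow (hP0 K').le hK' hε0.le) hZ0).trans ?_
        rw [Real.mul_rpow (by positivity) (mul_nonneg (hP0 K).le (zero_le_one.trans hVδ)),
          ← hC2, Real.mul_rpow (hP0 K).le (zero_le_one.trans hVδ), ← Real.rpow_mul hV0.le]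
        rw [← mul_assoc, mul_comm Z]
        refine mul_le_mul_of_nonneg_left (mul_le_mul_of_nonneg_left ?_ hPε.le) (by positivity)
        exact Real.rpow_le_rpow_of_exponent_le (hV K) (mul_le_of_le_one_right hδ.le hε1)
      set Q := ⌈2 * C1 * C2 * V K ^ (13 * δ)⌉₊ + 1
      have hV13 : 1 ≤ V K ^ (13 * δ) := Real.one_le_rpow (hV K) (by positivity)
      have hQlow : 2 * C1 * C2 * V K ^ (13 * δ) ≤ Q := by
        push_cast [Q]
        linarith [Nat.le_ceil (2 * C1 * C2 * V K ^ (13 * δ))]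
      have hQup : (Q : ℝ) ≤ (2 * C1 * C2 + 2) * V K ^ (13 * δ) := by
        push_cast [Q]
        nlinarith [Nat.ceil_lt_add_one (show (0 : ℝ) ≤ 2 * C1 * C2 * V K ^ (13 * δ) by positivity)]
      have hQ0 : (0 : ℝ) < Q := by positivity
      have h := hown K K' Q (Nat.le_add_left 1 _) le_rfl
      rw [div_le_iff₀ hPε]
      refine h.trans ?_
      rw [add_mul]
      refine add_le_add ?_ ?_
      · calc C1 * Q * V K ^ (24 * δ)
            ≤ C1 * ((2 * C1 * C2 + 2) * V K ^ (13 * δ)) * V K ^ (24 * δ) := by gcongr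
          _ = C4 * V K ^ (37 * δ) := by
              rw [show (37 : ℝ) * δ = 13 * δ + 24 * δ by ring, Real.rpow_add hV0, hC4]; ring
          _ ≤ C4 * (X ^ (37 * δ) * P K ^ (3 * (37 * δ))) :=
              mul_le_mul_of_nonneg_left (hpw K _ (by positivity)) hC40
          _ ≤ C4 * (X ^ (37 * δ) * P K ^ ε) := mul_le_mul_of_nonneg_left
              (mul_le_mul_of_nonneg_left (Real.rpow_le_rpow_of_exponent_le (hP K) (by linarith))
                (Real.rpow_nonneg (zero_le_one.trans hX1) _)) hC40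
          _ = _ := by ring
      · rw [div_le_iff₀ hQ0]
        calc C1 * V K ^ (12 * δ) * U K'
            ≤ C1 * V K ^ (12 * δ) * (C2 * Z * (P K ^ ε * V K ^ δ)) :=
              mul_le_mul_of_nonneg_left hUK' (by positivity)
          _ = Z / 2 * P K ^ ε * (2 * C1 * C2 * V K ^ (13 * δ)) := by
              rw [show (13 : ℝ) * δ = 12 * δ + δ by ring, Real.rpow_add hV0]; ring
          _ ≤ Z / 2 * P K ^ ε * Q := mul_le_mul_of_nonneg_left hQlow (by positivity)
    have := ciSup_le hstep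
    linarith
  -- the volume
  have hXle : X ≤ C5 * X ^ (49 * δ) := by
    refine ciSup_le fun K => ?_
    rw [div_le_iff₀ (pow_pos (hP0 K) 3)]
    have hPk : P (K + k) ≤ ((k : ℝ) + 1) * P K := by
      simp only [hPdef]
      push_cast
      nlinarith [(Nat.cast_nonneg K : (0 : ℝ) ≤ K), (Nat.cast_nonneg k : (0 : ℝ) ≤ k)]
    have hUk : U (K + k) ≤ 2 * C4 * X ^ (37 * δ) * (((k : ℝ) + 1) ^ ε * P K ^ ε) := by
      refine (hUZ (K + k)).trans ?_
      rw [← Real.mul_rpow (by positivity) (hP0 K).le]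
      exact mul_le_mul hZle (Real.rpow_le_rpow (hP0 _).le hPk hε0.le)
        (Real.rpow_nonneg (hP0 _).le _) (mul_nonneg (by positivity)
          (Real.rpow_nonneg (zero_le_one.trans hX1) _))
    have hX0 : 0 < X := zero_lt_one.trans_le hX1
    calc V K ≤ C0 * P K * U (K + k) * (CT * V K ^ (12 * δ)) := hvol K
      _ ≤ C0 * P K * (2 * C4 * X ^ (37 * δ) * (((k : ℝ) + 1) ^ ε * P K ^ ε)) *
            (CT * (X ^ (12 * δ) * P K ^ (3 * (12 * δ)))) := by
          refine mul_le_mul (mul_le_mul_of_nonneg_left hUk (mul_nonneg hC0 (hP0 K).le))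
            (mul_le_mul_of_nonneg_left (hpw K _ (by positivity)) hCT)
            (mul_nonneg hCT (Real.rpow_nonneg (zero_le_one.trans (hV K)) _)) ?_
          have := hP0 K
          positivity
      _ = C5 * (X ^ (37 * δ) * X ^ (12 * δ)) * (P K * P K ^ ε * P K ^ (3 * (12 * δ))) := by
          rw [hC5]; ring
      _ ≤ C5 * X ^ (49 * δ) * P K ^ 3 := by
          rw [← Real.rpow_add hX0, show 37 * δ + 12 * δ = 49 * δ by ring]
          refine mul_le_mul_of_nonneg_left ?_ (by positivity)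
          nth_rewrite 1 [← Real.rpow_one (P K)]
          rw [← Real.rpow_add (hP0 K), ← Real.rpow_add (hP0 K), ← Real.rpow_natCast (P K) 3]
          refine Real.rpow_le_rpow_of_exponent_le (hP K) ?_
          push_cast
          linarith
  have hX0 : 0 < X := zero_lt_one.trans_le hX1
  have hC50 : 0 ≤ C5 := by positivity
  have hsq : X ^ (49 * δ) ≤ Real.sqrt X := by
    rw [Real.sqrt_eq_rpow]
    exact Real.rpow_le_rpow_of_exponent_le hX1 (by linarith)
  have hsX : Real.sqrt X ≤ C5 := by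
    have h1 := hXle.trans (mul_le_mul_of_nonneg_left hsq hC50)
    have h2 := Real.mul_self_sqrt hX0.le
    have h3 : 0 < Real.sqrt X := Real.sqrt_pos.2 hX0
    refine le_of_mul_le_mul_right ?_ h3
    linarith
  have hXC : X ≤ C5 ^ 2 := by
    rw [← Real.mul_self_sqrt hX0.le, sq]
    exact mul_le_mul hsX hsX (Real.sqrt_nonneg X) hC50
  intro K
  refine ⟨(hVX K).trans (mul_le_mul_of_nonneg_right (hXC.trans (le_max_left _ _))
    (pow_nonneg (hP0 K).le 3)), (hUZ K).trans (mul_le_mul_of_nonneg_right ?_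
    (Real.rpow_nonneg (hP0 K).le ε))⟩
  refine hZle.trans (le_trans (mul_le_mul_of_nonneg_left ?_ (by positivity)) (le_max_right _ _))
  refine le_trans ?_ hsX
  rw [Real.sqrt_eq_rpow]
  exact Real.rpow_le_rpow_of_exponent_le hX1 (by linarith)

end Vale.Agent.P165.FQ

namespace Vale.Agent.P165.FP.Base

open Finset FF FreeGroup Vale.Agent.P165.FP Vale.Agent.P165.FQ

variable {Γ O ι α : Type} [Group Γ] [Fintype ι] [DecidableEq α] [Fintype α] [Fintype O]
  [DecidableEq Γ] [DecidableEq O] (E : Base Γ O ι α) {p : ℝ}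

/-- The window over one letter, seen from near its tip, holds few points within `K` steps. -/
theorem sum_side_le {K : ℕ} {T : ℝ} (hT : E.TailLe p K T)
    {m : α × Bool} {z : Γ × O} (hz : z ∈ E.above 1 [m]) (hzn : (E.pos z).norm ≤ E.L + 1) :
    ∑ y ∈ E.side z K m, tauW E.nb (E.side z K m) p z y K
      ≤ ((E.L * K + E.L + 2 : ℕ) : ℝ) * T := by
  classical
  set S := E.side z K m with hS
  set J := S.image E.pos
  have hJ : ∀ u ∈ J, u.toWord.length ∈ range (E.L * K + E.L + 2) ∧ [m] <+: u.toWord := by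
    intro u hu
    obtain ⟨y, hy, rfl⟩ := mem_image.1 hu
    obtain ⟨hy1, hy2⟩ := mem_filter.1 hy
    refine ⟨mem_range.2 ?_, E.mem_above_one.1 hy2⟩
    have h2 := (E.lip (z.1⁻¹ * y.1)).trans (Nat.mul_le_mul le_rfl (E.mem_cyl.1 hy1))
    have h3 := FreeGroup.norm_mul_le (E.pos z) (E.π (z.1⁻¹ * y.1))
    rw [← E.pos_diff, mul_inv_cancel_left] at h3
    rw [← E.pos_diff] at h2
    simp only [FreeGroup.norm] at h2 h3 hzn ⊢
    omega
  have havoid : ∀ u : FreeGroup α, ∃ e, e ∉ [li (u.toWord.getLastD E.a₀)] :=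
    fun u => exists_avoid E.rank _ (by simp)
  choose ext hext using havoid
  rw [← sum_fiberwise_of_maps_to (fun y hy => mem_image_of_mem E.pos hy),
    ← sum_fiberwise_of_maps_to (t := range (E.L * K + E.L + 2))
      (g := fun u : FreeGroup α => u.toWord.length) fun u hu => (hJ u hu).1]
  refine (sum_le_card_nsmul _ _ T fun j _ => ?_).trans (by rw [card_range, nsmul_eq_mul])
  refine hT m z hz hzn (J.filter fun u => u.toWord.length = j) ext (fun x hx => ?_) ?_ ?_
  · refine ⟨(hJ x (mem_filter.1 hx).1).2,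
      red_append.2 ⟨red_toWord _, List.isChain_singleton _, fun a ha b hb => ?_⟩⟩
    simp only [List.head?_cons, Option.mem_def, Option.some.injEq] at hb
    subst hb
    have := hext x
    simp only [List.mem_cons, List.not_mem_nil, or_false] at this
    rwa [List.getLastD_eq_getLast?, Option.mem_def.1 ha, Option.getD_some] at this
  · intro x _ x' _ e
    exact toWord_injective (List.append_inj_left' e rfl)
  · intro v hv w hw hpre
    obtain ⟨x, hx, rfl⟩ := mem_image.1 hv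
    obtain ⟨x', hx', rfl⟩ := mem_image.1 hw
    exact hpre.eq_of_length (by simp [(mem_filter.1 hx).2, (mem_filter.1 hx').2])

/-- The bound on near fibres by the own fibre. -/
def OffsetLe (p : ℝ) (M : ℕ) (C : ℝ) (k : ℕ) : Prop :=
  ∀ (K : ℕ) (a : Γ × O),
    ∑ z ∈ (E.cyl a K).filter (fun z => ((E.pos a)⁻¹ * E.pos z).norm ≤ M), E.tau p K a z
      ≤ C * E.own p (K + k)

/-- The volume by the own fibre and the bound on prefix-free families. -/
theorem vol_le (h0 : 0 ≤ p) (h1 : p ≤ 1) {C : ℝ} {k : ℕ}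
    (hoff : E.OffsetLe p (E.L + 1) C k) {K : ℕ} {T : ℝ} (hT1 : 1 ≤ T) (hT : E.TailLe p K T) :
    E.vol p K ≤ (Fintype.card O : ℝ) * (1 + (Fintype.card (α × Bool) : ℝ) * C * (2 * E.L + 2)) *
      ((K : ℝ) + 1) * E.own p (K + k) * T := by
  classical
  set N : ℝ := (Fintype.card (α × Bool) : ℝ)
  set P : ℝ := (K : ℝ) + 1
  set U' := E.own p (K + k)
  have hU' : 0 ≤ U' := E.own_nonneg h0 h1 _
  have hP1 : 1 ≤ P := by simp [P]
  have hcnt : ((E.L * K + E.L + 2 : ℕ) : ℝ) ≤ (2 * E.L + 2) * P := by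
    simp only [P]
    push_cast
    nlinarith [(Nat.cast_nonneg E.L : (0 : ℝ) ≤ E.L), (Nat.cast_nonneg K : (0 : ℝ) ≤ K)]
  have key : ∀ o : O, ∑ y ∈ E.cyl ((1 : Γ), o) K, E.tau p K ((1 : Γ), o) y
      ≤ (1 + N * C * (2 * E.L + 2)) * P * U' * T := by
    intro o
    set a : Γ × O := ((1 : Γ), o)
    set U := E.cyl a K
    have hpa : E.pos a = 1 := map_one _
    have hside : ∀ m : α × Bool, ∑ y ∈ U.filter (fun y => y ∈ E.above 1 [m]), E.tau p K a y
        ≤ C * (2 * E.L + 2) * P * U' * T := by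
      intro m
      set S' := U.filter fun y => y ∈ E.above 1 [m]
      set Z := U.filter fun z => z ∈ E.above 1 [m] ∧ (E.pos z).norm ≤ E.L + 1
      have ha : a ∉ E.above 1 [m] := by
        rw [E.mem_above_one, hpa, FreeGroup.toWord_one, List.prefix_nil]
        simp
      have hZ : ∀ x y, E.G.Adj x y → x ∉ E.above 1 [m] → y ∈ E.above 1 [m] → y ∈ U → y ∈ Z := by
        intro x y hxy hx hy hyU
        refine mem_filter.2 ⟨hyU, hy, ?_⟩
        have h := E.cross hxy hx hy
        rw [one_mul] at h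
        have h2 := FreeGroup.norm_mul_le (FreeGroup.mk [m]) ((FreeGroup.mk [m])⁻¹ * E.pos y)
        rw [mul_inv_cancel_left] at h2
        have h3 : (FreeGroup.mk [m]).norm ≤ 1 := FreeGroup.norm_mk_le
        omega
      have hinner : ∀ z ∈ Z, ∑ y ∈ S', tauW E.nb S' p z y K ≤ ((E.L * K + E.L + 2 : ℕ) : ℝ) * T := by
        intro z hz
        obtain ⟨-, hzm, hzn⟩ := mem_filter.1 hz
        refine le_trans ?_ (E.sum_side_le hT hzm hzn)
        have hsub : S' ∩ E.cyl z K ⊆ E.side z K m := fun y hy => by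
          obtain ⟨hy1, hy2⟩ := mem_inter.1 hy
          exact mem_filter.2 ⟨hy2, (mem_filter.1 hy1).2⟩
        have hle : ∀ y, tauW E.nb S' p z y K ≤ tauW E.nb (E.side z K m) p z y K := fun y =>
          (tauW_le_inter E.hl (E.covers_cyl K) S' h0 h1 z y).trans
            (tauW_mono E.hl hsub le_rfl h0 h1 z y)
        calc ∑ y ∈ S', tauW E.nb S' p z y K
            = ∑ y ∈ S'.filter (fun y => y ∈ E.cyl z K), tauW E.nb S' p z y K :=
              (sum_filter_of_ne fun y _ hne => by_contra fun h =>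
                hne (tauW_eq_zero E.hl (E.covers_cyl K) S' p fun hc => h hc.1)).symm
          _ ≤ ∑ y ∈ S'.filter (fun y => y ∈ E.cyl z K), tauW E.nb (E.side z K m) p z y K :=
              sum_le_sum fun y _ => hle y
          _ ≤ _ := sum_le_sum_of_subset_of_nonneg (fun y hy => by
                obtain ⟨hy1, hy2⟩ := mem_filter.1 hy
                exact hsub (mem_inter.2 ⟨hy1, hy2⟩))
              fun y _ _ => tauW_nonneg _ h0 h1 _ _ _
      calc ∑ y ∈ S', E.tau p K a y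
          ≤ ∑ y ∈ S', ∑ z ∈ Z, E.tau p K a z * tauW E.nb S' p z y K := sum_le_sum fun y hy =>
            tauW_last_entrance E.hl U S' (E.above 1 [m]) Z h0 h1 ha hZ
              (fun y hy hy' => mem_filter.2 ⟨hy, hy'⟩) (mem_filter.1 hy).2 K
        _ = ∑ z ∈ Z, E.tau p K a z * ∑ y ∈ S', tauW E.nb S' p z y K := by
            rw [sum_comm]; simp only [mul_sum]
        _ ≤ ∑ z ∈ Z, E.tau p K a z * ((2 * E.L + 2) * P * T) := sum_le_sum fun z hz =>
            mul_le_mul_of_nonneg_left ((hinner z hz).trans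
              (mul_le_mul_of_nonneg_right hcnt (zero_le_one.trans hT1))) (E.tau_nonneg h0 h1 _ _ _)
        _ ≤ C * U' * ((2 * E.L + 2) * P * T) := by
            rw [← sum_mul]
            refine mul_le_mul_of_nonneg_right (le_trans ?_ (hoff K a)) (by positivity)
            refine sum_le_sum_of_subset_of_nonneg (fun z hz => ?_)
              fun z _ _ => E.tau_nonneg h0 h1 _ _ _
            obtain ⟨hzU, -, hzn⟩ := mem_filter.1 hz
            exact mem_filter.2 ⟨hzU, by rw [hpa, inv_one, one_mul]; exact hzn⟩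
        _ = _ := by ring
    have hnear : ∑ y ∈ U.filter (fun y => E.pos y = 1), E.tau p K a y ≤ P * U' * T := by
      refine (E.sum_fibre_le_own h0 h1 _ K a fun y hy => (mem_filter.1 hy).2.trans hpa.symm).trans
        ((E.own_mono h0 h1 (Nat.le_add_right K k)).trans ?_)
      calc U' = 1 * U' * 1 := by ring
        _ ≤ P * U' * T := by gcongr
    have hsplit : ∀ y ∈ U, E.tau p K a y ≤ (if E.pos y = 1 then E.tau p K a y else 0) +
        ∑ m : α × Bool, (if y ∈ E.above 1 [m] then E.tau p K a y else 0) := by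
      intro y _
      have ht := E.tau_nonneg h0 h1 K a y
      have hnn : ∀ m : α × Bool, 0 ≤ if y ∈ E.above 1 [m] then E.tau p K a y else 0 := fun m => by
        split_ifs
        exacts [ht, le_rfl]
      rcases hw : (E.pos y).toWord with _ | ⟨m, t⟩
      · rw [if_pos (FreeGroup.toWord_eq_nil_iff.1 hw)]
        linarith [sum_nonneg fun m (_ : m ∈ (univ : Finset (α × Bool))) => hnn m]
      · have h := single_le_sum (fun m _ => hnn m) (mem_univ m)
        rw [if_pos (E.mem_above_one.2 (by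
          rw [hw]; exact List.cons_prefix_cons.2 ⟨rfl, List.nil_prefix⟩))] at h
        have : (0 : ℝ) ≤ if E.pos y = 1 then E.tau p K a y else 0 := by
          split_ifs
          exacts [ht, le_rfl]
        linarith
    refine (sum_le_sum hsplit).trans ?_
    rw [sum_add_distrib, sum_comm, ← sum_filter]
    calc _ ≤ P * U' * T + ∑ _m : α × Bool, C * (2 * E.L + 2) * P * U' * T :=
          add_le_add hnear (sum_le_sum fun m _ => by rw [← sum_filter]; exact hside m)
      _ = _ := by rw [sum_const, card_univ, nsmul_eq_mul]; ring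
  calc E.vol p K ≤ ∑ _o : O, (1 + N * C * (2 * E.L + 2)) * P * U' * T := sum_le_sum fun o _ => key o
    _ = _ := by rw [sum_const, card_univ, nsmul_eq_mul]; ring

/-- Below a subcritical parameter the volume is bounded. -/
theorem vol_bounded {ps : ℝ} (hs : Sub E.nb ps) (h0 : 0 ≤ p) (hp : p < ps) :
    ∃ B : ℝ, ∀ K, E.vol p K ≤ B := by
  have h1 : p ≤ 1 := hp.le.trans hs.2.1
  obtain ⟨X, hX⟩ := susceptibility E.hl E.hinv h0 h1 (hs.2.2 p h0 hp)
  refine ⟨∑ _o : O, X, fun K => sum_le_sum fun o _ => ?_⟩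
  exact (sum_le_sum fun y _ => tauW_le_tauIn _ h0 h1 _ _ _).trans (hX _ _ _)

/-- The bounds at the last parameter, given those of the tail, the own fibre and the offsets. -/
theorem exists_crit_of {ps δ ε : ℝ} (hs : Sub E.nb ps) (D : E.Data ps δ)
    (hε : 111 * δ ≤ ε) (hε1 : ε ≤ 1)
    (htail : ∃ CT : ℝ, 0 ≤ CT ∧ ∀ p, D.p₁ ≤ p → p ≤ ps → ∀ K,
      E.TailLe p K (CT * E.vol p K ^ (12 * δ)))
    (hown : ∃ (C : ℝ) (c : ℕ), 0 ≤ C ∧ ∀ p, D.p₁ ≤ p → p ≤ ps → ∀ K K' Q : ℕ, 1 ≤ Q →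
      c * (K + 1 + Nat.log 2 ⌈E.vol p K⌉₊) ≤ K' →
      E.own p K ≤ C * Q * E.vol p K ^ (24 * δ) + C * E.vol p K ^ (12 * δ) * E.own p K' / Q)
    (hoff : ∃ (C : ℝ) (k : ℕ), 0 ≤ C ∧ ∀ p, D.p₁ ≤ p → p ≤ 1 → E.OffsetLe p (E.L + 1) C k) :
    ∃ C : ℝ, 0 ≤ C ∧ ∀ K : ℕ, E.vol ps K ≤ C * ((K : ℝ) + 1) ^ 3 ∧
      E.own ps K ≤ C * ((K : ℝ) + 1) ^ ε ∧ E.TailLe ps K (C * ((K : ℝ) + 1) ^ ε) := by
  classical
  obtain ⟨CT, hCT, htail⟩ := htail
  obtain ⟨C1, c, hC1, hown⟩ := hown
  obtain ⟨Co, k, hCo, hoff⟩ := hoff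
  set C0 : ℝ :=
    (Fintype.card O : ℝ) * (1 + (Fintype.card (α × Bool) : ℝ) * Co * (2 * E.L + 2))
  obtain ⟨C, hC, hbd⟩ := FQ.self_bound (C0 := C0) (CT := CT + 1) (C1 := C1) D.δ_pos hε hε1
    (by positivity) (by linarith) hC1 k c
  have hp1 : ∀ q, q ≤ ps → q ≤ 1 := fun q hq => hq.trans D.ps_le
  have hbelow : ∀ q ∈ Set.Ico D.p₁ ps, ∀ K : ℕ, E.vol q K ≤ C * ((K : ℝ) + 1) ^ 3 ∧
      E.own q K ≤ C * ((K : ℝ) + 1) ^ ε := by
    rintro q ⟨hq1, hq2⟩
    have h0 : 0 ≤ q := D.p₁_pos.le.trans hq1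
    have h1 := hp1 q hq2.le
    obtain ⟨B, hB⟩ := E.vol_bounded hs h0 hq2
    refine hbd (E.vol q) (E.own q) B (E.one_le_vol h0 h1) hB (E.own_nonneg h0 h1)
      (fun K => (E.own_le_vol h0 h1 K).trans (hB K)) (fun K => ?_) (hown q hq1 hq2.le)
    have hV : 1 ≤ E.vol q K ^ (12 * δ) :=
      Real.one_le_rpow (E.one_le_vol h0 h1 K) (by linarith [D.δ_pos])
    have hT : CT * E.vol q K ^ (12 * δ) ≤ (CT + 1) * E.vol q K ^ (12 * δ) :=
      mul_le_mul_of_nonneg_right (by linarith) (by linarith)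
    refine E.vol_le h0 h1 (hoff q hq1 h1) (by nlinarith) ?_
    exact fun m a ha hna Q ext hQ hinj hpf =>
      (htail q hq1 hq2.le K m a ha hna Q ext hQ hinj hpf).trans hT
  have hmem : ps ∈ closure (Set.Ico D.p₁ ps) := by
    rw [closure_Ico D.p₁_lt.ne]
    exact Set.right_mem_Icc.2 D.p₁_lt.le
  have hvolps : ∀ K : ℕ, E.vol ps K ≤ C * ((K : ℝ) + 1) ^ 3 := fun K =>
    closure_minimal (fun q hq => (hbelow q hq K).1)
      (isClosed_le (E.continuous_vol K) continuous_const) hmem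
  have hownps : ∀ K : ℕ, E.own ps K ≤ C * ((K : ℝ) + 1) ^ ε := fun K =>
    closure_minimal (fun q hq => (hbelow q hq K).2)
      (isClosed_le (E.continuous_own K) continuous_const) hmem
  refine ⟨max C (CT * C ^ (12 * δ)), le_trans hC (le_max_left _ _), fun K => ⟨?_, ?_, ?_⟩⟩
  · exact (hvolps K).trans (mul_le_mul_of_nonneg_right (le_max_left _ _) (by positivity))
  · exact (hownps K).trans (mul_le_mul_of_nonneg_right (le_max_left _ _) (by positivity))
  · intro m a ha hna Q ext hQ hinj hpf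
    refine (htail ps D.p₁_lt.le le_rfl K m a ha hna Q ext hQ hinj hpf).trans ?_
    have hP : (1 : ℝ) ≤ (K : ℝ) + 1 := by linarith [(Nat.cast_nonneg K : (0 : ℝ) ≤ K)]
    have h3 : E.vol ps K ^ (12 * δ) ≤ C ^ (12 * δ) * ((K : ℝ) + 1) ^ ε := by
      refine (Real.rpow_le_rpow (E.vol_nonneg hs.1.le hs.2.1 K) (hvolps K)
        (by linarith [D.δ_pos])).trans ?_
      rw [Real.mul_rpow hC (by positivity), ← Real.rpow_natCast ((K : ℝ) + 1) 3,
        ← Real.rpow_mul (by linarith)]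
      refine mul_le_mul_of_nonneg_left (Real.rpow_le_rpow_of_exponent_le hP ?_)
        (Real.rpow_nonneg hC _)
      push_cast
      linarith [D.δ_pos]
    calc CT * E.vol ps K ^ (12 * δ) ≤ CT * (C ^ (12 * δ) * ((K : ℝ) + 1) ^ ε) :=
          mul_le_mul_of_nonneg_left h3 hCT
      _ = CT * C ^ (12 * δ) * ((K : ℝ) + 1) ^ ε := by ring
      _ ≤ _ := mul_le_mul_of_nonneg_right (le_max_right _ _) (by positivity)

end Vale.Agent.P165.FP.Base
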