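import Vale.Agent.P165.FQ.Basic
import Vale.Agent.P165.FQ.Threshold
import Vale.Agent.P165.FP.Codes

/-!
# The shared data exist at the last subcritical parameter

The code bound passes to the limit of subcritical parameters, and thinning from a slightly smaller
parameter, where the susceptibility is finite, makes the volume of short connections subexponential.
-/

namespace Vale.Agent.P165.FP.Base

open Finset FF Vale.Agent.P165.FP Vale.Agent.P165.FQ

variable {Γ O ι α : Type} [Group Γ] [Fintype ι] [DecidableEq α] [Fintype α] [Fintype O]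
  [DecidableEq Γ] [DecidableEq O] (E : Base Γ O ι α) {ps δ : ℝ}

/-- The code bound at the last subcritical parameter. -/
theorem bound_of_sub (hs : Sub E.nb ps) : E.Bound ps 1 := by
  obtain ⟨h0, h1, hw⟩ := hs
  have hmem : ps ∈ closure (Set.Ioo 0 ps) := by
    rw [closure_Ioo h0.ne]; exact Set.right_mem_Icc.2 h0.le
  exact closure_minimal (fun p hp => (E.crit_of_witness hp.1 (hp.2.le.trans h1)
    (hw p hp.1.le hp.2)).2.2) E.isClosed_bound hmem

/-- The volume of short connections is subexponential at the last subcritical parameter. -/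
theorem vol_subexp (hs : Sub E.nb ps) {η : ℝ} (hη : 0 < η) :
    ∃ K : ℝ, ∀ n : ℕ, E.vol ps n ≤ K * Real.exp (η * n) := by
  obtain ⟨h0, h1, hw⟩ := hs
  set q := Real.exp (-η)
  have hq : 0 < q := Real.exp_pos _
  have hq1 : q < 1 := Real.exp_lt_one_iff.2 (by linarith)
  have hpq : ps * q < ps := by nlinarith
  have hpq0 : 0 ≤ ps * q := by positivity
  obtain ⟨X, hX⟩ := susceptibility E.hl E.hinv hpq0 (hpq.le.trans h1) (hw _ hpq0 hpq)
  refine ⟨(Fintype.card O : ℝ) * X, fun n => ?_⟩
  have h2 : q ^ n * E.vol ps n ≤ (Fintype.card O : ℝ) * X := by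
    calc q ^ n * E.vol ps n
        = ∑ o : O, ∑ y ∈ E.cyl ((1 : Γ), o) n, q ^ n * E.tau ps n ((1 : Γ), o) y := by
          simp only [vol, mul_sum]
      _ ≤ ∑ _o : O, X := sum_le_sum fun o _ => le_trans (sum_le_sum fun y _ =>
            (thin_tauW _ h0.le h1 hq.le hq1.le _ y n).trans
              (tauW_le_tauIn _ hpq0 (hpq.le.trans h1) _ y n)) (hX _ _ _)
      _ = (Fintype.card O : ℝ) * X := by simp
  have e : Real.exp (η * n) = (q ^ n)⁻¹ := by
    rw [← Real.exp_nat_mul, ← Real.exp_neg]
    congr 1
    ring
  rw [e, ← div_eq_mul_inv, le_div_iff₀ (pow_pos hq n), mul_comm]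
  exact h2

/-- The exponents, the chains and the short volume. -/
theorem exists_data (hs : Sub E.nb ps) (hδ : 0 < δ) (hδ1 : δ < 1) : Nonempty (E.Data ps δ) := by
  obtain ⟨θ, θ', p₁, κ, C, hθ, hle, hθ'1, hratio, hbound, hp₁, hlt, hκ, hch⟩ :=
    E.exists_shortChains hs.1 hs.2.1 (E.bound_of_sub hs) hδ hδ1
  choose! W hfree hmem hcard hhit using hch
  obtain ⟨M, hM, hvol⟩ := log_range_le (fun n => E.vol_nonneg hs.1.le hs.2.1 n)
    (fun η hη => E.vol_subexp hs hη) C hδ
  exact ⟨{ θ := θ
           θ' := θ'
           p₁ := p₁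
           κ := κ
           M := M
           C := C
           W := W
           θ_pos := hθ
           θ_le := hle
           θ'_le := hθ'1
           ratio := hratio
           bound := hbound
           p₁_pos := hp₁
           p₁_lt := hlt
           ps_le := hs.2.1
           δ_pos := hδ
           δ_lt := hδ1
           κ_pos := hκ
           M_nonneg := hM
           W_free := hfree
           W_mem := hmem
           W_card := hcard
           W_hit := hhit
           vol_short := hvol }⟩

end Vale.Agent.P165.FP.Base
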