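import Vale.Agent.P165.FQ.Form
import Vale.Agent.P165.FQ.Entrance

/-!
# The form of connections by walks of bounded length

Connections inside a window by open walks of at most `K` steps have the properties used for the
cuts, so small powers of the length for their fibres give a small form.
-/

namespace Vale.Agent.P165.FQ

open Finset FF

variable {Γ O ι α : Type} [Group Γ] [Fintype ι] [DecidableEq α] [Fintype α] [Fintype O]
  [DecidableEq Γ] [DecidableEq O]

/-- Connections by short walks have the properties used for the cuts. -/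
theorem conn_tauW (E : FP.Base Γ O ι α) {p : ℝ} (h0 : 0 ≤ p) (h1 : p ≤ 1) (K : ℕ) :
    Conn E K fun S a y => tauW E.nb S p a y K where
  nonneg S a y := tauW_nonneg S h0 h1 a y K
  mono S S' h a y := avg_mono_set (inE_mono E.hl h) h0 h1 (monotone_ind (inc_within a y K))
  map g S a y := tauW_map E.hl (trIso E.hinv g) S p a y K
  symm S a y := tauW_comm S p a y K
  supp S a y hne hy := by
    refine (avg_congr _ _ fun η hη => if_neg fun hw => hy ?_).trans (by simp [avg])
    obtain ⟨w, -⟩ := hw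
    cases w.reverse with
    | nil => exact absurd rfl hne
    | cons hadj _ =>
      exact inE_mem (hη (mem_coe.1 ((SimpleGraph.fromEdgeSet_adj _).1 hadj).1))
        (Sym2.mem_mk_left _ _)
  loc S a y := by
    refine (tauW_le_inter E.hl (E.covers_cyl K) S h0 h1 a y).trans (le_of_eq ?_)
    rw [filter_mem_eq_inter]
  cut S S' W Z a ha hZ hS' _ hy := tauW_last_entrance E.hl S S' W Z h0 h1 ha hZ hS' hy K

end Vale.Agent.P165.FQ

namespace Vale.Agent.P165.FP.Base

open Finset FF Vale.Agent.P165.FQ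

variable {Γ O ι α : Type} [Group Γ] [Fintype ι] [DecidableEq α] [Fintype α] [Fintype O]
  [DecidableEq Γ] [DecidableEq O] (E : Base Γ O ι α) {ps : ℝ}

/-- Small powers of the length for the families of fibres and for the own fibre give a form of the
short connections below a quarter of the length, given that a fibre at bounded offset costs no
more than the own one. -/
theorem formSmall_of_offset (h0 : 0 < ps) (h1 : ps ≤ 1) {C : ℝ} (hC : 0 ≤ C)
    (hcrit : ∀ K : ℕ, E.own ps K ≤ C * ((K : ℝ) + 1) ^ (1 / 40 : ℝ) ∧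
      E.TailLe ps K (C * ((K : ℝ) + 1) ^ (1 / 40 : ℝ))) {Cf : ℝ} {k : ℕ} (hCf : 0 ≤ Cf)
    (hoff : ∀ (K : ℕ) (a : Γ × O),
      ∑ z ∈ (E.cyl a K).filter (fun z => ((E.pos a)⁻¹ * E.pos z).norm ≤ E.L + 1), E.tau ps K a z
        ≤ Cf * E.own ps (K + k)) :
    ∃ n, 1 ≤ n ∧ FormSmall E.nb (fun x => E.cyl x n) n ps (1 / 4) := by
  classical
  obtain ⟨K₀, hform⟩ := exists_form E (ε := 9 / 10) (by norm_num) (by norm_num)
  obtain ⟨K₁, hK₁⟩ := Filter.eventually_atTop.1
    (((tendsto_rpow_atTop (show (0 : ℝ) < 1 / 80 by norm_num)).comp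
      tendsto_natCast_atTop_atTop).eventually
        (Filter.eventually_ge_atTop (((k : ℝ) + 2) * (C + Cf * C) + 4)))
  set n := K₀ + K₁ + 1
  have hn1 : (1 : ℝ) ≤ n := by exact_mod_cast (show 1 ≤ n by omega)
  have hn80 : ((k : ℝ) + 2) * (C + Cf * C) + 4 ≤ (n : ℝ) ^ (1 / 80 : ℝ) := hK₁ n (by omega)
  have hk1 : (1 : ℝ) ≤ (k : ℝ) + 2 := by linarith [Nat.cast_nonneg (α := ℝ) k]
  have hroot : ∀ i : ℝ, 1 ≤ i → i ≤ n + k + 1 →
      i ^ (1 / 40 : ℝ) ≤ ((k : ℝ) + 2) * (n : ℝ) ^ (1 / 10 : ℝ) := by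
    intro i hi hi'
    refine (Real.rpow_le_rpow (by linarith)
      (show i ≤ ((k : ℝ) + 2) * n by nlinarith [Nat.cast_nonneg (α := ℝ) k]) (by norm_num)).trans ?_
    rw [Real.mul_rpow (by positivity) (by positivity)]
    refine mul_le_mul ?_ (Real.rpow_le_rpow_of_exponent_le hn1 (by norm_num)) (by positivity)
      (by positivity)
    exact (Real.rpow_le_rpow_of_exponent_le hk1 (by norm_num)).trans_eq (Real.rpow_one _)
  have hsum : ∀ D : ℝ, 0 ≤ D → D ≤ C + Cf * C → ∀ i : ℝ, 1 ≤ i → i ≤ n + k + 1 →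
      D * i ^ (1 / 40 : ℝ) ≤ (n : ℝ) ^ ((9 / 10 : ℝ) / 8) := by
    intro D hD hD' i hi hi'
    refine (mul_le_mul_of_nonneg_left (hroot i hi hi') hD).trans ?_
    rw [show (9 / 10 : ℝ) / 8 = 1 / 80 + 1 / 10 by norm_num, Real.rpow_add (by linarith),
      ← mul_assoc]
    refine mul_le_mul_of_nonneg_right ?_ (by positivity)
    refine le_trans ?_ hn80
    nlinarith
  have hCfC : 0 ≤ Cf * C := mul_nonneg hCf hC
  refine ⟨n, by omega, fun F f _ => ?_⟩
  refine (hform n (by omega) _ (conn_tauW E h0.le h1 n) ?_ ?_ F F f f).trans ?_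
  · intro m a ha hna Q ext h1' h2 h3
    refine ((hcrit n).2 m a ha hna Q ext h1' h2 h3).trans (hsum C hC (by linarith) _ ?_ ?_)
    · linarith
    · linarith [Nat.cast_nonneg (α := ℝ) k]
  · intro a q hq
    refine (sum_le_sum_of_subset_of_nonneg (fun z hz => ?_)
      fun z _ _ => E.tau_nonneg h0.le h1 n a z).trans ((hoff n a).trans ?_)
    · obtain ⟨hz1, hz2⟩ := mem_filter.1 hz
      exact mem_filter.2 ⟨hz1, by rw [hz2]; exact hq⟩
    · refine (mul_le_mul_of_nonneg_left (hcrit (n + k)).1 hCf).trans ?_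
      rw [← mul_assoc]
      refine hsum _ hCfC (by linarith) _ ?_ ?_ <;> push_cast
      · linarith [Nat.cast_nonneg (α := ℝ) k]
      · linarith
  rw [mul_assoc, Real.mul_self_sqrt (sum_nonneg fun x _ => sq_nonneg (f x))]
  refine mul_le_mul_of_nonneg_right ?_ (sum_nonneg fun x _ => sq_nonneg (f x))
  have h10 : 4 ≤ (n : ℝ) ^ (1 / 10 : ℝ) :=
    (by nlinarith : (4 : ℝ) ≤ (n : ℝ) ^ (1 / 80 : ℝ)).trans
      (Real.rpow_le_rpow_of_exponent_le hn1 (by norm_num))
  have e : (n : ℝ) ^ (9 / 10 : ℝ) * (n : ℝ) ^ (1 / 10 : ℝ) = n := by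
    rw [← Real.rpow_add (by linarith)]; norm_num
  nlinarith [mul_le_mul_of_nonneg_left h10 (Real.rpow_nonneg (by linarith : (0:ℝ) ≤ n) (9 / 10))]

end Vale.Agent.P165.FP.Base
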