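import Vale.Agent.P165.FQ.Basic
import Vale.Agent.P165.FQ.Insert

/-!
# The second moment of the ball of open steps

Two points of the ball are reached by a walk to a branch point and two further walks, on three
disjoint sets of edges, so the BK inequality bounds the second moment by the cube of the volume.
-/

namespace Vale.Agent.P165.FQ

open Finset FF

variable {V ι : Type} [DecidableEq V] [Fintype ι] {nb : V → ι → V}

omit [Fintype ι] in
/-- Two points within `K` open steps meet the three disjoint connections at some branch point. -/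
theorem branch {η : Finset (Sym2 V)} {a y y' : V} {K : ℕ} (h : Within a K η y)
    (h' : Within a K η y') :
    ∃ u, box (fun A => Within a K A u)
      (box (fun A => Within u K A y) (fun A => Within u K A y')) η := by
  obtain ⟨w, hw⟩ := h
  obtain ⟨β, hβ⟩ := h'
  set α := w.bypass with hαdef
  have hnd : α.edges.Nodup := w.bypass_isPath.isTrail.edges_nodup
  have hlen : α.length ≤ K := w.length_bypass_le_length.trans hw
  have hmem : ∀ {c d : V} (q : (SimpleGraph.fromEdgeSet (η : Set (Sym2 V))).Walk c d),
      q.edges.toFinset ⊆ η := fun q e he => by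
    have h2 := q.edges_subset_edgeSet (List.mem_toFinset.1 he)
    rw [SimpleGraph.edgeSet_fromEdgeSet] at h2
    exact h2.1
  suffices hb : ∃ u, u ∈ α.support ∧
      ∃ τ : (SimpleGraph.fromEdgeSet (η : Set (Sym2 V))).Walk u y',
        τ.length ≤ K ∧ ∀ e ∈ τ.edges, e ∉ α.edges by
    obtain ⟨u, hu, τ, hτ, hdis⟩ := hb
    have hed : α.edges = (α.takeUntil u hu).edges ++ (α.dropUntil u hu).edges := by
      rw [← SimpleGraph.Walk.edges_append, α.take_spec]
    have hd : Disjoint (α.takeUntil u hu).edges.toFinset (α.dropUntil u hu).edges.toFinset := by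
      rw [hed, List.nodup_append] at hnd
      exact disjoint_left.2 fun e h1 h2 =>
        hnd.2.2 e (List.mem_toFinset.1 h1) e (List.mem_toFinset.1 h2) rfl
    refine ⟨u, (α.takeUntil u hu).edges.toFinset,
      (α.dropUntil u hu).edges.toFinset ∪ τ.edges.toFinset, hmem _,
      union_subset (hmem _) (hmem _), disjoint_union_right.2 ⟨hd, disjoint_left.2 fun e h1 h2 =>
        hdis e (List.mem_toFinset.1 h2) ?_⟩, ?_, (α.dropUntil u hu).edges.toFinset, τ.edges.toFinset,
      subset_union_left, subset_union_right, disjoint_left.2 fun e h1 h2 =>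
        hdis e (List.mem_toFinset.1 h2) ?_, ?_, ?_⟩
    · rw [hed]; exact List.mem_append_left _ (List.mem_toFinset.1 h1)
    · exact within_of_walk _ ((α.length_takeUntil_le_length hu).trans hlen)
        fun e he => List.mem_toFinset.2 he
    · rw [hed]; exact List.mem_append_right _ (List.mem_toFinset.1 h1)
    · exact within_of_walk _ ((α.length_dropUntil_le_length hu).trans hlen)
        fun e he => List.mem_toFinset.2 he
    · exact within_of_walk τ hτ fun e he => List.mem_toFinset.2 he
  by_cases hy' : y' ∈ α.support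
  · exact ⟨y', hy', .nil, Nat.zero_le K, by simp⟩
  obtain ⟨u, x, hadj, hu, hx, σ, hσ, hout⟩ :=
    last_leave (fun v => v ∈ α.support) β ⟨a, β.start_mem_support, α.start_mem_support⟩ hy'
  refine ⟨u, hu, .cons hadj σ, by rw [SimpleGraph.Walk.length_cons]; omega, fun e he hα => ?_⟩
  rw [SimpleGraph.Walk.edges_cons, List.mem_cons] at he
  rcases he with rfl | he
  · exact hx (α.snd_mem_support_of_mem_edges hα)
  · induction e using Sym2.ind with
    | _ c d => exact hout _ (σ.fst_mem_support_of_mem_edges he) (α.fst_mem_support_of_mem_edges hα)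

open Classical in
/-- The second moment of the points within `K` open steps, for a bound on the first. -/
theorem second_moment (S Z : Finset V) {p : ℝ} (h0 : 0 ≤ p) (h1 : p ≤ 1) (a : V) (K : ℕ) {B : ℝ}
    (hB : ∀ (u : V) (F : Finset V), ∑ y ∈ F, tauW nb S p u y K ≤ B) :
    avg (inE nb S) p (fun η => ((Z.filter (Within a K η)).card : ℝ) ^ 2) ≤ B ^ 3 := by
  set E := inE nb S
  set U := insert a S
  have hB0 : 0 ≤ B := by simpa using hB a ∅
  have hpt : ∀ η, η ⊆ E → ((Z.filter (Within a K η)).card : ℝ) ^ 2 ≤ ∑ y ∈ Z, ∑ y' ∈ Z, ∑ u ∈ U,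
      ind (box (fun A => Within a K A u)
        (box (fun A => Within u K A y) (fun A => Within u K A y')) η) := by
    intro η hη
    have hnn : ∀ y y' : V, ∀ u ∈ U, 0 ≤ ind (box (fun A => Within a K A u)
        (box (fun A => Within u K A y) (fun A => Within u K A y')) η) := fun _ _ _ _ => ind_nonneg _
    rw [pow_two, card_filter, Nat.cast_sum, sum_mul_sum]
    refine sum_le_sum fun y _ => sum_le_sum fun y' _ => ?_
    by_cases h : Within a K η y ∧ Within a K η y'
    · obtain ⟨u, hu⟩ := branch h.1 h.2
      have huU : u ∈ U := by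
        obtain ⟨A, A', hA, -, -, ⟨w, -⟩, -⟩ := hu
        refine FP.support_in (P := fun v => v ∈ U) (fun c d hcd => mem_insert_of_mem (inE_mem
          (hη (hA (mem_coe.1 ((SimpleGraph.fromEdgeSet_adj _).1 hcd).1))) (Sym2.mem_mk_right c d)))
          w (mem_insert_self a S) u w.end_mem_support
      refine le_trans ?_ (single_le_sum (hnn y y') huU)
      simp [ind, hu, h.1, h.2]
    · refine le_trans (le_of_eq ?_) (sum_nonneg (hnn y y'))
      rcases not_and_or.1 h with h | h <;> simp [h]
  refine (avg_mono E h0 h1 hpt).trans ?_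
  simp only [avg_sum]
  have hbk : ∀ y y' u, avg E p (fun η => ind (box (fun A => Within a K A u)
      (box (fun A => Within u K A y) (fun A => Within u K A y')) η))
      ≤ tauW nb S p a u K * (tauW nb S p u y K * tauW nb S p u y' K) := fun y y' u =>
    (bk E h0 h1 _ _ (inc_within a u K) (inc_box _ _)).trans (mul_le_mul_of_nonneg_left
      (bk E h0 h1 _ _ (inc_within u y K) (inc_within u y' K)) (tauW_nonneg S h0 h1 a u K))
  calc _ ≤ ∑ y ∈ Z, ∑ y' ∈ Z, ∑ u ∈ U,
        tauW nb S p a u K * (tauW nb S p u y K * tauW nb S p u y' K) :=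
        sum_le_sum fun y _ => sum_le_sum fun y' _ => sum_le_sum fun u _ => hbk y y' u
    _ = ∑ u ∈ U, tauW nb S p a u K *
        ((∑ y ∈ Z, tauW nb S p u y K) * ∑ y' ∈ Z, tauW nb S p u y' K) := by
        refine ((sum_congr rfl fun y _ => sum_comm).trans sum_comm).trans
          (sum_congr rfl fun u _ => ?_)
        rw [sum_mul_sum, mul_sum]
        exact sum_congr rfl fun y _ => (mul_sum _ _ _).symm
    _ ≤ ∑ u ∈ U, tauW nb S p a u K * (B * B) := sum_le_sum fun u _ =>
        mul_le_mul_of_nonneg_left (mul_le_mul (hB u Z) (hB u Z)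
          (sum_nonneg fun _ _ => tauW_nonneg S h0 h1 _ _ _) hB0) (tauW_nonneg S h0 h1 a u K)
    _ ≤ B ^ 3 := by
        rw [← sum_mul]
        exact (mul_le_mul_of_nonneg_right (hB a U) (by positivity)).trans_eq (by ring)

end Vale.Agent.P165.FQ

namespace Vale.Agent.P165.FP.Base

open Finset FF Vale.Agent.P165.FP Vale.Agent.P165.FQ

variable {Γ O ι α : Type} [Group Γ] [Fintype ι] [DecidableEq α] [Fintype α] [Fintype O]
  [DecidableEq Γ] [DecidableEq O] (E : Base Γ O ι α)

open Classical in
/-- The second moment of the ball of `K` open steps inside any region. -/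
theorem moment_le {p : ℝ} (h0 : 0 ≤ p) (h1 : p ≤ 1) (S Z : Finset (Γ × O)) (a : Γ × O) (K : ℕ) :
    avg (inE E.nb S) p (fun η => ((Z.filter (Within a K η)).card : ℝ) ^ 2) ≤ E.vol p K ^ 3 :=
  second_moment S Z h0 h1 a K fun u F =>
    (sum_le_sum fun y _ => E.tauW_le_tau h0 h1 S K u y).trans (E.sum_tau_le_vol h0 h1 F K u)

end Vale.Agent.P165.FP.Base
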