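import Vale.Agent.P165.FQ.Basic
import Vale.Agent.P165.FQ.Tail
import Vale.Agent.P165.FQ.Moment

/-!
# The tail over fibres in terms of the short volume
-/

namespace Vale.Agent.P165.FP.Base

open Finset FF Vale.Agent.P165.FP Vale.Agent.P165.FQ

variable {Γ O ι α : Type} [Group Γ] [Fintype ι] [DecidableEq α] [Fintype α] [Fintype O]
  [DecidableEq Γ] [DecidableEq O] (E : Base Γ O ι α) {ps δ : ℝ}

open Classical in
/-- The tail bound. -/
theorem exists_tailLe (D : E.Data ps δ) (_hδ : δ ≤ 1 / 16) :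
    ∃ CT : ℝ, 0 ≤ CT ∧ ∀ p, D.p₁ ≤ p → p ≤ ps → ∀ K, E.TailLe p K (CT * E.vol p K ^ (12 * δ)) := by
  have hps : 0 < ps := D.p₁_pos.trans D.p₁_lt
  have hθ' : 0 < D.θ' := D.θ_pos.trans_le D.θ_le
  have hδ := D.δ_pos
  obtain ⟨K₀, hK₀, htail⟩ := E.exists_tailN hps D.ps_le D.C hδ hθ' D.θ'_le D.ratio D.bound
    D.p₁_pos D.κ_pos
    (fun L hL m => ⟨D.W L m, D.W_free L hL m, fun w hw => ⟨(D.W_mem L hL m w hw).1,
      (D.W_mem L hL m w hw).2.1⟩, D.W_card L hL m, D.W_hit L hL m⟩)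
    D.M_nonneg fun L hL S Z u => by
      refine le_trans ?_ (D.vol_short L hL)
      refine mul_le_mul_of_nonneg_left ?_ (by positivity)
      exact (sum_le_sum fun z _ => E.tauW_le_tau hps.le D.ps_le S _ u z).trans
        (E.sum_tau_le_vol hps.le D.ps_le Z _ u)
  refine ⟨K₀ * (2 : ℝ) ^ (4 * δ) + 1, by positivity,
    fun p hp hpps K m a ha hna Q ext hQ hinj hpf => ?_⟩
  have h0 : 0 ≤ p := D.p₁_pos.le.trans hp
  have h1 : p ≤ 1 := hpps.trans D.ps_le
  set V := E.vol p K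
  have hV : 1 ≤ V := E.one_le_vol h0 h1 K
  set N := ⌈V ^ 3⌉₊
  have hV3 : (1 : ℝ) ≤ V ^ 3 := one_le_pow₀ hV
  have hN : 1 ≤ N := Nat.one_le_ceil_iff.2 (by linarith)
  have hle : V ^ 3 ≤ (N : ℝ) := Nat.le_ceil _
  have hup : (N : ℝ) ≤ 2 * V ^ 3 := by
    have := Nat.ceil_lt_add_one (show 0 ≤ V ^ 3 by linarith)
    linarith
  have hone : (1 : ℝ) ≤ V ^ (12 * δ) := Real.one_le_rpow hV (by linarith)
  refine le_trans (le_of_eq ?_) ((htail p hp hpps K K m a ha hna Q ext hQ hinj hpf N hN).trans ?_)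
  · rfl
  rw [add_mul, one_mul]
  refine add_le_add ?_ ?_
  · rw [mul_assoc]
    refine mul_le_mul_of_nonneg_left ?_ hK₀
    refine (Real.rpow_le_rpow (Nat.cast_nonneg N) hup (by linarith)).trans (le_of_eq ?_)
    rw [Real.mul_rpow (by norm_num) (by linarith), ← Real.rpow_natCast V 3,
      ← Real.rpow_mul (by linarith)]
    congr 2
    push_cast
    ring
  · refine le_trans ?_ hone
    rw [div_le_one (by exact_mod_cast hN)]
    exact (E.moment_le h0 h1 _ _ a K).trans hle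

end Vale.Agent.P165.FP.Base
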