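import Vale.Agent.P165.FQ.Close
import Vale.Agent.P165.FQ.ExistsData
import Vale.Agent.P165.FQ.TailLe
import Vale.Agent.P165.FQ.Short

/-!
# The bounds at the last parameter and the small form

The own fibre step and the bound on fibres at bounded offsets give, with the tail and the closing
argument, the bounds at the last parameter and from them a small form of short connections.
-/

namespace Vale.Agent.P165.FP.Base

open Finset FF Vale.Agent.P165.FP Vale.Agent.P165.FQ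

variable {Γ O ι α : Type} [Group Γ] [Fintype ι] [DecidableEq α] [Fintype α] [Fintype O]
  [DecidableEq Γ] [DecidableEq O] (E : Base Γ O ι α) {ps : ℝ}

/-- The recursion of the own fibre at every datum. -/
def OwnStep (ps : ℝ) : Prop :=
  ∀ δ : ℝ, δ ≤ 1 / 16 → ∀ D : E.Data ps δ, ∃ (C : ℝ) (c : ℕ), 0 ≤ C ∧
    ∀ p, D.p₁ ≤ p → p ≤ ps → ∀ K K' Q : ℕ, 1 ≤ Q →
      c * (K + 1 + Nat.log 2 ⌈E.vol p K⌉₊) ≤ K' →
      E.own p K ≤ C * Q * E.vol p K ^ (24 * δ) + C * E.vol p K ^ (12 * δ) * E.own p K' / Q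

/-- Fibres at bounded offset cost no more than the own one. -/
def OffsetBound : Prop :=
  ∀ p₁ : ℝ, 0 < p₁ → ∀ M : ℕ, ∃ (C : ℝ) (k : ℕ), 0 ≤ C ∧
    ∀ p, p₁ ≤ p → p ≤ 1 → E.OffsetLe p M C k

/-- Volume, own fibre and tail at the last parameter. -/
theorem exists_crit_of_step (hs : Sub E.nb ps) (hown : E.OwnStep ps) (hoff : E.OffsetBound)
    {ε : ℝ} (hε : 0 < ε) :
    ∃ C : ℝ, 0 ≤ C ∧ ∀ K : ℕ, E.vol ps K ≤ C * ((K : ℝ) + 1) ^ 3 ∧
      E.own ps K ≤ C * ((K : ℝ) + 1) ^ ε ∧ E.TailLe ps K (C * ((K : ℝ) + 1) ^ ε) := by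
  set ε' := min ε 1 with hε'
  have hε'0 : 0 < ε' := lt_min hε one_pos
  have hε'1 : ε' ≤ 1 := min_le_right _ _
  obtain ⟨D⟩ := E.exists_data hs (δ := ε' / 120) (by linarith) (by linarith)
  obtain ⟨C, hC, h⟩ := E.exists_crit_of hs D (ε := ε') (by linarith) hε'1
    (E.exists_tailLe D (by linarith)) (hown _ (by linarith) D) (hoff D.p₁ D.p₁_pos (E.L + 1))
  refine ⟨C, hC, fun K => ?_⟩
  have hle : C * ((K : ℝ) + 1) ^ ε' ≤ C * ((K : ℝ) + 1) ^ ε := mul_le_mul_of_nonneg_left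
    (Real.rpow_le_rpow_of_exponent_le (by linarith [(Nat.cast_nonneg K : (0 : ℝ) ≤ K)])
      (min_le_left _ _)) hC
  exact ⟨(h K).1, (h K).2.1.trans hle,
    fun m a ha hna Q ext hQ hinj hpf => ((h K).2.2 m a ha hna Q ext hQ hinj hpf).trans hle⟩

/-- The small form at the last parameter. -/
theorem exists_formSmall_of_step (hs : Sub E.nb ps) (hown : E.OwnStep ps) (hoff : E.OffsetBound) :
    ∃ n, 1 ≤ n ∧ FormSmall E.nb (fun x => E.cyl x n) n ps (1 / 4) := by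
  obtain ⟨C, hC, hcrit⟩ := E.exists_crit_of_step hs hown hoff (show (0 : ℝ) < 1 / 40 by norm_num)
  obtain ⟨Cf, k, hCf, ho⟩ := hoff ps hs.1 (E.L + 1)
  exact E.formSmall_of_offset hs.1 hs.2.1 hC (fun K => (hcrit K).2) hCf (ho ps le_rfl hs.2.1)

end Vale.Agent.P165.FP.Base
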