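import Vale.Agent.P165.FP.Decay
import Vale.Agent.P165.FQ.Basic

/-!
# Cuts for connections of bounded length

The connection probabilities by paths of at most `K` steps are described by their formal properties
only. Given the bound `T` on prefix-free families of fibres, the mass of the fibre of a long word is
`T` times any fixed power of `T` over the length of the word.
-/

namespace Vale.Agent.P165.FQ

open Finset FF FreeGroup
open Vale.Agent.P165.FP (PrefixFree prefix_drop not_prefix_take)

variable {Γ O ι α : Type} [Group Γ] [Fintype ι] [DecidableEq α] [Fintype α] [Fintype O]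
  [DecidableEq Γ] [DecidableEq O] (E : FP.Base Γ O ι α)

/-- The properties used of the probability of being joined inside a window by a path of at most `K`
steps. -/
structure Conn (K : ℕ) (t : Finset (Γ × O) → Γ × O → Γ × O → ℝ) : Prop where
  nonneg : ∀ S a y, 0 ≤ t S a y
  mono : ∀ S S', S ⊆ S' → ∀ a y, t S a y ≤ t S' a y
  map : ∀ g S a y, t (S.image (tr g)) (tr g a) (tr g y) = t S a y
  symm : ∀ S a y, t S a y = t S y a
  supp : ∀ S a y, a ≠ y → y ∉ S → t S a y = 0
  loc : ∀ S a y, t S a y ≤ t (S.filter fun x => x ∈ E.cyl a K) a y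
  cut : ∀ (S S' : Finset (Γ × O)) (W : Set (Γ × O)) (Z : Finset (Γ × O)) (a : Γ × O), a ∉ W →
    (∀ x y, E.G.Adj x y → x ∉ W → y ∈ W → y ∈ S → y ∈ Z) → (∀ y ∈ S, y ∈ W → y ∈ S') →
    ∀ y ∈ W, t S a y ≤ ∑ z ∈ Z, t S a z * t S' z y

/-- The expected number of points over `q` reached from `a`. -/
noncomputable def fib (t : Finset (Γ × O) → Γ × O → Γ × O → ℝ) (U : Finset (Γ × O)) (a : Γ × O)
    (q : FreeGroup α) : ℝ :=
  ∑ y ∈ U.filter fun y => E.pos y = q, t U a y

/-- The bound on prefix-free families of fibres seen from near the tip of a half space. -/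
def TailB (K : ℕ) (t : Finset (Γ × O) → Γ × O → Γ × O → ℝ) (T : ℝ) : Prop :=
  ∀ (m : α × Bool) (a : Γ × O), a ∈ E.above 1 [m] → (E.pos a).norm ≤ E.L + 1 →
    ∀ (Q : Finset (FreeGroup α)) (ext : FreeGroup α → α × Bool),
      (∀ x ∈ Q, [m] <+: x.toWord ∧ Red (x.toWord ++ [ext x])) →
      Set.InjOn (fun x => x.toWord ++ [ext x]) Q →
      PrefixFree (Q.image fun x => x.toWord ++ [ext x]) →
        ∑ x ∈ Q, fib E t (E.side a K m) a x ≤ T

/-- The bound on the fibres near the start. -/
def OwnB (K : ℕ) (t : Finset (Γ × O) → Γ × O → Γ × O → ℝ) (B : ℝ) : Prop :=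
  ∀ (a : Γ × O) (q : FreeGroup α), ((E.pos a)⁻¹ * q).norm ≤ E.L + 1 → fib E t (E.cyl a K) a q ≤ B

open Classical in
/-- The points of a window at which a cut of `v` can be entered. -/
noncomputable def gate (S : Finset (Γ × O)) (v : List (α × Bool)) (r : ℕ) : Finset (Γ × O) :=
  S.filter fun z => v.take r <+: (E.pos z).toWord ∧ ((mk (v.take r))⁻¹ * E.pos z).norm ≤ E.L

variable {E} {K : ℕ} {t : Finset (Γ × O) → Γ × O → Γ × O → ℝ}

theorem Conn.fib_nonneg (h : Conn E K t) (U : Finset (Γ × O)) (a : Γ × O) (q : FreeGroup α) :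
    0 ≤ fib E t U a q :=
  sum_nonneg fun y _ => h.nonneg U a y

/-- Points over `q` are counted by the fibre of any window containing the ball of the start. -/
theorem Conn.sum_le_fib (h : Conn E K t) {S W F : Finset (Γ × O)} {a : Γ × O} {q : FreeGroup α}
    (hF : ∀ y ∈ F, E.pos y = q) (hW : ∀ x ∈ S, x ∈ E.cyl a K → x ∈ W) (ha : a ∈ W) :
    ∑ y ∈ F, t S a y ≤ fib E t W a q := by
  have h1 : ∀ y, t S a y ≤ t W a y := fun y => (h.loc S a y).trans
    (h.mono _ W (fun x hx => hW x (mem_filter.1 hx).1 (mem_filter.1 hx).2) a y)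
  calc ∑ y ∈ F, t S a y ≤ ∑ y ∈ F.filter (fun y => y ∈ W), t W a y := by
        rw [sum_filter]
        refine sum_le_sum fun y _ => ?_
        by_cases hy : y ∈ W
        · rw [if_pos hy]; exact h1 y
        · rw [if_neg hy]
          exact (h1 y).trans (h.supp W a y (fun e => hy (e ▸ ha)) hy).le
    _ ≤ fib E t W a q := sum_le_sum_of_subset_of_nonneg (fun y hy => mem_filter.2
        ⟨(mem_filter.1 hy).2, hF y (mem_filter.1 hy).1⟩) fun y _ _ => h.nonneg W a y

/-- All cuts of a word together cost a small power of the radius. -/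
theorem gate_sum_le (h : Conn E K t) {T : ℝ} (ht : TailB E K t T) {m : α × Bool} {a : Γ × O} (ha : a ∈ E.above 1 [m])
    (hna : (E.pos a).norm ≤ E.L + 1) {v : List (α × Bool)} (hm : v.head? = some m) (I : Finset ℕ)
    (hI : ∀ r ∈ I, 1 ≤ r ∧ r ≤ v.length) :
    ∑ r ∈ I, ∑ z ∈ gate E (E.side a K m) v r, t (E.side a K m) a z
      ≤ (((ballF (α := α) E.L).card * (E.L + 1) : ℕ) : ℝ) * T := by
  classical
  set S := E.side a K m
  set x : ℕ → FreeGroup α → FreeGroup α := fun r s => mk (v.take r) * s
  set good : ℕ → FreeGroup α → Prop := fun r s => v.take r <+: (x r s).toWord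
  have hword : ∀ r s, good r s → (x r s).toWord = v.take r ++ s.toWord := by
    intro r s h
    obtain ⟨c, hc⟩ := h
    have hs : s = mk c := mul_left_cancel (a := mk (v.take r)) (by
      rw [mul_mk, hc, mk_toWord])
    have hred := red_toWord (x r s)
    rw [← hc] at hred
    rw [← hc, hs, toWord_mk' (red_append.1 hred).2.1]
  have h1 : ∀ r ∈ I, ∑ z ∈ gate E S v r, t S a z
      ≤ ∑ s ∈ (ballF E.L).filter (good r), fib E t S a (x r s) := by
    intro r _
    have hmap : ∀ z ∈ gate E S v r, (mk (v.take r))⁻¹ * E.pos z ∈ (ballF E.L).filter (good r) := by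
      intro z hz
      obtain ⟨-, hz1, hz2⟩ := mem_filter.1 hz
      refine mem_filter.2 ⟨mem_ballF hz2, ?_⟩
      simpa only [good, x, mul_inv_cancel_left] using hz1
    rw [← sum_fiberwise_of_maps_to hmap]
    refine sum_le_sum fun s _ => sum_le_sum_of_subset_of_nonneg ?_
      fun z _ _ => h.nonneg S a z
    intro z hz
    obtain ⟨hzg, hzs⟩ := mem_filter.1 hz
    refine mem_filter.2 ⟨(mem_filter.1 hzg).1, ?_⟩
    simp only [x, ← hzs, mul_inv_cancel_left]
  refine (sum_le_sum h1).trans ?_
  rw [sum_comm' (t' := ballF E.L) (s' := fun s => I.filter fun r => good r s)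
    (fun r s => by simp only [mem_filter]; tauto)]
  refine (sum_le_card_nsmul _ _ (((E.L + 1 : ℕ) : ℝ) * T) fun s hs => ?_).trans
    (le_of_eq (by rw [nsmul_eq_mul, Nat.cast_mul, mul_assoc]))
  rw [mem_ballF_iff] at hs
  rw [← sum_fiberwise_of_maps_to (g := fun r => r % (E.L + 1)) (t := range (E.L + 1))
    fun r _ => mem_range.2 (Nat.mod_lt _ (Nat.succ_pos _))]
  refine (sum_le_card_nsmul _ _ (T) fun c _ => ?_).trans
    (le_of_eq (by rw [nsmul_eq_mul, card_range]))
  set F := (I.filter fun r => good r s).filter fun r => r % (E.L + 1) = c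
  have hF : ∀ r ∈ F, 1 ≤ r ∧ r ≤ v.length ∧ (x r s).toWord = v.take r ++ s.toWord ∧
      (x r s).toWord.length = r + s.norm ∧ r % (E.L + 1) = c := by
    intro r hr
    obtain ⟨hr', hc⟩ := mem_filter.1 hr
    obtain ⟨hr1, hr2⟩ := mem_filter.1 hr'
    obtain ⟨g1, g2⟩ := hI r hr1
    refine ⟨g1, g2, hword r s hr2, ?_, hc⟩
    rw [hword r s hr2, List.length_append, List.length_take, FreeGroup.norm, min_eq_left g2]
  have havoid : ∀ y : FreeGroup α, ∃ e, e ∉ [li (y.toWord.getLastD E.a₀), v.getD y.toWord.length E.a₀] :=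
    fun y => exists_avoid E.rank _ (by simp)
  choose ext hext using havoid
  simp only [List.mem_cons, List.not_mem_nil, or_false, not_or] at hext
  have hinj : Set.InjOn (fun r => x r s) ↑F := by
    intro r hr r' hr' e
    have h := congrArg (fun g : FreeGroup α => g.toWord.length) e
    simp only [(hF r hr).2.2.2.1, (hF r' hr').2.2.2.1] at h
    omega
  rw [← sum_image (g := fun r => x r s) (f := fun q => fib E t S a q) hinj]
  refine ht m a ha hna _ ext (fun y hy => ?_) ?_ ?_
  · obtain ⟨r, hr, rfl⟩ := mem_image.1 hy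
    obtain ⟨h1, h2, h3, -⟩ := hF r hr
    refine ⟨?_, red_append.2 ⟨red_toWord _, List.isChain_singleton _, fun z hz w hw => ?_⟩⟩
    · rw [h3]
      refine List.IsPrefix.trans ?_ (List.prefix_append _ _)
      cases v with
      | nil => simp at hm
      | cons b t =>
        simp only [List.head?_cons, Option.some.injEq] at hm
        subst hm
        obtain ⟨r, rfl⟩ : ∃ i, r = i + 1 := ⟨r - 1, by omega⟩
        simp [List.take_succ_cons]
    · simp only [List.head?_cons, Option.mem_def, Option.some.injEq] at hw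
      subst hw
      have := (hext (x r s)).1
      rwa [List.getLastD_eq_getLast?, Option.mem_def.1 hz, Option.getD_some] at this
  · intro y _ y' _ e
    exact toWord_injective (List.append_inj_left' e rfl)
  · intro u hu u' hu' hpre
    obtain ⟨y, hy, rfl⟩ := mem_image.1 hu
    obtain ⟨r, hr, rfl⟩ := mem_image.1 hy
    obtain ⟨y', hy', rfl⟩ := mem_image.1 hu'
    obtain ⟨r', hr', rfl⟩ := mem_image.1 hy'
    obtain ⟨-, -, e1, l1, c1⟩ := hF r hr
    obtain ⟨-, k2, e2, l2, c2⟩ := hF r' hr'
    have hlen := hpre.length_le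
    simp only [List.length_append, List.length_singleton, l1, l2] at hlen
    rcases eq_or_lt_of_le (show r ≤ r' by omega) with rfl | hlt
    · rfl
    · have hmod : r + (E.L + 1) ≤ r' := by
        have h := (Nat.modEq_iff_dvd' hlt.le).1 (show r ≡ r' [MOD E.L + 1] from c1.trans c2.symm)
        have := Nat.le_of_dvd (by omega) h
        omega
      refine absurd hpre (not_prefix_take (hext (x r s)).2 (by rw [l1]; omega) k2 ?_)
      rw [e2, List.append_assoc]
      exact List.prefix_append _ _

/-- A fixed number of cuts. -/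
theorem fib_cuts (k : ℕ) :
    ∃ (C : ℝ) (N₁ : ℕ), 0 ≤ C ∧ ∀ (K : ℕ) (t : Finset (Γ × O) → Γ × O → Γ × O → ℝ), Conn E K t →
      ∀ T : ℝ, 0 ≤ T → TailB E K t T → ∀ (m : α × Bool) (a : Γ × O), a ∈ E.above 1 [m] →
      (E.pos a).norm ≤ E.L + 1 → ∀ x : FreeGroup α, x.toWord.head? = some m →
      N₁ ≤ x.toWord.length →
        fib E t (E.side a K m) a x ≤ C * (T / x.toWord.length) ^ k * T := by
  classical
  induction k with
  | zero =>
    refine ⟨1, 0, zero_le_one, fun K t _ T _ ht m a ha hna x hx _ => ?_⟩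
    rw [pow_zero, one_mul, one_mul]
    have h1 : [m] <+: x.toWord := by
      rcases hw : x.toWord with _ | ⟨b, l⟩
      · simp [hw] at hx
      · simp only [hw, List.head?_cons, Option.some.injEq] at hx
        exact hx ▸ List.cons_prefix_cons.2 ⟨rfl, List.nil_prefix⟩
    obtain ⟨e, he⟩ := exists_avoid E.rank [li (x.toWord.getLastD m)] (by simp)
    have h2 : Red (x.toWord ++ [e]) :=
      red_append.2 ⟨red_toWord x, List.isChain_singleton _, fun b hb c hc => by
        simp only [List.head?_cons, Option.mem_def, Option.some.injEq] at hc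
        subst hc
        intro h'
        refine he (List.mem_singleton.2 ?_)
        rw [List.getLastD_eq_getLast?, Option.mem_def.1 hb, Option.getD_some]
        exact h'⟩
    have h := ht m a ha hna {x} (fun _ => e) (fun y hy => by
      rw [mem_singleton] at hy; subst hy; exact ⟨h1, h2⟩) (by simp) (fun u hu v hv _ => by
      simp only [image_singleton, mem_singleton] at hu hv; rw [hu, hv])
    simpa using h
  | succ k ih =>
    obtain ⟨C, N₁, hC, hih⟩ := ih
    set CT : ℝ := (((ballF (α := α) E.L).card * (E.L + 1) : ℕ) : ℝ)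
    refine ⟨8 * CT * (C * (2 : ℝ) ^ k), 2 * N₁ + 8 * (E.L + 3), by positivity,
      fun K t h T hT ht m a ha hna x hm hN => ?_⟩
    set v := x.toWord
    set N := v.length
    set S := E.side a K m
    set X : ℝ := T / N
    set B : ℝ := C * (2 : ℝ) ^ k * X ^ k * T
    have hN0 : (0 : ℝ) < N := by exact_mod_cast (show 0 < N by omega)
    have hB : 0 ≤ B := by positivity
    set I := Finset.Ioc (N / 4) (N / 2)
    have hI : ∀ r ∈ I, E.L + 2 ≤ r ∧ r ≤ N ∧ 2 * r ≤ N := fun r hr => by
      have := Finset.mem_Ioc.1 hr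
      omega
    have hcut : ∀ r ∈ I, fib E t S a x ≤ (∑ z ∈ gate E S v r, t S a z) * B := by
      intro r hr
      obtain ⟨hr1, hr2, hr3⟩ := hI r hr
      have haK : a ∉ E.above 1 (v.take r) := by
        rw [E.mem_above_one]
        intro hp
        have := hp.length_le
        rw [List.length_take] at this
        simp only [FreeGroup.norm] at hna
        omega
      have hZ : ∀ x y, E.G.Adj x y → x ∉ E.above 1 (v.take r) → y ∈ E.above 1 (v.take r) → y ∈ S →
          y ∈ gate E S v r := by
        intro x y hxy hx hy hyS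
        refine mem_filter.2 ⟨hyS, E.mem_above_one.1 hy, ?_⟩
        have h := E.cross hxy hx hy
        rw [one_mul] at h
        exact h.le
      set S' := S.filter fun y => y ∈ E.above 1 (v.take r) with hS'
      refine (sum_le_sum fun y hy => h.cut S S' (E.above 1 (v.take r)) (gate E S v r) a haK hZ
        (fun y hy hyK => mem_filter.2 ⟨hy, hyK⟩) y (E.mem_above_one.2
          (by rw [(mem_filter.1 hy).2]; exact List.take_prefix r v))).trans ?_
      rw [sum_comm, sum_mul]
      refine sum_le_sum fun z hz => ?_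
      rw [← mul_sum]
      refine mul_le_mul_of_nonneg_left ?_ (h.nonneg S a z)
      obtain ⟨hzS, hz1, hz2⟩ := mem_filter.1 hz
      obtain ⟨i, rfl⟩ : ∃ i, r = i + 1 := ⟨r - 1, by omega⟩
      have hi : i < v.length := by omega
      have htake : v.take (i + 1) = v.take i ++ [v[i]] := (List.take_concat_get' v i hi).symm
      obtain ⟨γ, hγ⟩ := E.surj (mk (v.take i))⁻¹
      have hxi : E.π γ * x = mk (v.drop i) := by
        conv_lhs => rw [← mk_toWord (x := x), ← List.take_append_drop i x.toWord, ← mul_mk, hγ,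
          inv_mul_cancel_left]
      have hzabove : tr γ z ∈ E.above 1 [v[i]] := by
        rw [E.mem_above_one, E.pos_tr, hγ]
        exact prefix_drop (htake ▸ hz1)
      have htw : (mk (v.drop i)).toWord = v.drop i := toWord_mk' (red_drop (red_toWord x) i)
      rw [sum_congr rfl fun y _ => (h.map γ S' z y).symm,
        ← sum_image (g := tr γ) fun y _ y' _ e => tr_injective γ e]
      refine (h.sum_le_fib (W := E.side (tr γ z) K v[i]) (q := mk (v.drop i)) ?_ ?_ ?_).trans ?_
      · intro y hy
        obtain ⟨y, hy', rfl⟩ := mem_image.1 hy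
        rw [E.pos_tr, (mem_filter.1 hy').2, hxi]
      · intro y hy hyc
        obtain ⟨y, hy', rfl⟩ := mem_image.1 hy
        refine mem_filter.2 ⟨hyc, E.mem_above_one.2 ?_⟩
        rw [E.pos_tr, hγ]
        exact prefix_drop (htake ▸ E.mem_above_one.1 (mem_filter.1 hy').2)
      · exact mem_filter.2 ⟨E.self_mem_cyl _ K, hzabove⟩
      refine (hih K t h T hT ht v[i] (tr γ z) hzabove ?_ (mk (v.drop i)) ?_ ?_).trans ?_
      · rw [E.pos_tr, hγ]
        have e : (mk (v.take i))⁻¹ * E.pos z = mk [v[i]] * ((mk (v.take (i + 1)))⁻¹ * E.pos z) := by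
          rw [htake, ← mul_mk]; group
        rw [e]
        refine (FreeGroup.norm_mul_le _ _).trans ?_
        have := FreeGroup.norm_mk_le (L₁ := [v[i]])
        simp only [List.length_singleton] at this
        omega
      · rw [htw, List.head?_drop, List.getElem?_eq_getElem hi]
      · rw [htw, List.length_drop]; omega
      · rw [htw]
        simp only [B]
        refine mul_le_mul_of_nonneg_right ?_ hT
        rw [mul_assoc, ← mul_pow]
        refine mul_le_mul_of_nonneg_left (pow_le_pow_left₀ (by positivity) ?_ k) hC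
        have hle : (N : ℝ) / 2 ≤ ((v.drop i).length : ℝ) := by
          have : N ≤ 2 * (v.drop i).length := by rw [List.length_drop]; omega
          have h : (N : ℝ) ≤ 2 * ((v.drop i).length : ℝ) := by exact_mod_cast this
          linarith
        refine (div_le_div_of_nonneg_left hT (by linarith) hle).trans (le_of_eq ?_)
        simp only [X]
        field_simp
    have hsum := sum_le_sum hcut
    rw [sum_const, nsmul_eq_mul, Nat.card_Ioc, ← sum_mul] at hsum
    replace hsum := hsum.trans (mul_le_mul_of_nonneg_right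
      (gate_sum_le h ht ha hna hm I fun r hr => ⟨by have := hI r hr; omega, (hI r hr).2.1⟩) hB)
    have hcard : (N : ℝ) ≤ 8 * ((N / 2 - N / 4 : ℕ) : ℝ) := by
      exact_mod_cast (show N ≤ 8 * (N / 2 - N / 4) by omega)
    have key : (N : ℝ) * fib E t S a x ≤ 8 * (CT * T * B) :=
      (mul_le_mul_of_nonneg_right hcard (h.fib_nonneg S a x)).trans (by linarith)
    calc fib E t S a x ≤ 8 * (CT * T * B) / N := by
          rw [le_div_iff₀ hN0, mul_comm]; exact key
      _ = _ := by simp only [B, X]; ring

end Vale.Agent.P165.FQ
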