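import Vale.Agent.P165.FQ.Decay
import Vale.Agent.P165.FP.NormFar

/-!
# The quadratic form of connections of bounded length

The form is pushed forward to the free group by Cauchy–Schwarz on every fibre. Short words are
summed, long words are cut often and then handled by Haagerup's inequality.
-/

namespace Vale.Agent.P165.FQ

open Finset FF FreeGroup
open Vale.Agent.P165.FP (PrefixFree form_short form_long)

variable {Γ O ι α : Type} [Group Γ] [Fintype ι] [DecidableEq α] [Fintype α] [Fintype O]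
  [DecidableEq Γ] [DecidableEq O] {E : FP.Base Γ O ι α}
  {K : ℕ} {t : Finset (Γ × O) → Γ × O → Γ × O → ℝ}

/-- Split at the last entrance above a letter. -/
theorem Conn.fib_le_gates (h : Conn E K t) {a : Γ × O} (hpa : E.pos a = 1) (m : α × Bool)
    {w : FreeGroup α} (hw : [m] <+: w.toWord) :
    fib E t (E.cyl a K) a w ≤
      ∑ z ∈ (E.cyl a K).filter (fun z => [m] <+: (E.pos z).toWord ∧ (E.pos z).norm ≤ E.L + 1),
        t (E.cyl a K) a z * fib E t (E.side z K m) z w := by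
  classical
  set U := E.cyl a K
  set Z := U.filter fun z => [m] <+: (E.pos z).toWord ∧ (E.pos z).norm ≤ E.L + 1
  have ha : a ∉ E.above 1 [m] := by
    rw [E.mem_above_one, hpa, FreeGroup.toWord_one, List.prefix_nil]
    simp
  have hZ : ∀ x y, E.G.Adj x y → x ∉ E.above 1 [m] → y ∈ E.above 1 [m] → y ∈ U → y ∈ Z := by
    intro x y hxy hx hy hyU
    refine mem_filter.2 ⟨hyU, E.mem_above_one.1 hy, ?_⟩
    have h := E.cross hxy hx hy
    rw [one_mul] at h
    have h2 := FreeGroup.norm_mul_le (FreeGroup.mk [m]) ((FreeGroup.mk [m])⁻¹ * E.pos y)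
    rw [mul_inv_cancel_left] at h2
    have h3 : (FreeGroup.mk [m]).norm ≤ 1 := FreeGroup.norm_mk_le
    omega
  set S' := U.filter fun y => y ∈ E.above 1 [m]
  calc fib E t U a w
      ≤ ∑ y ∈ U.filter (fun y => E.pos y = w), ∑ z ∈ Z, t U a z * t S' z y :=
        sum_le_sum fun y hy => h.cut U S' (E.above 1 [m]) Z a ha hZ
          (fun y hy hyK => mem_filter.2 ⟨hy, hyK⟩) y
          (E.mem_above_one.2 (by rw [(mem_filter.1 hy).2]; exact hw))
    _ = ∑ z ∈ Z, t U a z * ∑ y ∈ U.filter (fun y => E.pos y = w), t S' z y := by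
        rw [sum_comm]; simp only [mul_sum]
    _ ≤ ∑ z ∈ Z, t U a z * fib E t (E.side z K m) z w :=
        sum_le_sum fun z hz => mul_le_mul_of_nonneg_left
          (h.sum_le_fib (fun y hy => (mem_filter.1 hy).2)
            (fun x hx hxc => mem_filter.2 ⟨hxc, (mem_filter.1 hx).2⟩)
            (mem_filter.2 ⟨E.self_mem_cyl z K, E.mem_above_one.2 (mem_filter.1 hz).2.1⟩))
          (h.nonneg U a z)

/-- The gates above a letter carry a bounded multiple of the fibre bound. -/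
theorem Conn.gates_le (h : Conn E K t) {B : ℝ} (hB : OwnB E K t B) {a : Γ × O}
    (hpa : E.pos a = 1) (m : α × Bool) :
    ∑ z ∈ (E.cyl a K).filter (fun z => [m] <+: (E.pos z).toWord ∧ (E.pos z).norm ≤ E.L + 1),
      t (E.cyl a K) a z ≤ (ballF (α := α) (E.L + 1)).card * B := by
  classical
  rw [← sum_fiberwise_of_maps_to (t := ballF (E.L + 1)) (g := E.pos)
    fun z hz => mem_ballF_iff.2 (mem_filter.1 hz).2.2]
  refine (sum_le_card_nsmul _ _ B fun q hq => ?_).trans (by rw [nsmul_eq_mul])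
  exact (sum_le_sum_of_subset_of_nonneg (filter_subset_filter _ (filter_subset _ _))
    fun y _ _ => h.nonneg _ a y).trans
      (hB a q (by rw [hpa, inv_one, one_mul]; exact mem_ballF_iff.1 hq))

/-- The fibres over a ball of the free group. -/
theorem exists_near : ∃ C : ℝ, 0 ≤ C ∧
    ∀ (K : ℕ) (t : Finset (Γ × O) → Γ × O → Γ × O → ℝ), Conn E K t → ∀ T B : ℝ, 1 ≤ T → 0 ≤ B →
      TailB E K t T → OwnB E K t B → ∀ a : Γ × O, E.pos a = 1 → ∀ J : ℕ,
        ∑ w ∈ ballF (α := α) J, fib E t (E.cyl a K) a w ≤ C * ((J : ℝ) + 1) * (B * T) := by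
  classical
  set nF : ℝ := ((ballF (α := α) (E.L + 1)).card : ℝ)
  refine ⟨Fintype.card (α × Bool) * (1 + nF), by positivity, fun K t h T B hT hB ht hown a hpa J => ?_⟩
  set U := E.cyl a K
  have hblock : ∀ k : ℕ × (α × Bool),
      ∑ w ∈ (ballF (α := α) J).filter (fun w => (w.toWord.length, w.toWord.headD E.a₀) = k),
        fib E t U a w ≤ (1 + nF) * (B * T) := by
    rintro ⟨j, m⟩
    set Q := (ballF (α := α) J).filter
      (fun w => (w.toWord.length, w.toWord.headD E.a₀) = (j, m))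
    have hQ : ∀ w ∈ Q, w.toWord.length = j ∧ w.toWord.headD E.a₀ = m := fun w hw =>
      Prod.ext_iff.1 (mem_filter.1 hw).2
    have hnF : 0 ≤ nF := Nat.cast_nonneg _
    have hBT : B ≤ B * T := le_mul_of_one_le_right hB hT
    rcases Nat.eq_zero_or_pos j with hj | hj
    · have hsub : Q ⊆ {1} := fun w hw => mem_singleton.2
        (FreeGroup.toWord_eq_nil_iff.1 (List.length_eq_zero_iff.1 ((hQ w hw).1.trans hj)))
      refine (sum_le_sum_of_subset_of_nonneg hsub fun w _ _ => h.fib_nonneg U a w).trans ?_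
      rw [sum_singleton]
      refine (hown a 1 (by simp [hpa])).trans ?_
      nlinarith [mul_nonneg hnF (hB.trans hBT)]
    have hpre : ∀ w ∈ Q, [m] <+: w.toWord := fun w hw => by
      obtain ⟨h1, h2⟩ := hQ w hw
      rcases hww : w.toWord with _ | ⟨b, t⟩
      · rw [hww, List.length_nil] at h1; omega
      · rw [hww, List.headD_cons] at h2
        subst h2
        exact List.cons_prefix_cons.2 ⟨rfl, List.nil_prefix⟩
    set Z := U.filter fun z => [m] <+: (E.pos z).toWord ∧ (E.pos z).norm ≤ E.L + 1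
    set ext : FreeGroup α → α × Bool := fun x => x.toWord.getLastD m
    have hred : ∀ x ∈ Q, [m] <+: x.toWord ∧ Red (x.toWord ++ [ext x]) := fun x hx => by
      refine ⟨hpre x hx, red_append.2 ⟨red_toWord x, List.isChain_singleton _, fun b hb c hc => ?_⟩⟩
      rw [Option.mem_def] at hb hc
      simp only [List.head?_cons, Option.some.injEq] at hc
      rw [← hc, show ext x = x.toWord.getLastD m from rfl, List.getLastD_eq_getLast?, hb,
        Option.getD_some]
      exact (li_ne b).symm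
    have hinj : Set.InjOn (fun x => x.toWord ++ [ext x]) Q := fun x hx y hy h =>
      FreeGroup.toWord_injective (List.append_inj_left h ((hQ x hx).1.trans (hQ y hy).1.symm))
    have hpf : PrefixFree (Q.image fun x => x.toWord ++ [ext x]) := fun u hu v hv huv => by
      obtain ⟨x, hx, rfl⟩ := mem_image.1 hu
      obtain ⟨y, hy, rfl⟩ := mem_image.1 hv
      exact huv.eq_of_length (by simp [(hQ x hx).1, (hQ y hy).1])
    calc ∑ w ∈ Q, fib E t U a w
        ≤ ∑ w ∈ Q, ∑ z ∈ Z, t U a z * fib E t (E.side z K m) z w :=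
          sum_le_sum fun w hw => h.fib_le_gates hpa m (hpre w hw)
      _ = ∑ z ∈ Z, t U a z * ∑ w ∈ Q, fib E t (E.side z K m) z w := by
          rw [sum_comm]; simp only [mul_sum]
      _ ≤ ∑ z ∈ Z, t U a z * T :=
          sum_le_sum fun z hz => mul_le_mul_of_nonneg_left
            (ht m z (E.mem_above_one.2 (mem_filter.1 hz).2.1)
              (mem_filter.1 hz).2.2 Q ext hred hinj hpf) (h.nonneg U a z)
      _ ≤ nF * B * T := by
          rw [← sum_mul]
          exact mul_le_mul_of_nonneg_right (h.gates_le hown hpa m) (zero_le_one.trans hT)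
      _ ≤ _ := by nlinarith
  calc ∑ w ∈ ballF (α := α) J, fib E t U a w
      = ∑ k ∈ range (J + 1) ×ˢ (univ : Finset (α × Bool)),
          ∑ w ∈ (ballF (α := α) J).filter (fun w => (w.toWord.length, w.toWord.headD E.a₀) = k),
            fib E t U a w := (sum_fiberwise_of_maps_to (fun w hw => mem_product.2
          ⟨mem_range.2 (Nat.lt_succ_of_le (mem_ballF_iff.1 hw)), mem_univ _⟩) _).symm
    _ ≤ ((J + 1) * Fintype.card (α × Bool) : ℕ) * ((1 + nF) * (B * T)) := by
        refine (sum_le_card_nsmul _ _ _ fun k _ => hblock k).trans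
          (by rw [card_product, card_range, card_univ, nsmul_eq_mul])
    _ = _ := by push_cast; ring

/-- The fibre of a long word is light. -/
theorem exists_far (k : ℕ) : ∃ (C : ℝ) (N₁ : ℕ), 0 ≤ C ∧
    ∀ (K : ℕ) (t : Finset (Γ × O) → Γ × O → Γ × O → ℝ), Conn E K t → ∀ T B : ℝ, 0 ≤ T → 0 ≤ B →
      TailB E K t T → OwnB E K t B → ∀ a : Γ × O, E.pos a = 1 → ∀ w : FreeGroup α, N₁ ≤ w.norm →
        fib E t (E.cyl a K) a w ≤ C * (T / w.norm) ^ k * (B * T) := by
  classical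
  obtain ⟨C, N₁, hC, hcuts⟩ := fib_cuts (E := E) k
  refine ⟨((ballF (α := α) (E.L + 1)).card : ℝ) * C, N₁ + 1, by positivity,
    fun K t h T B hT hB ht hown a hpa w hw => ?_⟩
  obtain ⟨m, l, hm⟩ : ∃ m l, w.toWord = m :: l := by
    rcases hwl : w.toWord with _ | ⟨m, l⟩
    · simp [FreeGroup.norm, hwl] at hw
    · exact ⟨m, l, rfl⟩
  have hwm : [m] <+: w.toWord := hm ▸ List.cons_prefix_cons.2 ⟨rfl, List.nil_prefix⟩
  refine (h.fib_le_gates hpa m hwm).trans ?_
  refine (sum_le_sum fun z hz => mul_le_mul_of_nonneg_left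
    (hcuts K t h T hT ht m z (E.mem_above_one.2 (mem_filter.1 hz).2.1) (mem_filter.1 hz).2.2 w
      (by rw [hm]; rfl) (by simp only [FreeGroup.norm] at hw; omega)) (h.nonneg _ _ _)).trans ?_
  rw [← sum_mul]
  refine (mul_le_mul_of_nonneg_right (h.gates_le hown hpa m) (by positivity)).trans (le_of_eq ?_)
  simp only [FreeGroup.norm]
  ring

/-- The mass of the fibre of `w`, summed over the types of the start. -/
noncomputable def prof (E : FP.Base Γ O ι α) (t : Finset (Γ × O) → Γ × O → Γ × O → ℝ) (K : ℕ)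
    (w : FreeGroup α) : ℝ :=
  ∑ o : O, fib E t (E.cyl ((1 : Γ), o) K) ((1 : Γ), o) w

theorem Conn.prof_nonneg (h : Conn E K t) (w : FreeGroup α) : 0 ≤ prof E t K w :=
  sum_nonneg fun _ _ => h.fib_nonneg _ _ _

omit [DecidableEq Γ] [DecidableEq O] in
theorem prof_eq_zero {w : FreeGroup α} (hw : E.L * K < w.norm) : prof E t K w = 0 := by
  refine sum_eq_zero fun o _ => sum_eq_zero fun y hy => absurd hw (not_lt.2 ?_)
  obtain ⟨hy1, rfl⟩ := mem_filter.1 hy
  have h := E.mem_cyl.1 hy1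
  rw [inv_one, one_mul] at h
  exact (E.lip _).trans (Nat.mul_le_mul le_rfl h)

theorem Conn.fibre_le_prof (h : Conn E K t) (z : Γ × O) (v : FreeGroup α)
    (S : Finset (Γ × O)) (hS : ∀ y ∈ S, E.pos y = v) :
    ∑ y ∈ S, t (E.cyl z K) z y ≤ prof E t K ((E.pos z)⁻¹ * v) := by
  classical
  calc ∑ y ∈ S, t (E.cyl z K) z y
      = ∑ y ∈ S.image (tr z.1⁻¹), t (E.cyl ((1 : Γ), z.2) K) ((1 : Γ), z.2) y := by
        rw [sum_image fun a _ b _ e => tr_injective _ e]
        refine sum_congr rfl fun y _ => ?_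
        rw [show ((1 : Γ), z.2) = tr z.1⁻¹ z by simp [tr], ← E.image_cyl, h.map]
    _ ≤ fib E t (E.cyl ((1 : Γ), z.2) K) ((1 : Γ), z.2) ((E.pos z)⁻¹ * v) :=
        h.sum_le_fib (fun y hy => by
          obtain ⟨y, hy', rfl⟩ := mem_image.1 hy
          rw [E.pos_tr, hS y hy']
          simp [FP.Base.pos]) (fun x hx _ => hx) (E.self_mem_cyl _ K)
    _ ≤ _ := single_le_sum (f := fun o => fib E t (E.cyl ((1 : Γ), o) K) ((1 : Γ), o)
          ((E.pos z)⁻¹ * v)) (fun o _ => h.fib_nonneg _ _ _) (mem_univ z.2)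

/-- Cauchy–Schwarz on every pair of fibres. -/
theorem Conn.form_le_prof (h : Conn E K t) (F H : Finset (Γ × O)) (f g : Γ × O → ℝ) :
    ∑ x ∈ F, ∑ y ∈ H, f x * g y * t (E.cyl x K) x y ≤
      ∑ u ∈ F.image E.pos, ∑ v ∈ H.image E.pos,
        Real.sqrt (∑ x ∈ F.filter (fun x => E.pos x = u), f x ^ 2) *
        Real.sqrt (∑ y ∈ H.filter (fun y => E.pos y = v), g y ^ 2) *
        (prof E t K (u⁻¹ * v) + prof E t K (u⁻¹ * v)⁻¹) := by
  classical
  rw [← sum_fiberwise_of_maps_to fun x hx => mem_image_of_mem E.pos hx]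
  refine sum_le_sum fun u _ => ?_
  rw [sum_congr rfl fun x _ => (sum_fiberwise_of_maps_to (fun y hy => mem_image_of_mem E.pos hy)
    fun y => f x * g y * t (E.cyl x K) x y).symm, sum_comm]
  refine sum_le_sum fun v _ => ?_
  set Fu := F.filter fun x => E.pos x = u with hFu
  set Hv := H.filter fun y => E.pos y = v with hHv
  set k := prof E t K (u⁻¹ * v) + prof E t K (u⁻¹ * v)⁻¹
  have hk : 0 ≤ k := add_nonneg (h.prof_nonneg _) (h.prof_nonneg _)
  set τ : Γ × O → Γ × O → ℝ := fun x y => t (E.cyl x K) x y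
  have hτ : ∀ x y, 0 ≤ τ x y := fun x y => h.nonneg _ x y
  have hback : ∀ x y, τ x y ≤ t (E.cyl y K) y x := fun x y => by
    simp only [τ]
    rw [h.symm _ x y]
    exact (h.loc _ y x).trans (h.mono _ _ (fun w hw => (mem_filter.1 hw).2) y x)
  have hrow : ∀ x ∈ Fu, ∑ y ∈ Hv, τ x y ≤ k := by
    intro x hx
    refine (h.fibre_le_prof x v Hv fun y hy => (mem_filter.1 hy).2).trans ?_
    rw [(mem_filter.1 hx).2]
    exact le_add_of_nonneg_right (h.prof_nonneg _)
  have hcol : ∀ y ∈ Hv, ∑ x ∈ Fu, τ x y ≤ k := by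
    intro y hy
    refine (sum_le_sum fun x _ => hback x y).trans
      ((h.fibre_le_prof y u Fu fun x hx => (mem_filter.1 hx).2).trans ?_)
    rw [(mem_filter.1 hy).2, show v⁻¹ * u = (u⁻¹ * v)⁻¹ by rw [mul_inv_rev, inv_inv]]
    exact le_add_of_nonneg_left (h.prof_nonneg _)
  calc ∑ x ∈ Fu, ∑ y ∈ Hv, f x * g y * τ x y
      = ∑ q ∈ Fu ×ˢ Hv, (f q.1 * Real.sqrt (τ q.1 q.2)) * (g q.2 * Real.sqrt (τ q.1 q.2)) := by
        rw [sum_product]
        refine sum_congr rfl fun x _ => sum_congr rfl fun y _ => ?_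
        rw [mul_mul_mul_comm, Real.mul_self_sqrt (hτ x y)]
    _ ≤ Real.sqrt (k * ∑ x ∈ Fu, f x ^ 2) * Real.sqrt (k * ∑ y ∈ Hv, g y ^ 2) := by
        refine (Real.sum_mul_le_sqrt_mul_sqrt _ _ _).trans (mul_le_mul (Real.sqrt_le_sqrt ?_)
          (Real.sqrt_le_sqrt ?_) (Real.sqrt_nonneg _) (Real.sqrt_nonneg _))
        · simp only [sum_product, mul_pow, Real.sq_sqrt (hτ _ _), ← mul_sum]
          rw [mul_sum]
          exact sum_le_sum fun x hx => by
            rw [mul_comm k]; exact mul_le_mul_of_nonneg_left (hrow x hx) (sq_nonneg _)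
        · simp only [sum_product_right, mul_pow, Real.sq_sqrt (hτ _ _), ← mul_sum]
          rw [mul_sum]
          exact sum_le_sum fun y hy => by
            rw [mul_comm k]; exact mul_le_mul_of_nonneg_left (hcol y hy) (sq_nonneg _)
    _ = _ := by
        rw [Real.sqrt_mul hk, Real.sqrt_mul hk, mul_mul_mul_comm, Real.mul_self_sqrt hk, mul_comm]

/-- Given small powers of the length for the families of fibres and for the fibres near the start,
the form of the connections of bounded length is a small power of the length. -/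
theorem exists_form (E : FP.Base Γ O ι α) {ε : ℝ} (hε : 0 < ε) (hε1 : ε ≤ 1) :
    ∃ K₀ : ℕ, ∀ K, K₀ ≤ K → ∀ t : Finset (Γ × O) → Γ × O → Γ × O → ℝ, Conn E K t →
      TailB E K t ((K : ℝ) ^ (ε / 8)) → OwnB E K t ((K : ℝ) ^ (ε / 8)) →
      ∀ (F H : Finset (Γ × O)) (f g : Γ × O → ℝ),
        ∑ x ∈ F, ∑ y ∈ H, f x * g y * t (E.cyl x K) x y
          ≤ (K : ℝ) ^ ε * Real.sqrt (∑ x ∈ F, f x ^ 2) * Real.sqrt (∑ y ∈ H, g y ^ 2) := by
  classical
  obtain ⟨k, hk⟩ := exists_nat_ge (6 / (ε / 8))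
  rw [div_le_iff₀ (by positivity)] at hk
  obtain ⟨Cn, hCn, hn⟩ := exists_near (E := E)
  obtain ⟨Cf, N₁, hCf, hf⟩ := exists_far (E := E) k
  set N : ℝ := (Fintype.card O : ℝ)
  set C₁ : ℝ := 2 * N * Cn
  set C₂ : ℝ := 2 * N * Cf
  set L₁ : ℝ := 2 * (E.L : ℝ)
  set C : ℝ := 3 * C₁ + L₁ ^ 2 * Real.sqrt (C₂ * C₁ * L₁)
  have hev : ∀ᶠ K : ℕ in Filter.atTop, C + N₁ ≤ (K : ℝ) ^ (ε / 4) :=
    ((tendsto_rpow_atTop (by positivity)).comp tendsto_natCast_atTop_atTop).eventually
      (Filter.eventually_ge_atTop _)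
  obtain ⟨K₁, hK₁⟩ := Filter.eventually_atTop.1 hev
  refine ⟨K₁ + 1, fun K hK t h ht hown F H f g => (h.form_le_prof F H f g).trans ?_⟩
  have hKN : (1 : ℝ) ≤ K := by exact_mod_cast (show 1 ≤ K by omega)
  set x := (K : ℝ) ^ (ε / 8) with hx
  have hx1 : 1 ≤ x := Real.one_le_rpow hKN (by positivity)
  have hx0 : 0 < x := by linarith
  have hpow : ∀ i : ℕ, x ^ i = (K : ℝ) ^ (ε / 8 * i) := fun i => by
    rw [hx, ← Real.rpow_natCast, ← Real.rpow_mul (by linarith)]
  have hx2 : x ^ 2 = (K : ℝ) ^ (ε / 4) := by rw [hpow]; congr 1; push_cast; ring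
  have hCx : C + N₁ ≤ x ^ 2 := by rw [hx2]; exact hK₁ K (by omega)
  set J := ⌈x ^ 2⌉₊
  set R' := E.L * K
  set k₀ : FreeGroup α → ℝ := fun w => prof E t K w + prof E t K w⁻¹
  set kf : FreeGroup α → ℝ := fun w => if J < w.norm then k₀ w else 0
  have hk0 : ∀ w, 0 ≤ k₀ w := fun w => add_nonneg (h.prof_nonneg _) (h.prof_nonneg _)
  have hkf0 : ∀ w, 0 ≤ kf w := fun w => by
    simp only [kf]; split_ifs
    exacts [hk0 w, le_rfl]
  have hN : 0 ≤ N := Nat.cast_nonneg _
  have hC₁ : 0 ≤ C₁ := by positivity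
  have hC₂ : 0 ≤ C₂ := by positivity
  have hL : (1 : ℝ) ≤ E.L := by exact_mod_cast E.one_le_L
  have hsum : ∀ n : ℕ, ∑ w ∈ ballF n, k₀ w ≤ C₁ * ((n : ℝ) + 1) * (x * x) := by
    intro n
    have hinv : ∑ w ∈ ballF n, prof E t K w⁻¹ = ∑ w ∈ ballF (α := α) n, prof E t K w :=
      sum_nbij' (·⁻¹) (·⁻¹) (by simp [mem_ballF_iff]) (by simp [mem_ballF_iff]) (by simp)
        (by simp) (by simp)
    have h1 : ∑ w ∈ ballF n, prof E t K w ≤ N * (Cn * ((n : ℝ) + 1) * (x * x)) := by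
      simp only [prof]
      rw [sum_comm]
      refine (sum_le_card_nsmul _ _ _ fun o _ =>
        hn K t h x x hx1 hx0.le ht hown ((1 : Γ), o) (map_one _) n).trans_eq ?_
      rw [nsmul_eq_mul, card_univ]
    simp only [k₀, sum_add_distrib, hinv, C₁]
    linarith
  have hJ : (J : ℝ) + 1 ≤ 3 * x ^ 2 := by
    have := Nat.ceil_lt_add_one (by positivity : (0 : ℝ) ≤ x ^ 2)
    have := one_le_pow₀ (n := 2) hx1
    linarith
  have hshort : ∑ w ∈ ballF J, k₀ w ≤ 3 * C₁ * x ^ 4 := by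
    refine (hsum J).trans ?_
    have h1 := mul_le_mul_of_nonneg_right (mul_le_mul_of_nonneg_left hJ hC₁)
      (mul_nonneg hx0.le hx0.le)
    exact h1.trans (le_of_eq (by ring))
  have hsup : ∀ w : FreeGroup α, kf w ≤ C₂ * (1 / x) ^ k * (x * x) := by
    intro w
    simp only [kf]
    split_ifs with hw
    swap
    · positivity
    have hNw : N₁ ≤ w.norm := by
      have : (N₁ : ℝ) ≤ J := le_trans (by
        have : 0 ≤ C := by positivity
        linarith) (Nat.le_ceil _)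
      have : N₁ ≤ J := by exact_mod_cast this
      omega
    have hxw : x / (w.norm : ℝ) ≤ 1 / x := by
      have : x ^ 2 ≤ (w.norm : ℝ) := (Nat.le_ceil _).trans (Nat.cast_le.2 hw.le)
      rw [div_le_div_iff₀ (by nlinarith) hx0]
      nlinarith
    have h1 : ∀ v : FreeGroup α, v.norm = w.norm →
        prof E t K v ≤ N * (Cf * (1 / x) ^ k * (x * x)) := fun v hv => by
      refine (sum_le_card_nsmul _ _ _ fun o _ => (hf K t h x x hx0.le hx0.le ht hown ((1 : Γ), o)
        (map_one _) v (hv ▸ hNw)).trans ?_).trans_eq (by rw [nsmul_eq_mul, card_univ])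
      rw [hv]
      refine mul_le_mul_of_nonneg_right (mul_le_mul_of_nonneg_left
        (pow_le_pow_left₀ (by positivity) hxw k) hCf) (by positivity)
    have := h1 w rfl
    have := h1 w⁻¹ norm_inv_eq
    simp only [k₀, C₂]
    linarith
  have hxk : (K : ℝ) ^ 6 ≤ x ^ k := by
    rw [hpow, ← Real.rpow_natCast (K : ℝ) 6]
    exact Real.rpow_le_rpow_of_exponent_le hKN (by push_cast; linarith)
  have hx4 : x ^ 4 ≤ (K : ℝ) := by
    rw [hpow]
    calc (K : ℝ) ^ (ε / 8 * ((4 : ℕ) : ℝ)) ≤ (K : ℝ) ^ (1 : ℝ) :=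
          Real.rpow_le_rpow_of_exponent_le hKN (by push_cast; linarith)
      _ = K := Real.rpow_one _
  have hR' : (R' : ℝ) + 1 ≤ L₁ * K := by
    simp only [R', L₁]; push_cast; nlinarith
  have hs : ∑ w ∈ ballF R', kf w ^ 2 ≤ C₂ * C₁ * L₁ * (1 / (K : ℝ) ^ 2) ^ 2 := by
    refine (sum_le_sum fun w _ => (sq (kf w)).trans_le
      (mul_le_mul_of_nonneg_right (hsup w) (hkf0 w))).trans ?_
    rw [← mul_sum]
    refine (mul_le_mul_of_nonneg_left ((sum_le_sum fun w _ => ?_).trans (hsum R'))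
      (by positivity)).trans ?_
    · simp only [kf]; split_ifs
      exacts [le_rfl, hk0 w]
    calc C₂ * (1 / x) ^ k * (x * x) * (C₁ * ((R' : ℝ) + 1) * (x * x))
        = C₂ * C₁ * ((R' : ℝ) + 1) * (x ^ 4 * (1 / x ^ k)) := by rw [one_div_pow]; ring
      _ ≤ C₂ * C₁ * (L₁ * K) * ((K : ℝ) * (1 / (K : ℝ) ^ 6)) := by
          refine mul_le_mul (mul_le_mul_of_nonneg_left hR' (by positivity)) (mul_le_mul hx4
            (one_div_le_one_div_of_le (by positivity) hxk) (by positivity) (by positivity))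
            (by positivity) (by positivity)
      _ = _ := by field_simp
  have hlong : ((R' : ℝ) + 1) ^ 2 * Real.sqrt (∑ w ∈ ballF R', kf w ^ 2) ≤
      L₁ ^ 2 * Real.sqrt (C₂ * C₁ * L₁) * x ^ 4 := by
    refine (mul_le_mul (pow_le_pow_left₀ (by positivity) hR' 2) (Real.sqrt_le_sqrt hs)
      (Real.sqrt_nonneg _) (by positivity)).trans ?_
    rw [Real.sqrt_mul (by positivity), Real.sqrt_sq (by positivity)]
    refine le_of_eq_of_le ?_ (le_mul_of_one_le_right (by positivity) (one_le_pow₀ hx1))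
    field_simp
  set Fb : FreeGroup α → ℝ := fun u => Real.sqrt (∑ x ∈ F.filter (fun x => E.pos x = u), f x ^ 2)
  set Hb : FreeGroup α → ℝ := fun v => Real.sqrt (∑ y ∈ H.filter (fun y => E.pos y = v), g y ^ 2)
  have hFb : ∀ (S : Finset (Γ × O)) (φ : Γ × O → ℝ),
      Real.sqrt (∑ u ∈ S.image E.pos,
        Real.sqrt (∑ x ∈ S.filter (fun x => E.pos x = u), φ x ^ 2) ^ 2) =
      Real.sqrt (∑ x ∈ S, φ x ^ 2) := fun S φ => by
    rw [sum_congr rfl fun u _ => Real.sq_sqrt (sum_nonneg fun x _ => sq_nonneg (φ x)),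
      sum_fiberwise_of_maps_to fun x hx => mem_image_of_mem E.pos hx]
  calc ∑ u ∈ F.image E.pos, ∑ v ∈ H.image E.pos, Fb u * Hb v * k₀ (u⁻¹ * v)
      ≤ ∑ u ∈ F.image E.pos, ∑ v ∈ H.image E.pos,
          ((if (u⁻¹ * v).norm ≤ J then Fb u * Hb v * k₀ (u⁻¹ * v) else 0) +
           (if (u⁻¹ * v).norm ≤ R' then Fb u * Hb v * kf (u⁻¹ * v) else 0)) := by
        refine sum_le_sum fun u _ => sum_le_sum fun v _ => le_of_eq ?_
        rcases le_or_gt (u⁻¹ * v).norm J with hJ | hJ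
        · simp [kf, hJ, not_lt.2 hJ]
        · rcases le_or_gt (u⁻¹ * v).norm R' with hR' | hR'
          · simp [kf, hJ, not_le.2 hJ, hR']
          · have hz : k₀ (u⁻¹ * v) = 0 := by
              simp only [k₀]
              rw [prof_eq_zero hR', prof_eq_zero (by rw [norm_inv_eq]; exact hR'), add_zero]
            simp [not_le.2 hR', hz]
    _ ≤ (∑ w ∈ ballF J, k₀ w) * Real.sqrt (∑ u ∈ F.image E.pos, Fb u ^ 2) *
          Real.sqrt (∑ v ∈ H.image E.pos, Hb v ^ 2) +
        ((R' : ℝ) + 1) ^ 2 * Real.sqrt (∑ w ∈ ballF R', kf w ^ 2) *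
          Real.sqrt (∑ u ∈ F.image E.pos, Fb u ^ 2) * Real.sqrt (∑ v ∈ H.image E.pos, Hb v ^ 2) := by
        simp only [sum_add_distrib]
        exact add_le_add (form_short J k₀ Fb Hb hk0 _ _) (form_long R' kf Fb Hb _ _)
    _ ≤ (K : ℝ) ^ ε * Real.sqrt (∑ x ∈ F, f x ^ 2) * Real.sqrt (∑ y ∈ H, g y ^ 2) := by
        simp only [Fb, Hb, hFb]
        rw [← add_mul, ← add_mul]
        refine mul_le_mul_of_nonneg_right (mul_le_mul_of_nonneg_right ?_ (Real.sqrt_nonneg _))
          (Real.sqrt_nonneg _)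
        refine (add_le_add hshort hlong).trans ?_
        rw [← add_mul]
        calc C * x ^ 4 ≤ x ^ 2 * x ^ 4 := mul_le_mul_of_nonneg_right
              (by linarith [Nat.cast_nonneg (α := ℝ) N₁]) (by positivity)
          _ = (K : ℝ) ^ (ε / 8 * ((6 : ℕ) : ℝ)) := by rw [← pow_add, hpow]
          _ ≤ _ := Real.rpow_le_rpow_of_exponent_le hKN (by push_cast; linarith)

end Vale.Agent.P165.FQ
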