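import Mathlib

/-!
# A nonabelian image in a free group gives a free quotient of rank two
-/

namespace Vale.Agent.P165.FQ

/-- A group with a nonabelian image in a free group maps onto the free group of rank two. -/
theorem exists_surjection_free_two {Γ X : Type} [Group Γ] (f : Γ →* FreeGroup X)
    (hf : ∃ g h, f g * f h ≠ f h * f g) :
    ∃ π : Γ →* FreeGroup (Fin 2), Function.Surjective π := by
  classical
  obtain ⟨g, h, hgh⟩ := hf
  let e : f.range ≃* FreeGroup (IsFreeGroup.Generators f.range) := IsFreeGroup.toFreeGroup _
  have hnt : Nontrivial (IsFreeGroup.Generators f.range) := by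
    refine not_subsingleton_iff_nontrivial.1 fun hs => hgh ?_
    have hcomm : ∀ a b : FreeGroup (IsFreeGroup.Generators f.range), a * b = b * a := by
      rcases isEmpty_or_nonempty (IsFreeGroup.Generators f.range) with hE | ⟨⟨u⟩⟩
      · exact fun a b => Subsingleton.elim _ _
      · let : Unique (IsFreeGroup.Generators f.range) :=
          { default := u, uniq := fun v => Subsingleton.elim v u }
        intro a b
        obtain ⟨m, rfl⟩ : ∃ m : ℤ, FreeGroup.of u ^ m = a := by
          refine Subgroup.mem_zpowers_iff.1 ?_
          rw [Subgroup.zpowers_eq_closure, show ({FreeGroup.of u} : Set _) = Set.range FreeGroup.of from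
            (Set.range_unique (f := FreeGroup.of)).symm,
            FreeGroup.closure_range_of]
          exact Subgroup.mem_top _
        obtain ⟨k, rfl⟩ : ∃ k : ℤ, FreeGroup.of u ^ k = b := by
          refine Subgroup.mem_zpowers_iff.1 ?_
          rw [Subgroup.zpowers_eq_closure, show ({FreeGroup.of u} : Set _) = Set.range FreeGroup.of from
            (Set.range_unique (f := FreeGroup.of)).symm,
            FreeGroup.closure_range_of]
          exact Subgroup.mem_top _
        exact zpow_mul_comm _ _ _
    have key := hcomm (e (f.rangeRestrict g)) (e (f.rangeRestrict h))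
    have h2 : f.rangeRestrict g * f.rangeRestrict h = f.rangeRestrict h * f.rangeRestrict g :=
      e.injective (by rw [map_mul, map_mul]; exact key)
    exact congrArg Subtype.val h2
  obtain ⟨a, b, hab⟩ := exists_pair_ne (IsFreeGroup.Generators f.range)
  let v : IsFreeGroup.Generators f.range → FreeGroup (Fin 2) := fun u =>
    if u = a then FreeGroup.of 0 else if u = b then FreeGroup.of 1 else 1
  refine ⟨((FreeGroup.lift v).comp e.toMonoidHom).comp f.rangeRestrict, ?_⟩
  have hsurj : Function.Surjective (FreeGroup.lift v) := by
    rw [← MonoidHom.range_eq_top, eq_top_iff, ← FreeGroup.closure_range_of (Fin 2),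
      Subgroup.closure_le]
    rintro _ ⟨i, rfl⟩
    fin_cases i
    · exact ⟨FreeGroup.of a, by simp [v]⟩
    · exact ⟨FreeGroup.of b, by simp [v, hab.symm]⟩
  exact (hsurj.comp e.surjective).comp f.rangeRestrict_surjective

end Vale.Agent.P165.FQ
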