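import Vale.Agent.P165.FP.Insert
import Vale.Agent.P165.FQ.Within

/-!
# A connection through the layers of the intrinsic balls

A connection from `x` to `o` either is short or leaves the ball of radius `i` for good at a point at
distance exactly `i`; what follows only uses edges that the exploration of this ball has not seen.
Averaging over the radii gives a linear inequality with the kernel of short connections over `n`.
-/

namespace Vale.Agent.P165.FQ

open Finset FF

variable {V ι : Type} [DecidableEq V] [Fintype ι] {nb : V → ι → V}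

omit [DecidableEq V] in
theorem within_step {η : Finset (Sym2 V)} {a u v : V} {n : ℕ} (h : Within a n η u)
    (hadj : (SimpleGraph.fromEdgeSet (η : Set (Sym2 V))).Adj u v) : Within a (n + 1) η v := by
  obtain ⟨w, hw⟩ := h
  exact ⟨w.concat hadj, by rw [SimpleGraph.Walk.length_concat]; omega⟩

open Classical in
/-- The intrinsic ball inside `B`. -/
noncomputable def layerBall (B : Finset V) (a : V) (η : Finset (Sym2 V)) (n : ℕ) : Finset V :=
  B.filter fun v => Within a n η v

theorem mem_layerBall {S : Finset V} {a v : V} {η : Finset (Sym2 V)}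
    {n : ℕ} (hη : η ⊆ inE nb S) :
    v ∈ layerBall (insert a S) a η n ↔ Within a n η v := by
  classical
  refine ⟨fun h => (mem_filter.1 h).2, fun h => mem_filter.2 ⟨?_, h⟩⟩
  obtain ⟨w, -⟩ := h
  refine FP.support_in (P := fun z => z ∈ insert a S) (fun u u' hu => ?_) w
    (mem_insert_self _ _) v w.end_mem_support
  exact mem_insert_of_mem (inE_mem (hη (mem_coe.1 ((SimpleGraph.fromEdgeSet_adj _).1 hu).1))
    (Sym2.mem_mk_right u u'))

open Classical in
/-- The edges seen when the ball of radius `i + 1` is explored. -/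
noncomputable def explored (E : Finset (Sym2 V)) (C : Finset V) : Finset (Sym2 V) :=
  E.filter fun e => ∃ v ∈ e, v ∈ C

/-- The balls up to radius `i + 1` only depend on the explored edges. -/
theorem layerBall_congr {S : Finset V} {a : V} {η η' : Finset (Sym2 V)}
    (i : ℕ) (hη : η ⊆ inE nb S) (hη' : η' ⊆ inE nb S)
    (h : η' ∩ explored (inE nb S) (layerBall (insert a S) a η i)
      = η ∩ explored (inE nb S) (layerBall (insert a S) a η i)) :
    ∀ j, j ≤ i + 1 → ∀ v, Within a j η' v ↔ Within a j η v := by
  classical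
  have hmem : ∀ {u u' : V}, Within a i η u → (s(u, u') ∈ η' ↔ s(u, u') ∈ η) := by
    intro u u' hu
    have hk : ∀ {ζ : Finset (Sym2 V)}, ζ ⊆ inE nb S → s(u, u') ∈ ζ →
        s(u, u') ∈ explored (inE nb S) (layerBall (insert a S) a η i) := fun hζ he =>
      mem_filter.2 ⟨hζ he, u, Sym2.mem_mk_left _ _, (mem_layerBall (nb := nb) hη).2 hu⟩
    constructor
    · intro he
      have h1 := mem_inter.2 ⟨he, hk hη' he⟩
      rw [h] at h1
      exact (mem_inter.1 h1).1
    · intro he
      have h1 := mem_inter.2 ⟨he, hk hη he⟩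
      rw [← h] at h1
      exact (mem_inter.1 h1).1
  intro j
  induction j with
  | zero =>
    intro _ v
    constructor <;> rintro ⟨w, hw⟩ <;>
      (cases w with
        | nil => exact ⟨.nil, le_rfl⟩
        | cons => simp at hw)
  | succ j ih =>
    intro hj v
    have hmono : ∀ {u}, Within a j η u → Within a i η u :=
      fun ⟨w, hw⟩ => ⟨w, hw.trans (by omega)⟩
    constructor
    · rintro ⟨w, hw⟩
      rcases eq_or_lt_of_le hw with heq | hlt
      swap
      · obtain ⟨w', hw'⟩ := (ih (by omega) v).1 ⟨w, by omega⟩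
        exact ⟨w', by omega⟩
      have hnil : ¬ w.Nil := fun hn => by
        have := SimpleGraph.Walk.length_eq_zero_iff.2 hn; omega
      obtain ⟨u, q, hadj, rfl⟩ : ∃ u, ∃ q : (SimpleGraph.fromEdgeSet (η' : Set (Sym2 V))).Walk a u,
          ∃ hadj : (SimpleGraph.fromEdgeSet (η' : Set (Sym2 V))).Adj u v, w = q.concat hadj :=
        ⟨_, w.dropLast, w.adj_penultimate hnil, (w.concat_dropLast _).symm⟩
      rw [SimpleGraph.Walk.length_concat] at heq
      have hu := (ih (by omega) u).1 ⟨q, by omega⟩
      obtain ⟨he, hne⟩ := (SimpleGraph.fromEdgeSet_adj _).1 hadj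
      exact within_step hu ((SimpleGraph.fromEdgeSet_adj _).2
        ⟨mem_coe.2 ((hmem (hmono hu)).1 (mem_coe.1 he)), hne⟩)
    · rintro ⟨w, hw⟩
      rcases eq_or_lt_of_le hw with heq | hlt
      swap
      · obtain ⟨w', hw'⟩ := (ih (by omega) v).2 ⟨w, by omega⟩
        exact ⟨w', by omega⟩
      have hnil : ¬ w.Nil := fun hn => by
        have := SimpleGraph.Walk.length_eq_zero_iff.2 hn; omega
      obtain ⟨u, q, hadj, rfl⟩ : ∃ u, ∃ q : (SimpleGraph.fromEdgeSet (η : Set (Sym2 V))).Walk a u,
          ∃ hadj : (SimpleGraph.fromEdgeSet (η : Set (Sym2 V))).Adj u v, w = q.concat hadj :=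
        ⟨_, w.dropLast, w.adj_penultimate hnil, (w.concat_dropLast _).symm⟩
      rw [SimpleGraph.Walk.length_concat] at heq
      have hu' : Within a j η u := ⟨q, by omega⟩
      obtain ⟨he, hne⟩ := (SimpleGraph.fromEdgeSet_adj _).1 hadj
      exact within_step ((ih (by omega) u).2 hu') ((SimpleGraph.fromEdgeSet_adj _).2
        ⟨mem_coe.2 ((hmem (hmono hu')).2 (mem_coe.1 he)), hne⟩)

/-- The linear inequality: `n` connections are short ones, plus short ones followed by any. -/
theorem tauIn_layers (S : Finset V) (x o : V) {p : ℝ} (h0 : 0 ≤ p)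
    (h1 : p ≤ 1) (n : ℕ) :
    (n : ℝ) * tauIn nb S p x o ≤ (n : ℝ) * avg (inE nb S) p (fun η => ind (Within x n η o))
      + ∑ u ∈ insert x S,
          avg (inE nb S) p (fun η => ind (Within x n η u)) * tauIn nb S p u o := by
  classical
  set E := inE nb S
  set B := insert x S
  set layer : Finset (Sym2 V) → V → ℕ → Prop := fun η u i =>
    u ∈ layerBall B x η (i + 1) ∧ u ∉ layerBall B x η i with hlayer
  have hone : ∀ i ∈ range n, tauIn nb S p x o ≤ avg E p (fun η => ind (Within x n η o)) +
      ∑ u ∈ B, avg E p (fun η => ind (layer η u i)) * tauIn nb S p u o := by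
    intro i hi
    rw [mem_range] at hi
    set κ : Finset (Sym2 V) → Finset V × Finset V := fun η =>
      (layerBall B x η i, layerBall B x η (i + 1)) with hκ
    set Ks : Finset V × Finset V → Finset (Sym2 V) := fun c => explored E c.1
    have hsplit : ∀ η, η ⊆ E → ind (cl η x o) ≤ ind (Within x n η o) +
        ∑ u ∈ B, ind (layer η u i) * ind (cl (η \ Ks (κ η)) u o) := by
      intro η hη
      have hnn : 0 ≤ ∑ u ∈ B, ind (layer η u i) * ind (cl (η \ Ks (κ η)) u o) :=
        sum_nonneg fun u _ => mul_nonneg (ind_nonneg _) (ind_nonneg _)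
      by_cases hc : cl η x o
      swap
      · rw [show ind (cl η x o) = 0 from if_neg hc]
        exact add_nonneg (ind_nonneg _) hnn
      rw [show ind (cl η x o) = 1 from if_pos hc]
      by_cases hn : Within x n η o
      · rw [show ind (Within x n η o) = 1 from if_pos hn]
        linarith
      obtain ⟨w⟩ := hc
      obtain ⟨u, z, hadj, hu, hz, σ, hσ⟩ := FP.last_leave (fun v => Within x (i + 1) η v) w
        ⟨x, w.start_mem_support, .nil, Nat.zero_le _⟩
        fun ⟨q, hq⟩ => hn ⟨q, hq.trans (by omega)⟩
      have hu' : ¬ Within x i η u := fun h => hz (within_step h hadj)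
      have hlay : layer η u i :=
        ⟨(mem_layerBall (nb := nb) hη).2 hu, fun h => hu' ((mem_layerBall (nb := nb) hη).1 h)⟩
      have hfree : ∀ e ∈ (SimpleGraph.Walk.cons hadj σ).edges, e ∈ η \ Ks (κ η) := by
        intro e he
        refine mem_sdiff.2 ⟨mem_coe.1 ?_, fun hk => ?_⟩
        · have := SimpleGraph.Walk.edges_subset_edgeSet _ he
          rw [SimpleGraph.edgeSet_fromEdgeSet] at this
          exact this.1
        obtain ⟨-, v, hve, hv⟩ := mem_filter.1 hk
        have hv' := (mem_layerBall (nb := nb) hη).1 hv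
        have hvs := SimpleGraph.Walk.mem_support_of_mem_edges he hve
        rw [SimpleGraph.Walk.support_cons, List.mem_cons] at hvs
        rcases hvs with rfl | hvs
        · exact hu' hv'
        · exact hσ v hvs (hv'.elim fun q hq => ⟨q, hq.trans (Nat.le_succ i)⟩)
      refine le_trans ?_ (le_add_of_nonneg_left (ind_nonneg _))
      refine le_trans ?_ (single_le_sum (f := fun u => ind (layer η u i) *
        ind (cl (η \ Ks (κ η)) u o)) (fun v _ => mul_nonneg (ind_nonneg _) (ind_nonneg _))
        (show u ∈ B from (mem_filter.1 hlay.1).1))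
      rw [show ind (layer η u i) = 1 from if_pos hlay,
        show ind (cl (η \ Ks (κ η)) u o) = 1 from if_pos (cl_of_walk _ hfree), mul_one]
    have hloc : ∀ η η', η ⊆ E → η' ⊆ E → η' ∩ Ks (κ η) = η ∩ Ks (κ η) → κ η' = κ η := by
      intro η η' hη hη' h
      have key := layerBall_congr (nb := nb) (a := x) i hη hη' h
      refine Prod.ext ?_ ?_
      · exact filter_congr fun v _ => key i (Nat.le_succ i) v
      · exact filter_congr fun v _ => key (i + 1) le_rfl v
    rw [tauIn_eq]
    refine (avg_mono E h0 h1 hsplit).trans ?_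
    rw [avg_add, avg_sum]
    refine add_le_add le_rfl (sum_le_sum fun u _ => ?_)
    have hres := FXZ.resample E p κ Ks (fun η _ => filter_subset _ _) hloc
      (fun c => ind (u ∈ c.2 ∧ u ∉ c.1)) (fun η => ind (cl η u o))
    rw [tauIn_eq]
    refine le_trans (avg_mono E h0 h1 fun η hη => ?_) hres.le
    refine mul_le_mul_of_nonneg_left ?_ (ind_nonneg _)
    calc ind (cl (η \ Ks (κ η)) u o) = avg (Ks (κ η)) p (fun _ => ind (cl (η \ Ks (κ η)) u o)) := by
          have := avg_mul (Ks (κ η)) p (ind (cl (η \ Ks (κ η)) u o)) fun _ => (1 : ℝ)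
          simpa [avg_one] using this.symm
      _ ≤ _ := avg_mono _ h0 h1 fun ξ _ => ind_mono fun h => cl_mono subset_union_left h
  have hcount : ∀ u ∈ B, ∑ i ∈ range n, avg E p (fun η => ind (layer η u i)) ≤
      avg E p fun η => ind (Within x n η u) := by
    intro u _
    rw [← avg_sum]
    refine avg_mono E h0 h1 fun η hη => ?_
    by_cases hw : Within x n η u
    · rw [show ind (Within x n η u) = 1 from if_pos hw]
      simp only [ind, sum_boole]
      refine Nat.cast_le_one.2 (card_le_one.2 fun i hi j hj => ?_)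
      simp only [mem_filter] at hi hj
      obtain ⟨-, hi'⟩ := hi
      obtain ⟨-, hj'⟩ := hj
      have hmono : ∀ {a b}, a ≤ b → u ∈ layerBall B x η a → u ∈ layerBall B x η b :=
        fun hab h => mem_filter.2 ⟨(mem_filter.1 h).1,
          (mem_filter.1 h).2.elim fun q hq => ⟨q, hq.trans hab⟩⟩
      by_contra hne
      rcases lt_or_gt_of_ne hne with h | h
      · exact hj'.2 (hmono h hi'.1)
      · exact hi'.2 (hmono h hj'.1)
    · rw [show ind (Within x n η u) = 0 from if_neg hw]
      refine le_of_eq (sum_eq_zero fun i hi => if_neg fun h => hw ?_)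
      exact (mem_filter.1 h.1).2.elim fun q hq =>
        ⟨q, hq.trans (Nat.succ_le_of_lt (mem_range.1 hi))⟩
  calc (n : ℝ) * tauIn nb S p x o = ∑ _i ∈ range n, tauIn nb S p x o := by simp
    _ ≤ ∑ i ∈ range n, (avg E p (fun η => ind (Within x n η o)) +
          ∑ u ∈ B, avg E p (fun η => ind (layer η u i)) * tauIn nb S p u o) :=
        sum_le_sum hone
    _ ≤ _ := by
        rw [sum_add_distrib, sum_const, card_range, nsmul_eq_mul, sum_comm]
        refine add_le_add le_rfl (sum_le_sum fun u hu => ?_)
        rw [← sum_mul]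
        exact mul_le_mul_of_nonneg_right (hcount u hu) (tauIn_nonneg S h0 h1 u o)

end Vale.Agent.P165.FQ
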