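import Vale.Agent.P165.FQ.Threshold
import Vale.Agent.P165.FQ.FreeImage
import Vale.Agent.P165.FP.EnvOf
import Vale.Agent.P165.FP.Walks
import Vale.Agent.P165.TL.Main

/-!
# Nonuniqueness for groups with a nonabelian free image, given the form bound

A small form of the short connections at the last subcritical parameter, for every setting, gives a
nonuniqueness phase to every group with a nonabelian image in a free group.
-/

namespace Vale.Agent.P165.FQ

open Finset FF

variable {Γ O ι α : Type} [Group Γ] [Fintype ι] [DecidableEq α] [Fintype α] [Fintype O]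
  [DecidableEq Γ] [DecidableEq O]

omit [DecidableEq Γ] [DecidableEq O] in
/-- The length balls hold the short walks. -/
theorem covers_cyl (E : FP.Base Γ O ι α) (n : ℕ) : Covers E.G (fun x => E.cyl x n) n := by
  intro x u w hw v hv
  classical
  refine E.mem_cyl.2 ((E.len_walk (w.takeUntil v hv)).trans ?_)
  exact (w.length_takeUntil_le_length hv).trans hw

omit [Fintype ι] [DecidableEq α] [Fintype α] [Fintype O] [DecidableEq Γ] [DecidableEq O] in
theorem tr_inv_mul (g : Γ) (x y : Γ × O) : (tr g x).1⁻¹ * (tr g y).1 = x.1⁻¹ * y.1 := by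
  simp [tr, mul_assoc]

theorem cyl_tr (E : FP.Base Γ O ι α) (n : ℕ) (g : Γ) (x : Γ × O) :
    (E.cyl x n).image (tr g) = E.cyl (tr g x) n := by
  ext y
  rw [mem_image, E.mem_cyl]
  constructor
  · rintro ⟨z, hz, rfl⟩
    rw [tr_inv_mul]
    exact E.mem_cyl.1 hz
  · intro h
    refine ⟨tr g⁻¹ y, E.mem_cyl.2 ?_, by simp [tr]⟩
    simpa [tr, mul_assoc] using h

/-- The form bound for every setting gives a nonuniqueness phase for every free quotient. -/
theorem nonuniquePhase_of_small
    (hsmall : ∀ {Γ O ι α : Type} [Group Γ] [Fintype ι] [DecidableEq α] [Fintype α] [Fintype O]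
      [DecidableEq Γ] [DecidableEq O] (E : FP.Base Γ O ι α) (p : ℝ), Sub E.nb p →
        ∃ n, 1 ≤ n ∧ FormSmall E.nb (fun x => E.cyl x n) n p (1 / 4))
    {Γ α : Type} [Group Γ] [Fintype α] [DecidableEq α] (hr : 2 ≤ Fintype.card α)
    (π : Γ →* FreeGroup α) (hπ : Function.Surjective π) :
    SG.NonuniquePhase Γ := by
  classical
  have : Nonempty α := Fintype.card_pos_iff.1 (by omega)
  have : Infinite (FreeGroup α) := inferInstance
  have : Infinite Γ := Infinite.of_surjective _ hπ
  have key : ∀ (V : Type) (G : SimpleGraph V) (d : ℕ), G.Connected →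
      (∀ v, (G.neighborSet v).encard = d) → ∀ (Φ : Γ →* (G ≃g G)),
      (∀ g v, Φ g v = v → g = 1) → ∀ R : Finset V, (∀ v, ∃ g, Φ g v ∈ R) → pc G < pu G := by
    intro V G d hc hd Φ free R cover
    obtain ⟨O, hO, hO', G', hinv, ⟨φ⟩⟩ := exists_chart G Φ free R cover
    have hc' : G'.Connected := φ.connected_iff.1 hc
    have hd' : ∀ x, (G'.neighborSet x).encard = d := fun x => by
      obtain ⟨v, rfl⟩ := φ.surjective x
      rw [← hd v]
      exact (ENat.card_congr (φ.mapNeighborSet v)).symm
    obtain ⟨nb, hl⟩ := exists_labelling G' d hd'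
    have : Nonempty O := ⟨(hc'.nonempty.some).2⟩
    rw [pc_congr φ, pu_congr φ]
    obtain ⟨E, rfl, -, -⟩ := FP.exists_base hl hinv hc' hr π hπ
    refine pc_lt_pu_of_small E.hl E.hinv E.conn fun p hp => ?_
    obtain ⟨n, hn, hform⟩ := hsmall E p hp
    exact ⟨fun x => E.cyl x n, n, hn, covers_cyl E n, cyl_tr E n, hform⟩
  refine ⟨key, fun Δ _ s hfin hgen ψ hψ hidx => ?_⟩
  obtain ⟨hconn, d, hd⟩ := TL.connected_regular_mulCayley s hfin hgen
  obtain ⟨Φ, R, free, cover⟩ := exists_leftAction (SimpleGraph.mulCayley s)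
    (fun _ _ _ => SimpleGraph.mulCayley_adj_mul_iff_right) ψ hψ hidx
  exact key _ _ d hconn hd Φ free R cover

/-- The same for every group with a nonabelian image in a free group. -/
theorem nonuniquePhase_of_free_image
    (hsmall : ∀ {Γ O ι α : Type} [Group Γ] [Fintype ι] [DecidableEq α] [Fintype α] [Fintype O]
      [DecidableEq Γ] [DecidableEq O] (E : FP.Base Γ O ι α) (p : ℝ), Sub E.nb p →
        ∃ n, 1 ≤ n ∧ FormSmall E.nb (fun x => E.cyl x n) n p (1 / 4))
    {Γ X : Type} [Group Γ] (f : Γ →* FreeGroup X) (hf : ∃ g h, f g * f h ≠ f h * f g) :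
    SG.NonuniquePhase Γ := by
  obtain ⟨π, hπ⟩ := exists_surjection_free_two f hf
  exact nonuniquePhase_of_small hsmall (by simp) π hπ

end Vale.Agent.P165.FQ
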