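import Vale.Agent.P165.FQ.Own
import Vale.Agent.P165.FQ.Moment
import Vale.Agent.P165.FQ.Crit

/-!
# The expected number of short connections to the fibre of the start

Two insertions towards far targets and the transport by the kernel show that many points of the
fibre within `K` steps force more points within a logarithmically longer range.
-/

namespace Vale.Agent.P165.FP.Base

open Finset FF FreeGroup Vale.Agent.P165.FP Vale.Agent.P165.FQ

variable {Γ O ι α : Type} [Group Γ] [Fintype ι] [DecidableEq α] [Fintype α] [Fintype O]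
  [DecidableEq Γ] [DecidableEq O] (E : Base Γ O ι α) {p : ℝ}

open Classical in
theorem fibN_eq_card {S : Finset (Γ × O)} {η : Finset (Sym2 (Γ × O))} (hη : η ⊆ inE E.nb S)
    (k : ℕ) (a : Γ × O) :
    E.fibN k a η =
      (((E.cyl a k).filter fun y => E.pos y = E.pos a).filter (Within a k η)).card := by
  rw [fibN, ← Set.ncard_coe_finset]
  congr 1
  ext y
  simp only [coe_filter, mem_filter, Set.mem_ofPred_eq]
  refine ⟨fun ⟨h1, h2⟩ => ⟨⟨?_, h1⟩, h2⟩, fun ⟨⟨_, h1⟩, h2⟩ => ⟨h1, h2⟩⟩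
  obtain ⟨w, hw⟩ := h2
  exact E.window_mono a hw (E.walk_mem_cyl (E.edge_of_inE hη) w w.end_mem_support)

/-- The chance of at least `L` points over the start within `k` open steps. -/
noncomputable def fibP (p : ℝ) (k L : ℕ) (a : Γ × O) : ℝ :=
  avg (inE E.nb (E.cyl a k)) p fun η => ind (L ≤ E.fibN k a η)

theorem fibP_nonneg (h0 : 0 ≤ p) (h1 : p ≤ 1) (k L : ℕ) (a : Γ × O) : 0 ≤ E.fibP p k L a :=
  avg_nonneg _ h0 h1 fun _ _ => ind_nonneg _

theorem avg_fibN {S : Finset (Γ × O)} {k : ℕ} {a : Γ × O} (hS : E.cyl a k ⊆ S) (p : ℝ)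
    (f : ℕ → ℝ) : avg (inE E.nb S) p (fun η => f (E.fibN k a η)) =
      avg (inE E.nb (E.cyl a k)) p (fun η => f (E.fibN k a η)) := by
  rw [← avg_restrict (inE_mono E.hl hS) p fun η => f (E.fibN k a η)]
  exact avg_congr _ _ fun η hη => congrArg f (E.fibN_inter hη Subset.rfl).symm

theorem fibP_mono_K (h0 : 0 ≤ p) (h1 : p ≤ 1) {k k' : ℕ} (h : k ≤ k') (L : ℕ) (a : Γ × O) :
    E.fibP p k L a ≤ E.fibP p k' L a := by
  rw [fibP, ← E.avg_fibN (E.window_mono a h) p fun n => ind (L ≤ n)]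
  refine avg_mono _ h0 h1 fun η hη => ind_mono fun hL => hL.trans ?_
  rw [E.fibN_eq_card (S := E.cyl a k') hη k' a, E.fibN_eq_card (S := E.cyl a k') hη k a]
  classical
  refine card_le_card fun y hy => ?_
  simp only [mem_filter] at hy ⊢
  exact ⟨⟨E.window_mono a h hy.1.1, hy.1.2⟩,
    within_mono h Subset.rfl hy.2⟩

variable {ps δ : ℝ}

/-- Many points over the start force more points within a slightly longer range. -/
theorem exists_fib_step (D : E.Data ps δ) :
    ∃ C₁ : ℝ, 0 ≤ C₁ ∧ ∀ p, D.p₁ ≤ p → p ≤ ps → ∀ (a : Γ × O) (k L Λ : ℕ), 1 ≤ L →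
      E.fibP p k L a ≤ C₁ * (L : ℝ) ^ (4 * δ) *
        (E.fibP p (2 * (k + 2 * (D.C * (Nat.log 2 L + 1)))) Λ a
          + Λ * (L : ℝ) ^ (3 * δ - 2)) := by
  classical
  have hps : 0 < ps := D.p₁_pos.trans D.p₁_lt
  have hθ' : 0 < D.θ' := D.θ_pos.trans_le D.θ_le
  have hδθ : 0 < δ * D.θ' := mul_pos D.δ_pos hθ'
  obtain ⟨Cp, hCp, hpair⟩ :=
    E.exists_pairN hps D.ps_le (θ := D.θ) D.κ_pos hθ' D.θ'_le D.bound
  set cB : ℝ := D.C * (1 / (δ * D.θ' * Real.log 2) + 1) + 1
  set cl' : ℝ := 1 + 1 / D.p₁ * (D.C * (1 / (δ * Real.log 2) + 1))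
  have hl2 : (0 : ℝ) < Real.log 2 := Real.log_pos one_lt_two
  have hp₁ := D.p₁_pos
  have hκ := D.κ_pos
  have hcl0 : 0 ≤ cl' := by have := D.δ_pos; positivity
  have hcB0 : 0 ≤ cB := by positivity
  set Λ₀ : ℝ := (D.κ + D.M) * cl' / D.κ
  have hΛ₀ : 0 ≤ Λ₀ := by have := D.M_nonneg; positivity
  set G : ℝ := (((ballF (α := α) E.L).card * Fintype.card O : ℕ) : ℝ) with hGdef
  set Cb : ℝ := G * (Cp * cB) ^ (1 / D.θ') + 1
  have hG : 0 ≤ G := Nat.cast_nonneg _
  have hCb : 0 ≤ Cb := by positivity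
  refine ⟨Λ₀ ^ 2 * Cb, by positivity, fun p hp hpps a k L Λ hL => ?_⟩
  have h0 : 0 < p := D.p₁_pos.trans_le hp
  have h1 : p ≤ 1 := hpps.trans D.ps_le
  set l := D.C * (Nat.log 2 L + 1) with hldef
  have hLr : (1 : ℝ) ≤ L := by exact_mod_cast hL
  have hL0 : (0 : ℝ) < L := by linarith
  set x := E.pos a with hx
  obtain ⟨w, hw, w', hw', hB⟩ := hpair x l L hL (D.W L E.a₀) (D.W L (li E.a₀))
    (D.W_free L hL _) (fun v hv => ⟨(D.W_mem L hL _ v hv).1, (D.W_mem L hL _ v hv).2.1⟩)
    (fun v hv => D.W_mem L hL _ v hv) (D.W_card L hL _) (D.W_card L hL _)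
  set k2 := k + l + l with hk2
  set S := E.cyl a (4 * k2)
  set ES := inE E.nb S
  set Z := (E.cyl a k).filter fun y => E.pos y = x
  have hks : E.cyl a k ⊆ S := E.window_mono a (by omega)
  have hβ : ∀ m, ∀ v ∈ D.W L m, ∀ z ∈ Z,
      D.κ / L ≤ avg ES p (fun η => ind (HitN (E.above x v) l z η)) := by
    intro m v hv z hz
    have h2 := D.W_hit L hL m p hp h1 z v hv
    rw [(mem_filter.1 hz).2] at h2
    refine h2.trans (hitN_mono E.hl (fun y hy => ?_) Set.Subset.rfl le_rfl h0.le h1 z)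
    exact E.cyl_subset (mem_filter.1 hz).1 (show k + l ≤ 4 * k2 by omega)
      (E.mem_cyl.2 (E.mem_chainSet.1 hy).1)
  set Bl : ℝ := D.M * (L : ℝ) ^ δ / ((l : ℝ) + 1)
  have hBl : ∀ u, ∑ z ∈ Z, avg ES p (fun η => ind (Within u l η z)) ≤ Bl := by
    intro u
    rw [le_div_iff₀' (by positivity)]
    refine le_trans (mul_le_mul_of_nonneg_left ?_ (by positivity)) (D.vol_short L hL)
    exact (sum_le_sum fun z _ => E.tauW_le_tau h0.le h1 S l u z).trans
      ((E.sum_tau_le_vol h0.le h1 Z l u).trans (E.vol_mono_p h0.le hpps D.ps_le l))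
  have hBl0 : 0 ≤ Bl := by have := D.M_nonneg; positivity
  -- the factor of one insertion
  have hfac : ((L : ℝ) * (D.κ / L) + ((l : ℝ) + 1) * Bl) * (1 + (1 - p) / p * l)
      ≤ D.κ * (Λ₀ * (L : ℝ) ^ (2 * δ)) := by
    have hLδ : (1 : ℝ) ≤ (L : ℝ) ^ δ := Real.one_le_rpow hLr D.δ_pos.le
    have hp' : 0 ≤ (1 - p) / p := div_nonneg (by linarith) h0.le
    have hl : 1 + (1 - p) / p * (l : ℝ) ≤ cl' * (L : ℝ) ^ δ := by
      simp only [cl', add_mul, one_mul]
      refine add_le_add hLδ ?_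
      rw [mul_assoc]
      refine mul_le_mul ?_ (log_steps_le D.C hL D.δ_pos) (Nat.cast_nonneg l) (by positivity)
      exact div_le_div₀ zero_le_one (by linarith) hp₁ hp
    rw [mul_div_cancel₀ D.κ hL0.ne', mul_div_cancel₀ _ (show ((l : ℝ) + 1) ≠ 0 by positivity)]
    refine (mul_le_mul (show D.κ + D.M * (L : ℝ) ^ δ ≤ (D.κ + D.M) * (L : ℝ) ^ δ by nlinarith)
      hl (by positivity) (by have := D.M_nonneg; positivity)).trans (le_of_eq ?_)
    rw [show (2 * δ) = δ + δ by ring, Real.rpow_add hL0]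
    simp only [Λ₀]
    field_simp
  have hins : ∀ (m : α × Bool) (v : List (α × Bool)), v ∈ D.W L m → ∀ (K : ℕ)
      (A : Finset (Sym2 (Γ × O)) → Prop), Inc A →
      (∀ η η', η ⊆ ES → η' ⊆ ES → (∀ j, j ≤ K → ∀ y, Within a j η' y ↔ Within a j η y) →
        A η → A η') →
      (∀ η, η ⊆ ES → A η → L ≤ (Z.filter (Within a K η)).card) →
      avg ES p (fun η => ind (A η)) ≤ Λ₀ * (L : ℝ) ^ (2 * δ) *
        avg ES p (fun η => ind (A η ∧ HitN (E.above x v) (K + l) a η)) := by
    intro m v hv K A hInc hdet hm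
    have h := insertion_union (D := ES) Subset.rfl h0 h1 a (E.above x v) K l Z (β := D.κ / L)
      (by positivity) hBl0 (hβ m v hv) hBl A hInc
      (fun η η' hη hη' hag => hdet η η' hη hη' fun j hj y => by
        rw [← within_inter_self hη', ← within_inter_self hη]; exact hag j hj y)
      L fun η hη hA => by rw [inter_eq_left.2 hη]; exact hm η hη hA
    have h' := h.trans (mul_le_mul_of_nonneg_right hfac
      (avg_nonneg _ h0.le h1 fun _ _ => ind_nonneg _))
    rw [mul_div_cancel₀ D.κ hL0.ne', mul_assoc D.κ] at h'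
    exact le_of_mul_le_mul_left h' hκ
  set A : Finset (Sym2 (Γ × O)) → Prop := fun η => L ≤ (Z.filter (Within a k η)).card
  set T := E.above x w
  set K := E.above x w'
  have hA : Inc A := fun η η' h hA => hA.trans (card_le_card fun y hy =>
    mem_filter.2 ⟨(mem_filter.1 hy).1, within_mono le_rfl h (mem_filter.1 hy).2⟩)
  have hstep1 := hins _ w hw k A hA (fun η η' _ _ hag hA => hA.trans (card_le_card fun y hy =>
    mem_filter.2 ⟨(mem_filter.1 hy).1, (hag k le_rfl y).2 (mem_filter.1 hy).2⟩)) fun _ _ hA => hA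
  have hstep2 := hins _ w' hw' (k + l) (fun η => A η ∧ HitN T (k + l) a η)
    (fun η η' h hA' => ⟨hA η η' h hA'.1, inc_hitN T _ a η η' h hA'.2⟩)
    (fun η η' _ _ hag ⟨hA, t, ht, h⟩ => ⟨hA.trans (card_le_card fun y hy =>
      mem_filter.2 ⟨(mem_filter.1 hy).1, (hag k (by omega) y).2 (mem_filter.1 hy).2⟩),
      t, ht, (hag _ le_rfl t).2 h⟩)
    fun η _ hA' => hA'.1.trans (card_le_card fun y hy =>
      mem_filter.2 ⟨(mem_filter.1 hy).1, within_mono (by omega) Subset.rfl (mem_filter.1 hy).2⟩)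
  -- both targets are near: either many points further away, or the kernel transport
  have hboth : avg ES p (fun η => ind ((A η ∧ HitN T (k + l) a η) ∧ HitN K k2 a η))
      ≤ Cb * (E.fibP p (2 * k2) Λ a + Λ * (L : ℝ) ^ (3 * δ - 2)) := by
    set B : ℝ := (Cp * ((l : ℝ) + 1) / ((L : ℝ) ^ D.θ) ^ 2) ^ (1 / D.θ')
    have hB0 : 0 ≤ B := by positivity
    have hdis : ∀ y, y ∈ E.above x w → y ∉ E.above x w' := by
      intro y hy hy'
      obtain ⟨r, hr⟩ := hy
      obtain ⟨r', hr'⟩ := hy'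
      have e := congrArg List.head? (hr.trans hr'.symm)
      rw [List.head?_append, List.head?_append, (D.W_mem L hL _ w hw).2.1,
        (D.W_mem L hL _ w' hw').2.1, Option.some_or, Option.some_or, Option.some.injEq] at e
      exact li_ne E.a₀ e.symm
    have htr := E.transportN h0.le h1 (k := k2) (Λ := Λ) a hdis hB0 fun z₀ z hz hzn =>
      (hit_mono_p E.nb _ h0.le hpps D.ps_le z _).trans (hB _ z hz hzn)
    have hBb : B ≤ (Cp * cB) ^ (1 / D.θ') * (L : ℝ) ^ (3 * δ - 2) := by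
      have hl : (l : ℝ) + 1 ≤ cB * (L : ℝ) ^ (δ * D.θ') := by
        simp only [cB, add_mul, one_mul]
        exact add_le_add (log_steps_le D.C hL hδθ) (Real.one_le_rpow hLr hδθ.le)
      calc B ≤ (Cp * cB * ((L : ℝ) ^ (δ * D.θ') / ((L : ℝ) ^ D.θ) ^ 2)) ^ (1 / D.θ') := by
            refine Real.rpow_le_rpow (by positivity) ?_ (by positivity)
            rw [← mul_div_assoc, mul_assoc]
            exact div_le_div_of_nonneg_right (mul_le_mul_of_nonneg_left hl hCp) (by positivity)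
        _ ≤ _ := by
            rw [Real.mul_rpow (by positivity) (by positivity)]
            refine mul_le_mul_of_nonneg_left ?_ (by positivity)
            rw [← Real.rpow_natCast ((L : ℝ) ^ D.θ) 2, ← Real.rpow_mul hL0.le, ← Real.rpow_sub hL0,
              ← Real.rpow_mul hL0.le]
            refine Real.rpow_le_rpow_of_exponent_le hLr ?_
            rw [mul_one_div, div_le_iff₀ hθ']
            have := D.ratio
            push_cast
            linarith
    have e1 : avg ES p (fun η => ind (Λ ≤ E.fibN (2 * k2) a η)) = E.fibP p (2 * k2) Λ a :=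
      E.avg_fibN (E.window_mono a (by omega)) p fun n => ind (Λ ≤ n)
    calc avg ES p (fun η => ind ((A η ∧ HitN T (k + l) a η) ∧ HitN K k2 a η))
        ≤ avg ES p (fun η => ind (HitN T k2 a η ∧ HitN K k2 a η ∧ E.fibN (2 * k2) a η < Λ)
            + ind (Λ ≤ E.fibN (2 * k2) a η)) := by
          refine avg_mono _ h0.le h1 fun η _ => ?_
          by_cases h : (A η ∧ HitN T (k + l) a η) ∧ HitN K k2 a η
          swap
          · exact (le_of_eq (if_neg h)).trans (add_nonneg (ind_nonneg _) (ind_nonneg _))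
          obtain ⟨t, ht, hw⟩ := h.1.2
          have hT : HitN T k2 a η := ⟨t, ht, within_mono (by omega) Subset.rfl hw⟩
          refine (ind_le_one _).trans ?_
          by_cases hΛ : Λ ≤ E.fibN (2 * k2) a η
          · exact le_add_of_nonneg_left (ind_nonneg _) |>.trans' (if_pos hΛ).ge
          · exact le_add_of_nonneg_right (ind_nonneg _) |>.trans'
              (if_pos ⟨hT, h.2, Nat.lt_of_not_le hΛ⟩).ge
      _ ≤ G * ((Λ : ℝ) * B) + E.fibP p (2 * k2) Λ a := by
          rw [avg_add, e1]; exact add_le_add htr le_rfl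
      _ ≤ _ := by
          have h2 := mul_le_mul_of_nonneg_left
            (mul_le_mul_of_nonneg_left hBb (Nat.cast_nonneg (α := ℝ) Λ)) hG
          have h3 := E.fibP_nonneg h0.le h1 (2 * k2) Λ a
          have h4 : (0 : ℝ) ≤ Λ * (L : ℝ) ^ (3 * δ - 2) := by positivity
          simp only [Cb]
          nlinarith [mul_nonneg (mul_nonneg hG (Real.rpow_nonneg (mul_nonneg hCp hcB0) (1 / D.θ'))) h3]
  have hP : E.fibP p k L a = avg ES p (fun η => ind (A η)) := by
    rw [fibP, ← E.avg_fibN hks p fun n => ind (L ≤ n)]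
    exact avg_congr _ _ fun η hη => by simp only [A, Z, x, E.fibN_eq_card hη k a]
  rw [hP, show k + 2 * l = k2 by omega]
  refine hstep1.trans ((mul_le_mul_of_nonneg_left
    (hstep2.trans (mul_le_mul_of_nonneg_left hboth (by positivity))) (by positivity)).trans
      (le_of_eq ?_))
  rw [show (4 * δ) = 2 * δ + 2 * δ by ring, Real.rpow_add hL0]
  ring

/-- One step for the mass over the start. -/
theorem exists_own_step (D : E.Data ps δ) (hδ : δ ≤ 1 / 16) :
    ∃ (C : ℝ) (c : ℕ), 0 ≤ C ∧ ∀ p, D.p₁ ≤ p → p ≤ ps → ∀ K K' Q : ℕ, 1 ≤ Q →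
      c * (K + 1 + Nat.log 2 ⌈E.vol p K⌉₊) ≤ K' →
      E.own p K ≤ C * Q * E.vol p K ^ (24 * δ) + C * E.vol p K ^ (12 * δ) * E.own p K' / Q := by
  classical
  obtain ⟨C₁, hC₁, hstep⟩ := E.exists_fib_step D
  set G : ℝ := (Fintype.card O : ℝ) with hGdef
  refine ⟨8 * C₁ + G * (8 * C₁ * (1 + 1 / δ) + 1), 12 * D.C + 2,
    by have := D.δ_pos; positivity, fun p hp hpps K K' Q hQ hK' => ?_⟩
  have hδ0 := D.δ_pos
  have h0 : 0 < p := D.p₁_pos.trans_le hp
  have h1 : p ≤ 1 := hpps.trans D.ps_le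
  set X := E.vol p K with hX
  set X' := E.own p K'
  have hX1 : 1 ≤ X := E.one_le_vol h0.le h1 K
  have hX' : 0 ≤ X' := E.own_nonneg h0.le h1 K'
  set V := ⌈X⌉₊
  set N := V ^ 3
  have hV1 : 1 ≤ V := Nat.one_le_iff_ne_zero.2 (Nat.pos_iff_ne_zero.1 (Nat.ceil_pos.2 (by linarith)))
  have hN : 1 ≤ N := Nat.one_le_pow _ _ hV1
  have hN0 : (0 : ℝ) < N := by exact_mod_cast hN
  have hNle : (N : ℝ) ≤ 8 * X ^ 3 := by
    have hV : (V : ℝ) ≤ 2 * X := by have := Nat.ceil_lt_add_one (show 0 ≤ X by linarith); linarith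
    calc (N : ℝ) = (V : ℝ) ^ 3 := by simp [N]
      _ ≤ (2 * X) ^ 3 := pow_le_pow_left₀ (Nat.cast_nonneg _) hV 3
      _ = _ := by ring
  have hNge : X ^ 3 ≤ (N : ℝ) := by
    simp only [N, Nat.cast_pow]
    exact pow_le_pow_left₀ (by linarith) (Nat.le_ceil X) 3
  have hlog : Nat.log 2 N ≤ 3 * Nat.log 2 V + 2 := by
    refine Nat.lt_succ_iff.1 (Nat.log_lt_of_lt_pow (by omega) ?_)
    calc N < (2 ^ (Nat.log 2 V + 1)) ^ 3 :=
          Nat.pow_lt_pow_left (Nat.lt_pow_succ_log_self one_lt_two V) (by norm_num)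
      _ = _ := by rw [← pow_mul]; congr 1; omega
  -- one start
  have hone : ∀ o : O, ∑ y ∈ (E.cyl ((1 : Γ), o) K).filter (fun y => E.pos y = 1),
      E.tau p K ((1 : Γ), o) y ≤ (C₁ * (Q * ((1 + 1 / δ) * (N : ℝ) ^ (8 * δ))) + 1) +
        C₁ * (N : ℝ) ^ (4 * δ) / Q *
          ∑ y ∈ (E.cyl ((1 : Γ), o) K').filter (fun y => E.pos y = 1),
            E.tau p K' ((1 : Γ), o) y := by
    intro o
    set a : Γ × O := ((1 : Γ), o)
    have ha : E.pos a = 1 := map_one _
    have hmean : ∀ k, ∑ y ∈ (E.cyl a k).filter (fun y => E.pos y = 1), E.tau p k a y =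
        avg (inE E.nb (E.cyl a k)) p (fun η => (E.fibN k a η : ℝ)) := by
      intro k
      simp only [Base.tau, tauW]
      rw [← avg_sum]
      refine avg_congr _ _ fun η hη => ?_
      rw [E.fibN_eq_card hη k a, ha]
      simp only [ind, sum_boole]
    rw [hmean, hmean]
    have hKK' : K ≤ K' := le_trans (by nlinarith) hK'
    -- the higher levels at the longer range
    have hQsum : ∑ j ∈ range N, E.fibP p K' (Q * (j + 1)) a
        ≤ avg (inE E.nb (E.cyl a K')) p (fun η => (E.fibN K' a η : ℝ)) / Q := by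
      simp only [fibP]
      rw [← avg_sum, le_div_iff₀ (by exact_mod_cast hQ), mul_comm, ← avg_mul]
      refine avg_mono _ h0.le h1 fun η _ => ?_
      set n := E.fibN K' a η
      calc (Q : ℝ) * ∑ j ∈ range N, ind (Q * (j + 1) ≤ n)
          = (Q : ℝ) * ((range N).filter fun j => Q * (j + 1) ≤ n).card := by
            rw [natCast_card_filter]
            exact congrArg _ (sum_congr rfl fun j _ => by unfold ind; split_ifs <;> rfl)
        _ ≤ (Q : ℝ) * (n / Q : ℕ) := by
            refine mul_le_mul_of_nonneg_left (Nat.cast_le.2 ?_) (Nat.cast_nonneg _)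
            refine (card_le_card fun j hj => mem_range.2 ?_).trans (card_range _).le
            exact (Nat.le_div_iff_mul_le hQ).2 (by rw [mul_comm]; exact (mem_filter.1 hj).2)
        _ ≤ _ := by
            rw [← Nat.cast_mul]
            exact Nat.cast_le.2 (Nat.mul_div_le n Q)
    have hlev : ∀ j ∈ range N, E.fibP p K (j + 1) a ≤ C₁ * (N : ℝ) ^ (4 * δ) *
        E.fibP p K' (Q * (j + 1)) a + C₁ * (Q * ((j : ℝ) + 1) ^ (7 * δ - 1)) := by
      intro j hj
      have hj1 : (0 : ℝ) < (j : ℝ) + 1 := by positivity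
      have hjN : (j : ℝ) + 1 ≤ N := by exact_mod_cast mem_range.1 hj
      refine (hstep p hp hpps a K (j + 1) (Q * (j + 1)) (Nat.succ_pos j)).trans ?_
      have hrange : 2 * (K + 2 * (D.C * (Nat.log 2 (j + 1) + 1))) ≤ K' := by
        refine le_trans ?_ hK'
        have h2 : Nat.log 2 (j + 1) ≤ 3 * Nat.log 2 V + 2 :=
          (Nat.log_mono_right (mem_range.1 hj)).trans hlog
        have h3 := Nat.mul_le_mul_left D.C (Nat.add_le_add_right h2 1)
        nlinarith [Nat.zero_le (D.C * K)]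
      have h4 := E.fibP_mono_K h0.le h1 hrange (Q * (j + 1)) a
      have h5 := E.fibP_nonneg h0.le h1 K' (Q * (j + 1)) a
      push_cast
      rw [mul_add]
      refine add_le_add (mul_le_mul (mul_le_mul_of_nonneg_left
        (Real.rpow_le_rpow hj1.le hjN (by linarith)) hC₁) h4
          (E.fibP_nonneg h0.le h1 _ _ _) (by positivity)) (le_of_eq ?_)
      rw [show 7 * δ - 1 = 4 * δ + (1 + (3 * δ - 2)) by ring, Real.rpow_add hj1,
        Real.rpow_add hj1, Real.rpow_one]
      ring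
    calc avg (inE E.nb (E.cyl a K)) p (fun η => (E.fibN K a η : ℝ))
        ≤ avg (inE E.nb (E.cyl a K)) p (fun η =>
            (∑ j ∈ range N, ind (j + 1 ≤ E.fibN K a η)) + (E.fibN K a η : ℝ) ^ 2 / N) :=
          avg_mono _ h0.le h1 fun η _ => count_le_levels _ N hN
      _ = (∑ j ∈ range N, E.fibP p K (j + 1) a) + avg (inE E.nb (E.cyl a K)) p
            (fun η => (E.fibN K a η : ℝ) ^ 2) / N := by
          rw [avg_add, avg_sum]
          congr 1
          simp only [div_eq_inv_mul, avg_mul]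
      _ ≤ (C₁ * (N : ℝ) ^ (4 * δ) *
            (avg (inE E.nb (E.cyl a K')) p (fun η => (E.fibN K' a η : ℝ)) / Q)
            + C₁ * (Q * ((1 + 1 / δ) * (N : ℝ) ^ (8 * δ)))) + 1 := by
          refine add_le_add ((sum_le_sum hlev).trans ?_) ?_
          · rw [sum_add_distrib, ← mul_sum, ← mul_sum, ← mul_sum]
            refine add_le_add (mul_le_mul_of_nonneg_left hQsum (by positivity))
              (mul_le_mul_of_nonneg_left (mul_le_mul_of_nonneg_left ?_ (Nat.cast_nonneg _)) hC₁)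
            have h := sum_rpow_add_le N hN (η := 7 * δ) (by linarith) hδ0
            rwa [show 7 * δ + δ = 8 * δ by ring] at h
          · rw [div_le_one hN0]
            refine le_trans (le_of_eq_of_le (avg_congr _ _ fun η hη => ?_)
              (E.moment_le h0.le h1 (E.cyl a K) ((E.cyl a K).filter fun y => E.pos y = E.pos a) a K))
              hNge
            rw [E.fibN_eq_card hη K a]
      _ = _ := by ring
  -- all starts, and the number of levels is a power of the volume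
  have hpow : ∀ b : ℝ, 0 ≤ b → b ≤ 1 → (N : ℝ) ^ b ≤ 8 * X ^ (3 * b) := fun b hb hb1 => by
    refine (Real.rpow_le_rpow hN0.le hNle hb).trans ?_
    rw [Real.mul_rpow (by norm_num) (by positivity), ← Real.rpow_natCast X 3,
      ← Real.rpow_mul (by linarith)]
    push_cast
    refine mul_le_mul_of_nonneg_right ?_ (by positivity)
    calc (8 : ℝ) ^ b ≤ (8 : ℝ) ^ (1 : ℝ) := Real.rpow_le_rpow_of_exponent_le (by norm_num) hb1
      _ = 8 := Real.rpow_one 8
  have h4 := hpow (4 * δ) (by linarith) (by linarith)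
  have h8 := hpow (8 * δ) (by linarith) (by linarith)
  rw [show 3 * (4 * δ) = 12 * δ by ring] at h4
  rw [show 3 * (8 * δ) = 24 * δ by ring] at h8
  have hX24 : 1 ≤ X ^ (24 * δ) := Real.one_le_rpow hX1 (by linarith)
  have hQr : (1 : ℝ) ≤ Q := by exact_mod_cast hQ
  set C : ℝ := 8 * C₁ + G * (8 * C₁ * (1 + 1 / δ) + 1)
  have hG : 0 ≤ G := Nat.cast_nonneg _
  refine (sum_le_sum fun o _ => hone o).trans ?_
  rw [sum_add_distrib, ← mul_sum, sum_const, nsmul_eq_mul, card_univ]
  refine add_le_add ?_ ?_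
  · calc G * (C₁ * (Q * ((1 + 1 / δ) * (N : ℝ) ^ (8 * δ))) + 1)
        ≤ G * (C₁ * (Q * ((1 + 1 / δ) * (8 * X ^ (24 * δ)))) + Q * X ^ (24 * δ)) := by
          refine mul_le_mul_of_nonneg_left (add_le_add ?_ (one_le_mul_of_one_le_of_one_le hQr hX24)) hG
          exact mul_le_mul_of_nonneg_left (mul_le_mul_of_nonneg_left
            (mul_le_mul_of_nonneg_left h8 (by positivity)) (Nat.cast_nonneg _)) hC₁
      _ = G * (8 * C₁ * (1 + 1 / δ) + 1) * Q * X ^ (24 * δ) := by ring
      _ ≤ _ := by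
          refine mul_le_mul_of_nonneg_right (mul_le_mul_of_nonneg_right ?_ (Nat.cast_nonneg _))
            (zero_le_one.trans hX24)
          exact le_add_of_nonneg_left (mul_nonneg (by norm_num) hC₁)
  · show C₁ * (N : ℝ) ^ (4 * δ) / Q * X' ≤ C * X ^ (12 * δ) * X' / Q
    rw [div_mul_eq_mul_div]
    refine div_le_div_of_nonneg_right (mul_le_mul_of_nonneg_right ?_ hX') (Nat.cast_nonneg _)
    refine (mul_le_mul_of_nonneg_left h4 hC₁).trans ?_
    rw [← mul_assoc, mul_comm C₁ 8]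
    refine mul_le_mul_of_nonneg_right ?_ (Real.rpow_nonneg (zero_le_one.trans hX1) _)
    exact le_add_of_nonneg_right (by positivity)

/-- The recursion of the own fibre, at every datum. -/
theorem ownStep (ps : ℝ) : E.OwnStep ps := fun _ hδ D => E.exists_own_step D hδ

end Vale.Agent.P165.FP.Base
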