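import Vale.Agent.P165.FQ.Crit
import Vale.Agent.P165.FQ.OwnStep

/-!
# Fibres at bounded offsets cost no more than the own one

A point over a bounded offset reaches a point over the start by a bounded walk, chosen equivariantly.
With the own step this gives the small form at the last subcritical parameter.
-/

namespace Vale.Agent.P165.FP.Base

open Finset FF FreeGroup Vale.Agent.P165.FP Vale.Agent.P165.FQ

variable {Γ O ι α : Type} [Group Γ] [Fintype ι] [DecidableEq α] [Fintype α] [Fintype O]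
  [DecidableEq Γ] [DecidableEq O] (E : Base Γ O ι α)

/-- The bound on fibres at bounded offsets. -/
theorem exists_offset {p₁ : ℝ} (hp₁ : 0 < p₁) (M : ℕ) :
    ∃ (C : ℝ) (k : ℕ), 0 ≤ C ∧ ∀ p, p₁ ≤ p → p ≤ 1 → E.OffsetLe p M C k := by
  classical
  set k := E.leg * (M + 1)
  set I := (univ : Finset O) ×ˢ ballF (α := α) M
  have hstep : ∀ i ∈ I, ∃ γ : Γ, E.π γ = i.2⁻¹ ∧
      ∃ W : E.G.Walk ((1 : Γ), i.1) (γ, E.o₁), W.length ≤ k := by
    intro i hi
    obtain ⟨γ, hγ, W, hW, -⟩ := E.exists_path i.2⁻¹.toWord ((1 : Γ), i.1)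
    refine ⟨γ, ?_, W, hW.trans (Nat.mul_le_mul le_rfl ?_)⟩
    · rw [hγ, show E.pos ((1 : Γ), i.1) = 1 from map_one _, one_mul, mk_toWord]
    · have h := mem_ballF_iff.1 (mem_product.1 hi).2
      rw [← norm_inv_eq] at h
      exact Nat.succ_le_succ h
  choose! γ hγ W hW using hstep
  refine ⟨(I.card : ℝ) / p₁ ^ k, k, by positivity, fun p hp hp1 K a => ?_⟩
  have hp0 : 0 < p := hp₁.trans_le hp
  have hpk : 0 < p₁ ^ k := pow_pos hp₁ k
  set key : Γ × O → O × FreeGroup α := fun z => (z.2, (E.pos a)⁻¹ * E.pos z)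
  set F := (E.cyl a K).filter fun z => ((E.pos a)⁻¹ * E.pos z).norm ≤ M
  have hkey : ∀ z ∈ F, key z ∈ I := fun z hz =>
    mem_product.2 ⟨mem_univ _, mem_ballF (mem_filter.1 hz).2⟩
  rw [← sum_fiberwise_of_maps_to hkey, div_mul_eq_mul_div, mul_div_assoc, ← nsmul_eq_mul]
  refine sum_le_card_nsmul _ _ _ fun i hi => ?_
  rw [le_div_iff₀ hpk, sum_mul]
  have hmove : ∀ z ∈ F.filter (fun z => key z = i),
      E.tau p K a z * p₁ ^ k ≤ E.tau p (K + k) a (z.1 * γ i, E.o₁) := by
    intro z hz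
    obtain ⟨hzF, hzi⟩ := mem_filter.1 hz
    have e1 : (trIso E.hinv z.1).toHom ((1 : Γ), i.1) = z := by
      show tr z.1 ((1 : Γ), i.1) = z
      rw [← congrArg Prod.fst hzi]
      simp [tr, key]
    have e2 : (trIso E.hinv z.1).toHom (γ i, E.o₁) = (z.1 * γ i, E.o₁) := rfl
    set y : Γ × O := (z.1 * γ i, E.o₁) with hy
    set w : E.G.Walk y z := (((W i hi).map (trIso E.hinv z.1).toHom).copy e1 e2).reverse
    have hlen : w.length ≤ k := by
      simp only [w, SimpleGraph.Walk.length_reverse, SimpleGraph.Walk.length_copy]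
      exact (le_of_eq (SimpleGraph.Walk.length_map _ _)).trans (hW i hi)
    have hzK : z ∈ E.cyl a K := (mem_filter.1 hzF).1
    have hsup : ∀ v ∈ w.support, v ∈ E.cyl a (K + k) := fun v hv => by
      refine E.cyl_subset hzK le_rfl (E.covers_cyl k z y w.reverse (by simpa using hlen) v ?_)
      rw [SimpleGraph.Walk.support_reverse]
      exact List.mem_reverse.2 hv
    calc E.tau p K a z * p₁ ^ k ≤ tauW E.nb (E.cyl a (K + k)) p a z K * p ^ w.length := by
          refine mul_le_mul (tauW_mono E.hl (E.cyl_subset (E.self_mem_cyl a 0) (by omega)) le_rfl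
            hp0.le hp1 a z) ((pow_le_pow_left₀ hp₁.le hp k).trans
              (pow_le_pow_of_le_one hp0.le hp1 hlen)) hpk.le (tauW_nonneg _ hp0.le hp1 _ _ _)
      _ = p ^ w.length * hitN E.nb (E.cyl a (K + k)) p z {a} K := by
          rw [hitN_singleton, tauW_comm, mul_comm]
      _ ≤ hitN E.nb (E.cyl a (K + k)) p y {a} (w.length + K) :=
          hitN_move E.hl hp0.le hp1 w hsup {a} K
      _ ≤ E.tau p (K + k) a y := by
          rw [hitN_singleton, tauW_comm]
          exact tauW_mono E.hl Subset.rfl (by omega) hp0.le hp1 a y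
  refine (sum_le_sum hmove).trans ?_
  rw [← sum_image (g := fun z : Γ × O => (z.1 * γ i, E.o₁))
    (f := fun y => E.tau p (K + k) a y)]
  · refine E.sum_fibre_le_own hp0.le hp1 _ (K + k) a fun y hy => ?_
    obtain ⟨z, hz, rfl⟩ := mem_image.1 hy
    obtain ⟨-, hzi⟩ := mem_filter.1 hz
    show E.π (z.1 * γ i) = E.pos a
    rw [_root_.map_mul, hγ i hi, ← congrArg Prod.snd hzi]
    show E.pos z * ((E.pos a)⁻¹ * E.pos z)⁻¹ = E.pos a
    rw [mul_inv_rev, inv_inv, mul_inv_cancel_left]
  · intro z hz z' hz' e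
    refine Prod.ext (mul_right_cancel (congrArg Prod.fst e)) ?_
    exact (congrArg Prod.fst (mem_filter.1 (mem_coe.1 hz)).2).trans
      (congrArg Prod.fst (mem_filter.1 (mem_coe.1 hz')).2).symm

theorem offsetBound : E.OffsetBound := fun _ hp₁ M => E.exists_offset hp₁ M

/-- At the last subcritical parameter some length gives a small form of short connections. -/
theorem exists_formSmall {ps : ℝ} (hs : Sub E.nb ps) :
    ∃ n, 1 ≤ n ∧ FormSmall E.nb (fun x => E.cyl x n) n ps (1 / 4) :=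
  E.exists_formSmall_of_step hs (E.ownStep ps) E.offsetBound

end Vale.Agent.P165.FP.Base
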