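import Vale.Agent.P165.FP.Chains
import Vale.Agent.P165.FP.Codes

/-!
# A cheap pair of targets

The code bound, seen from inside the second of two half spaces, makes some pair of targets cheap,
whatever the region and the gate.
-/

namespace Vale.Agent.P165.FQ

open Finset FF FreeGroup Vale.Agent.P165.FP

variable {α : Type} [DecidableEq α]

/-- An open event of the edges inside a smaller region. -/
theorem avg_restrict {β : Type} [DecidableEq β] {E F : Finset β} (hF : F ⊆ E) (p : ℝ)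
    (f : Finset β → ℝ) : avg E p (fun η => f (η ∩ F)) = avg F p f := by
  have h := avg_split hF p f fun _ => (1 : ℝ)
  simpa only [mul_one, avg_one] using h

theorem head_rel_end {P y : List (α × Bool)} {e : α × Bool} (hP : P.getLast? = some e)
    (h : ¬ P <+: y) : (rel P y).head? = some (li e) := by
  obtain ⟨h1, -, h3, -⟩ := lcp_spec P y
  have hlt : lcp P y < P.length := lt_of_le_of_ne h1 fun e => h (by
    rw [e, List.take_length] at h3
    exact h3 ▸ List.take_prefix _ _)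
  have hl : (P.drop (lcp P y)).getLast? = some e := by
    rw [List.getLast?_drop, if_neg (by omega), hP]
  rw [rel, List.head?_append, head_invRev, hl]
  rfl

end Vale.Agent.P165.FQ

namespace Vale.Agent.P165.FP.Base

open Finset FF FreeGroup Vale.Agent.P165.FP Vale.Agent.P165.FQ

variable {Γ O ι α : Type} [DecidableEq α] [Group Γ] [Fintype ι] [Fintype α] [Fintype O]
  [DecidableEq Γ] [DecidableEq O] (E : Base Γ O ι α) {p : ℝ}

open Classical in
/-- The region outside the half space of `w`, seen from `x`, with one extra point. -/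
noncomputable def outer (V : Finset (Γ × O)) (x : FreeGroup α) (w : List (α × Bool))
    (z : Γ × O) : Finset (Γ × O) :=
  V.filter fun y => y ∉ E.above x w ∨ y = z

/-- Among many pairs of targets some pair is cheap, seen from the tip of the second one. -/
theorem exists_cheapN (hp : 0 < p) (hp1 : p ≤ 1) {θ : ℝ} (hθ : 0 < θ) (hθ1 : θ ≤ 1)
    (hB : E.Bound p θ) :
    ∃ C : ℝ, 0 ≤ C ∧ ∀ (x : FreeGroup α) (V : Finset (Γ × O)) (e e' l : α × Bool) (n : ℕ)
      (W W' : Finset (List (α × Bool))), e ≠ e' → PrefixFree W →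
      (∀ w ∈ W, Red w ∧ w.head? = some e) →
      (∀ w ∈ W', Red w ∧ w.head? = some e' ∧ w.getLast? = some l ∧ w.length = n) →
      ∀ B : ℝ, 0 ≤ B → C < (W.card : ℝ) * W'.card * B ^ θ →
        ∃ w ∈ W, ∃ w' ∈ W', ∀ z ∈ V, ((x * mk w')⁻¹ * E.pos z).norm ≤ E.L →
          hit E.nb (E.outer V x w' z) p z (E.above x w) ≤ B := by
  classical
  have : Nonempty (Γ × O) := ⟨((1 : Γ), E.o₁)⟩
  obtain ⟨C, hC, hcode⟩ := E.code_hit hp hp1 hθ hθ1 hB (2 * E.L + 1)
  refine ⟨C, hC, fun x V e e' l n W W' hne hW hWm hW'm B hB0 hlt => ?_⟩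
  by_contra hall
  push Not at hall
  choose! zf hzV hzn hzB using hall
  set P : List (α × Bool) → List (α × Bool) := fun w' => w' ++ List.replicate (E.L + 1) l
  set word : List (α × Bool) × List (α × Bool) → List (α × Bool) := fun q => rel (P q.2) q.1
  have hP : ∀ w' ∈ W', Red (P w') ∧ (P w').getLast? = some l ∧ (P w').head? = some e' ∧
      (P w').length = n + (E.L + 1) := by
    intro w' hw'
    obtain ⟨h1, h2, h3, h4⟩ := hW'm w' hw'
    refine ⟨red_append.2 ⟨h1, red_replicate _ _, fun u hu v hv => ?_⟩, ?_, ?_, by simp [P, h4]⟩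
    · simp only [List.replicate_succ, List.head?_cons, Option.mem_def, Option.some.injEq] at hv
      rw [h3, Option.mem_def, Option.some.injEq] at hu
      subst hu hv
      exact (li_ne _).symm
    · simp [P, List.replicate_succ', ← List.append_assoc]
    · simp [P, List.head?_append, h2]
  have hzero : ∀ w' ∈ W', ∀ y : List (α × Bool), y.head? = some e →
      rel (P w') y = invRev (P w') ++ y := by
    intro w' hw' y hy
    rw [rel, lcp_zero _ _ fun u hu v hv h => hne (by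
      rw [(hP w' hw').2.2.1, Option.mem_def, Option.some.injEq] at hu
      rw [hy, Option.mem_def, Option.some.injEq] at hv
      rw [hv, hu, h]), List.drop_zero, List.drop_zero]
  have hinj : ∀ a ∈ W ×ˢ W', ∀ b ∈ W ×ˢ W', word a <+: word b → a = b := by
    rintro ⟨w, w'⟩ ha ⟨v, v'⟩ hb h
    rw [mem_product] at ha hb
    simp only [word, hzero w' ha.2 w (hWm w ha.1).2, hzero v' hb.2 v (hWm v hb.1).2] at h
    have hlen : (invRev (P w')).length = (invRev (P v')).length := by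
      rw [invRev_length, invRev_length, (hP w' ha.2).2.2.2, (hP v' hb.2).2.2.2]
    have hPe : invRev (P w') = invRev (P v') :=
      (List.prefix_of_prefix_length_le ((List.prefix_append _ w).trans h)
        (List.prefix_append _ v) hlen.le).eq_of_length hlen
    rw [hPe, List.prefix_append_right_inj] at h
    have hPe' := congrArg invRev hPe
    rw [invRev_invRev, invRev_invRev] at hPe'
    rw [hW w ha.1 v hb.1 h, List.append_cancel_right hPe']
  set inv := Function.invFunOn word ↑(W ×ˢ W')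
  have hinv : ∀ q ∈ W ×ˢ W', inv (word q) = q := fun q hq =>
    Set.InjOn.leftInvOn_invFunOn (fun a ha b hb h => hinj a ha b hb (by rw [h])) (mem_coe.2 hq)
  have key := (hcode (li l) ((W ×ˢ W').image word) ?_ ?_ (fun v => x * mk (P (inv v).2))
    (fun v => zf (inv v).1 (inv v).2) (fun v => E.outer V x (inv v).2 (zf (inv v).1 (inv v).2))
    ?_).1
  · rw [sum_image fun a ha b hb h => hinj a ha b hb (by rw [h])] at key
    refine absurd (le_trans ?_ key) (not_le.2 hlt)
    rw [← Nat.cast_mul, ← card_product, ← nsmul_eq_mul]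
    refine card_nsmul_le_sum _ _ _ fun q hq => ?_
    rw [hinv q hq]
    obtain ⟨hq1, hq2⟩ := mem_product.1 hq
    refine Real.rpow_le_rpow hB0 ((hzB _ hq1 _ hq2).le.trans
      (hit_mono E.hl Subset.rfl (fun y hy => ?_) hp.le hp1 _)) hθ.le
    change q.1 <+: (x⁻¹ * E.pos y).toWord at hy
    show word q <+: ((x * mk (P q.2))⁻¹ * E.pos y).toWord
    rw [mul_inv_rev, mul_assoc, toWord_inv_mul, toWord_mk' (hP _ hq2).1]
    obtain ⟨c, hc⟩ := hy
    have hhd : (x⁻¹ * E.pos y).toWord.head? = some e := by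
      rw [← hc, List.head?_append, (hWm _ hq1).2]; rfl
    simp only [word, hzero _ hq2 _ (hWm _ hq1).2, hzero _ hq2 _ hhd]
    exact (List.prefix_append_right_inj _).2 ⟨c, hc⟩
  · intro a ha b hb hab
    obtain ⟨a', ha', rfl⟩ := mem_image.1 ha
    obtain ⟨b', hb', rfl⟩ := mem_image.1 hb
    rw [hinj a' ha' b' hb' hab]
  · intro v hv
    obtain ⟨q, hq, rfl⟩ := mem_image.1 hv
    obtain ⟨hq1, hq2⟩ := mem_product.1 hq
    refine ⟨red_rel (hP _ hq2).1 (hWm _ hq1).1, head_rel_end (hP _ hq2).2.1 fun h => hne ?_⟩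
    obtain ⟨c, hc⟩ := h
    have h3 := (hWm _ hq1).2
    rw [← hc, List.head?_append, (hP _ hq2).2.2.1, Option.some_or, Option.some.injEq] at h3
    exact h3.symm
  · intro v hv
    obtain ⟨q, hq, rfl⟩ := mem_image.1 hv
    rw [hinv q hq]
    obtain ⟨hq1, hq2⟩ := mem_product.1 hq
    set z := zf q.1 q.2
    have hz : ((mk q.2)⁻¹ * (x⁻¹ * E.pos z)).norm ≤ E.L := by
      rw [← mul_assoc, ← mul_inv_rev]; exact hzn _ hq1 _ hq2
    have hout : ∀ y, ¬ P q.2 <+: (x⁻¹ * E.pos y).toWord → y ∈ E.above (x * mk (P q.2)) [li l] := by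
      intro y hy
      show [li l] <+: ((x * mk (P q.2))⁻¹ * E.pos y).toWord
      rw [mul_inv_rev, mul_assoc, toWord_inv_mul, toWord_mk' (hP _ hq2).1]
      obtain ⟨r, hr⟩ := List.head?_eq_some_iff.1 (head_rel_end (hP _ hq2).2.1 hy)
      rw [hr]
      exact List.cons_prefix_cons.2 ⟨rfl, List.nil_prefix⟩
    have hnear : ¬ P q.2 <+: (x⁻¹ * E.pos z).toWord := by
      intro h
      have h1 := h.length_le
      rw [(hP _ hq2).2.2.2] at h1
      have h2 := FreeGroup.norm_mul_le (mk q.2) ((mk q.2)⁻¹ * (x⁻¹ * E.pos z))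
      rw [mul_inv_cancel_left] at h2
      have h3 : (mk q.2).norm ≤ n := (hW'm _ hq2).2.2.2 ▸ FreeGroup.norm_mk_le
      simp only [FreeGroup.norm] at h1 h2 h3 hz
      omega
    refine ⟨fun y hy => ?_, hout z hnear, ?_⟩
    · rcases (mem_filter.1 hy).2 with h | h
      · exact hout y fun hc => h ((List.prefix_append _ _).trans hc)
      · exact h ▸ hout z hnear
    · rw [mul_inv_rev, mul_assoc, show mk (P q.2) = mk q.2 * mk (List.replicate (E.L + 1) l) from
        mul_mk.symm, mul_inv_rev, mul_assoc]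
      refine (FreeGroup.norm_mul_le _ _).trans ?_
      rw [FreeGroup.norm_inv_eq]
      have h4 : (mk (List.replicate (E.L + 1) l)).norm ≤ E.L + 1 :=
        FreeGroup.norm_mk_le.trans (le_of_eq List.length_replicate)
      omega

omit [Fintype O] in
/-- The most frequent length and last letter of the second targets. -/
theorem pick_pairN {θ θ' κ Cc : ℝ} {D m : ℕ} (hm : 1 ≤ m) (hκ : 0 < κ) (hCc : 0 ≤ Cc)
    (hθ' : 0 < θ') (x : FreeGroup α) (V : Finset (Γ × O)) {W W₂ : Finset (List (α × Bool))}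
    (hWpf : PrefixFree W) (hWm : ∀ w ∈ W, Red w ∧ w.head? = some E.a₀)
    (hW₂m : ∀ w ∈ W₂, Red w ∧ w.head? = some (li E.a₀) ∧ w.length ≤ D)
    (hWcard : κ * (m : ℝ) ^ θ ≤ W.card) (hW₂card : κ * (m : ℝ) ^ θ ≤ W₂.card)
    (hcheap : ∀ (x : FreeGroup α) (V : Finset (Γ × O)) (e e' l : α × Bool) (n : ℕ)
      (W W' : Finset (List (α × Bool))), e ≠ e' → PrefixFree W →
      (∀ w ∈ W, Red w ∧ w.head? = some e) →
      (∀ w ∈ W', Red w ∧ w.head? = some e' ∧ w.getLast? = some l ∧ w.length = n) →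
      ∀ B : ℝ, 0 ≤ B → Cc < (W.card : ℝ) * W'.card * B ^ θ' →
        ∃ w ∈ W, ∃ w' ∈ W', ∀ z ∈ V, ((x * mk w')⁻¹ * E.pos z).norm ≤ E.L →
          hit E.nb (E.outer V x w' z) p z (E.above x w) ≤ B) :
    ∃ w ∈ W, ∃ w' ∈ W₂, ∀ z ∈ V, ((x * mk w')⁻¹ * E.pos z).norm ≤ E.L →
      hit E.nb (E.outer V x w' z) p z (E.above x w) ≤
        ((Cc + 1) * ((range (D + 1) ×ˢ (univ : Finset (α × Bool))).card : ℝ) / κ ^ 2 /
          ((m : ℝ) ^ θ) ^ 2) ^ (1 / θ') := by
  classical
  have hm1 : 1 ≤ m := hm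
  have hmθ : (0 : ℝ) < (m : ℝ) ^ θ := Real.rpow_pos_of_pos (by exact_mod_cast hm1) _
  set idx := range (D + 1) ×ˢ (univ : Finset (α × Bool))
  set key : List (α × Bool) → ℕ × (α × Bool) := fun w => (w.length, w.getLastD E.a₀)
  obtain ⟨⟨n, e₂⟩, hne, hclass⟩ : ∃ k ∈ idx, (W₂.card : ℝ) ≤
      (idx.card : ℝ) * (W₂.filter fun w => key w = k).card := by
    have hmaps : ∀ w ∈ W₂, key w ∈ idx := fun w hw => mem_product.2
      ⟨mem_range.2 (Nat.lt_succ_of_le ((hW₂m w hw).2.2)), mem_univ _⟩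
    obtain ⟨k, hk, hmax⟩ := exists_max_image idx (fun k => (W₂.filter fun w => key w = k).card)
      ⟨(0, E.a₀), mem_product.2 ⟨mem_range.2 (Nat.succ_pos _), mem_univ _⟩⟩
    refine ⟨k, hk, ?_⟩
    rw [← Nat.cast_mul, card_eq_sum_card_fiberwise hmaps]
    exact_mod_cast (sum_le_card_nsmul _ _ _ fun k' hk' => hmax k' hk').trans (le_of_eq (smul_eq_mul _ _))
  set W' := W₂.filter fun w => key w = (n, e₂)
  set Ncl : ℝ := (idx.card : ℝ)
  have hNcl : 0 < Ncl := Nat.cast_pos.2 (card_pos.2 ⟨(n, e₂), hne⟩)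
  set Bb : ℝ := (Cc + 1) * Ncl / κ ^ 2
  have hBb : 0 < Bb := by positivity
  set B : ℝ := (Bb / ((m : ℝ) ^ θ) ^ 2) ^ (1 / θ')
  obtain ⟨w, hw, w', hw', hwB⟩ := hcheap x V E.a₀ (li E.a₀) e₂ n W W' (li_ne _).symm hWpf
    hWm
    (fun w hw => by
      obtain ⟨hw2, hk⟩ := mem_filter.1 hw
      obtain ⟨h1, h2, -⟩ := hW₂m w hw2
      rw [Prod.mk.injEq] at hk
      refine ⟨h1, h2, ?_, hk.1⟩
      rw [E.getLastD_mem (fun e => by simp [e] at h2), hk.2])
    B (Real.rpow_nonneg (by positivity) _) (by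
      simp only [B]
      rw [← Real.rpow_mul (by positivity), one_div_mul_cancel hθ'.ne', Real.rpow_one]
      have h1 : κ * (m : ℝ) ^ θ * (κ * (m : ℝ) ^ θ / Ncl) ≤ (W.card : ℝ) * W'.card :=
        mul_le_mul hWcard ((div_le_iff₀ hNcl).2 (by rw [mul_comm _ Ncl]; exact hW₂card.trans hclass))
          (by positivity) (Nat.cast_nonneg _)
      refine lt_of_lt_of_le ?_ (mul_le_mul_of_nonneg_right h1 (by positivity))
      refine lt_of_lt_of_le (lt_add_one Cc) (le_of_eq ?_)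
      simp only [Bb]
      field_simp)
  exact ⟨w, hw, w', (mem_filter.1 hw').1, hwB⟩

/-- The cheap pair serves every region at once. -/
theorem exists_pairN (hp : 0 < p) (hp1 : p ≤ 1) {θ θ' κ : ℝ} (hκ : 0 < κ) (hθ' : 0 < θ')
    (hθ'1 : θ' ≤ 1) (hB : E.Bound p θ') :
    ∃ C : ℝ, 0 ≤ C ∧ ∀ (x : FreeGroup α) (D m : ℕ), 1 ≤ m →
      ∀ W W₂ : Finset (List (α × Bool)), PrefixFree W → (∀ w ∈ W, Red w ∧ w.head? = some E.a₀) →
      (∀ w ∈ W₂, Red w ∧ w.head? = some (li E.a₀) ∧ w.length ≤ D) →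
      κ * (m : ℝ) ^ θ ≤ W.card → κ * (m : ℝ) ^ θ ≤ W₂.card →
      ∃ w ∈ W, ∃ w' ∈ W₂, ∀ V z, z ∈ V → ((x * mk w')⁻¹ * E.pos z).norm ≤ E.L →
        hit E.nb (E.outer V x w' z) p z (E.above x w) ≤
          (C * ((D : ℝ) + 1) / ((m : ℝ) ^ θ) ^ 2) ^ (1 / θ') := by
  classical
  obtain ⟨Cc, hCc, hcheap⟩ := E.exists_cheapN hp hp1 hθ' hθ'1 hB
  set C : ℝ := (Cc + 1) * (Fintype.card (α × Bool) : ℝ) / κ ^ 2
  refine ⟨C, by positivity, fun x D m hm W W₂ hW hWm hW₂m hWc hW₂c => ?_⟩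
  by_contra hall
  push Not at hall
  choose! Vf zf hV hn hlt using hall
  set U := (W ×ˢ W₂).biUnion fun q => Vf q.1 q.2
  obtain ⟨w, hw, w', hw', h⟩ :=
    E.pick_pairN (θ := θ) hm hκ hCc hθ' x U hW hWm hW₂m hWc hW₂c hcheap
  have hsub : Vf w w' ⊆ U :=
    subset_biUnion_of_mem (fun q : List (α × Bool) × List (α × Bool) => Vf q.1 q.2)
      (mem_product.2 ⟨hw, hw'⟩ : (w, w') ∈ W ×ˢ W₂)
  refine absurd ?_ (not_le.2 (hlt w hw w' hw'))
  refine (hit_mono E.hl (filter_subset_filter _ hsub) Set.Subset.rfl hp.le hp1 _).trans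
    ((h _ (hsub (hV w hw w' hw')) (hn w hw w' hw')).trans (le_of_eq ?_))
  rw [card_product, card_range]
  simp only [C, Finset.card_univ]
  push_cast
  congr 2
  ring

end Vale.Agent.P165.FP.Base
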