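import Vale.Agent.P165.FQ.Basic
import Vale.Agent.P165.FQ.Pair
import Vale.Agent.P165.FQ.Tail

/-!
# Two far targets of one start: transport by the kernel

A start joined to two half spaces by short walks is sent to the last point of the walk in the second
one. Kernel translations keep both half spaces, so the starts sent to the translates of one such
point can be counted in one configuration: they are near each other and in one fibre.
-/

namespace Vale.Agent.P165.FQ

open Finset FF Vale.Agent.P165.FP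

variable {V ι : Type} [DecidableEq V] [Fintype ι] {nb : V → ι → V} {G : SimpleGraph V}

omit [DecidableEq V] [Fintype ι] in
theorem hitN_join {η : Finset (Sym2 V)} {T : Set V} {k k' : ℕ} {a b : V}
    (h : HitN {b} k a η) (h' : HitN T k' b η) : HitN T (k + k') a η := by
  obtain ⟨t, rfl, w, hw⟩ := h
  obtain ⟨s, hs, w', hw'⟩ := h'
  exact ⟨s, hs, w.append w', by rw [SimpleGraph.Walk.length_append]; omega⟩

omit [DecidableEq V] [Fintype ι] in
theorem hitN_symm {η : Finset (Sym2 V)} {k : ℕ} {a b : V} (h : HitN {b} k a η) :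
    HitN {a} k b η := by
  obtain ⟨t, rfl, w, hw⟩ := h
  exact ⟨a, rfl, w.reverse, by rw [SimpleGraph.Walk.length_reverse]; exact hw⟩

omit [DecidableEq V] [Fintype ι] in
theorem hitN_single {η : Finset (Sym2 V)} {k : ℕ} {a y : V} :
    HitN {y} k a η ↔ Within a k η y :=
  ⟨fun ⟨t, ht, h⟩ => (Set.mem_singleton_iff.1 ht) ▸ h, fun h => ⟨y, rfl, h⟩⟩

theorem hitN_map_iff (φ : G ≃g G) (η : Finset (Sym2 V)) (k : ℕ) (T : Set V) (a : V) :
    HitN T k (φ a) (η.image (Sym2.map φ)) ↔ HitN (φ ⁻¹' T) k a η := by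
  have hinj := Sym2.map.injective φ.injective
  let ψ : SimpleGraph.fromEdgeSet (η : Set (Sym2 V)) ≃g
      SimpleGraph.fromEdgeSet ((η.image (Sym2.map φ) : Finset _) : Set (Sym2 V)) :=
    { toEquiv := φ.toEquiv
      map_rel_iff' := fun {u v} => by
        show (SimpleGraph.fromEdgeSet _).Adj (φ u) (φ v) ↔ _
        rw [SimpleGraph.fromEdgeSet_adj, SimpleGraph.fromEdgeSet_adj, mem_coe, mem_coe,
          ← Sym2.map_mk, hinj.mem_finset_image, φ.injective.ne_iff] }
  constructor
  · rintro ⟨t, ht, w, hw⟩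
    obtain ⟨s, rfl⟩ := φ.surjective t
    exact ⟨s, ht, (w.map ψ.symm.toHom).copy (φ.symm_apply_apply a) (φ.symm_apply_apply s),
      (SimpleGraph.Walk.length_copy _ _ _).trans_le ((SimpleGraph.Walk.length_map _ _).trans_le hw)⟩
  · rintro ⟨s, hs, w, hw⟩
    exact ⟨φ s, hs, w.map ψ.toHom, (SimpleGraph.Walk.length_map _ _).trans_le hw⟩

theorem hit_map_iff (φ : G ≃g G) (η : Finset (Sym2 V)) (T : Set V) (a : V) :
    FXZ.Hit T (φ a) (η.image (Sym2.map φ)) ↔ FXZ.Hit (φ ⁻¹' T) a η := by
  constructor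
  · rintro ⟨t, ht, ⟨w⟩⟩
    obtain ⟨s, hs, w', -⟩ := (hitN_map_iff φ η w.length T a).1 ⟨t, ht, w, le_rfl⟩
    exact ⟨s, hs, w'.reachable⟩
  · rintro ⟨t, ht, ⟨w⟩⟩
    obtain ⟨s, hs, w', -⟩ := (hitN_map_iff φ η w.length T a).2 ⟨t, ht, w, le_rfl⟩
    exact ⟨s, hs, w'.reachable⟩

theorem inE_image (hl : Labelling G nb) (φ : G ≃g G) (S : Finset V) :
    inE nb (S.image φ) = (inE nb S).image (Sym2.map φ) := by
  ext e
  induction e using Sym2.ind with
  | _ u v =>
    obtain ⟨u, rfl⟩ := φ.surjective u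
    obtain ⟨v, rfl⟩ := φ.surjective v
    rw [← Sym2.map_mk, (Sym2.map.injective φ.injective).mem_finset_image, inE_iff hl, inE_iff hl]
    simp [φ.map_adj_iff, φ.injective.eq_iff]

omit [DecidableEq V] [Fintype ι] in
/-- Two short connections pass a last point of the second set, near the start. -/
theorem two_hits_gate {η : Finset (Sym2 V)} {T K : Set V} (hTK : ∀ t ∈ T, t ∉ K) {k : ℕ} {a : V}
    (hT : HitN T k a η) (hK : HitN K k a η) :
    ∃ y x, y ∈ K ∧ x ∉ K ∧ s(y, x) ∈ η ∧ y ≠ x ∧ HitN {y} k a η ∧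
      ∃ t ∈ T, ∃ σ : (SimpleGraph.fromEdgeSet (η : Set (Sym2 V))).Walk y t,
        σ.length ≤ 2 * k ∧ ∀ v ∈ σ.support, v = y ∨ v ∉ K := by
  classical
  have key : ∀ {u v : V} (π : (SimpleGraph.fromEdgeSet (η : Set (Sym2 V))).Walk u v),
      (∃ z ∈ π.support, z ∈ K) → v ∉ K →
      ∃ y x, y ∈ K ∧ x ∉ K ∧ (SimpleGraph.fromEdgeSet (η : Set (Sym2 V))).Adj y x ∧ y ∈ π.support ∧
        ∃ σ : (SimpleGraph.fromEdgeSet (η : Set (Sym2 V))).Walk y v,
          σ.length ≤ π.length ∧ ∀ z ∈ σ.support, z = y ∨ z ∉ K := by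
    intro u v π
    induction π with
    | nil =>
      rintro ⟨z, hz, hzK⟩ hv
      rw [SimpleGraph.Walk.support_nil, List.mem_singleton] at hz
      exact absurd (hz ▸ hzK) hv
    | @cons a b c h q ih =>
      rintro ⟨z, hz, hzK⟩ hc
      by_cases hq : ∃ z ∈ q.support, z ∈ K
      · obtain ⟨y, x, h1, h2, h3, h4, σ, h5, h6⟩ := ih hq hc
        exact ⟨y, x, h1, h2, h3, List.mem_cons_of_mem _ h4, σ, h5.trans (Nat.le_succ _), h6⟩
      · push Not at hq
        rw [SimpleGraph.Walk.support_cons, List.mem_cons] at hz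
        rcases hz with rfl | hz
        · refine ⟨z, b, hzK, hq b q.start_mem_support, h, List.mem_cons_self, .cons h q, le_rfl,
            fun w hw => ?_⟩
          rw [SimpleGraph.Walk.support_cons, List.mem_cons] at hw
          exact hw.imp id (hq w)
        · exact absurd hzK (hq z hz)
  obtain ⟨t, ht, w₁, hw₁⟩ := hT
  obtain ⟨t', ht', w₂, hw₂⟩ := hK
  obtain ⟨y, x, hy, hx, hyx, hyπ, σ, hσl, hσ⟩ :=
    key (w₂.reverse.append w₁) ⟨t', SimpleGraph.Walk.start_mem_support _, ht'⟩ (hTK t ht)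
  obtain ⟨he, hne⟩ := (SimpleGraph.fromEdgeSet_adj _).1 hyx
  refine ⟨y, x, hy, hx, mem_coe.1 he, hne, ?_, t, ht, σ, ?_, hσ⟩
  · rw [SimpleGraph.Walk.mem_support_append_iff, SimpleGraph.Walk.support_reverse,
      List.mem_reverse] at hyπ
    rcases hyπ with h | h
    · exact ⟨y, rfl, w₂.takeUntil y h, (w₂.length_takeUntil_le_length h).trans hw₂⟩
    · exact ⟨y, rfl, w₁.takeUntil y h, (w₁.length_takeUntil_le_length h).trans hw₁⟩
  · rw [SimpleGraph.Walk.length_append, SimpleGraph.Walk.length_reverse] at hσl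
    omega

end Vale.Agent.P165.FQ

namespace Vale.Agent.P165.FP.Base

open Finset FF FreeGroup Vale.Agent.P165.FP Vale.Agent.P165.FQ

variable {Γ O ι α : Type} [Group Γ] [Fintype ι] [DecidableEq α] [Fintype α] [Fintype O]
  [DecidableEq Γ] [DecidableEq O] (E : Base Γ O ι α) {p : ℝ}

omit [DecidableEq Γ] [DecidableEq O] in
theorem window_mono (a : Γ × O) {R R' : ℕ} (h : R ≤ R') : E.cyl a R ⊆ E.cyl a R' := fun _ hx =>
  E.mem_cyl.2 ((E.mem_cyl.1 hx).trans h)

omit [DecidableEq Γ] [DecidableEq O] in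
theorem window_comm {a x : Γ × O} {R : ℕ} : x ∈ E.cyl a R ↔ a ∈ E.cyl x R := by
  rw [E.mem_cyl, E.mem_cyl, E.len_comm]

/-- The number of points over the start within `k` open steps. -/
noncomputable def fibN (k : ℕ) (a : Γ × O) (η : Finset (Sym2 (Γ × O))) : ℕ :=
  {y | E.pos y = E.pos a ∧ Within a k η y}.ncard

omit [DecidableEq Γ] [DecidableEq O] in
/-- The walks with at most `k` edges of the graph stay in the ball. -/
theorem walk_mem_cyl {η : Finset (Sym2 (Γ × O))} (hη : ∀ e ∈ η, e ∈ E.G.edgeSet) {a y : Γ × O}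
    (w : (SimpleGraph.fromEdgeSet (η : Set (Sym2 (Γ × O)))).Walk a y) {v : Γ × O}
    (hv : v ∈ w.support) : v ∈ E.cyl a w.length := by
  have hle : SimpleGraph.fromEdgeSet (η : Set (Sym2 (Γ × O))) ≤ E.G := fun u u' h => by
    obtain ⟨he, -⟩ := (SimpleGraph.fromEdgeSet_adj _).1 h
    exact hη _ (mem_coe.1 he)
  classical
  refine E.mem_cyl.2 ((E.len_walk ((w.takeUntil v hv).mapLe hle)).trans ?_)
  rw [SimpleGraph.Walk.length_mapLe]
  exact w.length_takeUntil_le_length hv

omit [Fintype O] in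
theorem edge_of_inE {S : Finset (Γ × O)} {η : Finset (Sym2 (Γ × O))} (hη : η ⊆ inE E.nb S) :
    ∀ e ∈ η, e ∈ E.G.edgeSet := fun _ he => ((inE_iff E.hl).1 (hη he)).1

/-- A short walk only uses the edges of the ball. -/
theorem hitN_inter {S : Finset (Γ × O)} {η : Finset (Sym2 (Γ × O))} (hη : η ⊆ inE E.nb S)
    {T : Set (Γ × O)} {k R : ℕ} {a c : Γ × O} (hc : E.cyl a k ⊆ E.cyl c R) :
    HitN T k a (η ∩ inE E.nb (E.cyl c R)) ↔ HitN T k a η := by
  refine ⟨inc_hitN T k a _ _ inter_subset_left, ?_⟩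
  rintro ⟨t, ht, w, hw⟩
  refine ⟨t, ht, w.transfer _ (fun e he => ?_), by simpa using hw⟩
  have h := w.edges_subset_edgeSet he
  rw [SimpleGraph.edgeSet_fromEdgeSet] at h ⊢
  exact ⟨mem_inter.2 ⟨h.1, (inE_iff E.hl).2 ⟨((inE_iff E.hl).1 (hη h.1)).1, fun v hv =>
    hc (E.window_mono a hw (E.walk_mem_cyl (E.edge_of_inE hη) w
      (w.mem_support_of_mem_edges he hv)))⟩⟩, h.2⟩

theorem fibN_inter {S : Finset (Γ × O)} {η : Finset (Sym2 (Γ × O))} (hη : η ⊆ inE E.nb S)
    {k R : ℕ} {a c : Γ × O} (hc : E.cyl a k ⊆ E.cyl c R) :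
    E.fibN k a (η ∩ inE E.nb (E.cyl c R)) = E.fibN k a η := by
  simp only [fibN, ← hitN_single, E.hitN_inter hη hc]

omit [Fintype O] in
theorem fibN_tr (γ : Γ) (k : ℕ) (a : Γ × O) (η : Finset (Sym2 (Γ × O))) :
    E.fibN k (tr γ a) (η.image (Sym2.map (tr γ))) = E.fibN k a η := by
  rw [fibN, fibN, ← Set.ncard_image_of_injective
    {y | E.pos y = E.pos a ∧ Within a k η y} (tr_injective γ)]
  congr 1
  ext y
  obtain ⟨s, rfl⟩ := (trIso E.hinv γ).surjective y
  have h := hitN_map_iff (trIso E.hinv γ) η k {trIso E.hinv γ s} a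
  rw [show (trIso E.hinv γ) ⁻¹' {trIso E.hinv γ s} = {s} from Set.ext fun x =>
    (trIso E.hinv γ).injective.eq_iff] at h
  simp only [Set.mem_ofPred_eq, trIso_apply, (tr_injective γ).mem_set_image]
  rw [E.pos_tr, E.pos_tr, mul_right_inj]
  exact and_congr Iff.rfl (hitN_single.symm.trans (h.trans hitN_single))

/-- Kernel transport: a cluster with few points over its start is rarely joined to two far targets. -/
theorem transportN (hp0 : 0 ≤ p) (hp1 : p ≤ 1) {k Λ : ℕ} (a : Γ × O) {w w' : List (α × Bool)}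
    (hdis : ∀ y, y ∈ E.above (E.pos a) w → y ∉ E.above (E.pos a) w') {B : ℝ} (hB0 : 0 ≤ B)
    (hwB : ∀ z₀, ∀ z ∈ E.cyl z₀ (2 * k), ((E.pos a * mk w')⁻¹ * E.pos z).norm ≤ E.L →
      hit E.nb (E.outer (E.cyl z₀ (2 * k)) (E.pos a) w' z) p z (E.above (E.pos a) w) ≤ B) :
    avg (inE E.nb (E.cyl a (4 * k))) p (fun η => ind (HitN (E.above (E.pos a) w) k a η ∧
      HitN (E.above (E.pos a) w') k a η ∧ E.fibN (2 * k) a η < Λ))
      ≤ ((ballF (α := α) E.L).card * Fintype.card O : ℕ) * ((Λ : ℝ) * B) := by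
  classical
  set x := E.pos a with hx
  set T := E.above x w
  set K := E.above x w'
  set J : Γ × O → Finset (Sym2 (Γ × O)) → Prop := fun z η =>
    FXZ.Hit T z (η ∩ inE E.nb (E.outer (E.cyl z (2 * k)) x w' z))
  set m : Γ × O → Γ × O → Finset (Sym2 (Γ × O)) → Prop := fun a z η =>
    E.fibN (2 * k) a η < Λ ∧ HitN {z} k a η ∧ J z η
  -- one gate for each class
  choose lift hlift using fun s : FreeGroup α => E.surj (x * mk w' * s)
  set Z₀ : Finset (Γ × O) := (ballF (α := α) E.L ×ˢ (univ : Finset O)).image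
    fun q => (lift q.1, q.2)
  set cls : Γ × O → Γ × O := fun z => (lift ((x * mk w')⁻¹ * E.pos z), z.2)
  set Zg := (E.cyl a k).filter fun z => ((x * mk w')⁻¹ * E.pos z).norm ≤ E.L
  have hcls : ∀ z ∈ Zg, cls z ∈ Z₀ := fun z hz =>
    mem_image.2 ⟨(_, z.2), mem_product.2 ⟨mem_ballF (mem_filter.1 hz).2, mem_univ _⟩, rfl⟩
  -- every configuration of the event has a gate
  have hgate : avg (inE E.nb (E.cyl a (4 * k))) p (fun η => ind (HitN T k a η ∧ HitN K k a η ∧
      E.fibN (2 * k) a η < Λ))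
      ≤ ∑ z ∈ Zg, avg (inE E.nb (E.cyl a (4 * k))) p fun η => ind (m a z η) := by
    rw [← avg_sum]
    refine avg_mono _ hp0 hp1 fun η hη => ?_
    by_cases hev : HitN T k a η ∧ HitN K k a η ∧ E.fibN (2 * k) a η < Λ
    swap
    · rw [show ind (HitN T k a η ∧ HitN K k a η ∧ E.fibN (2 * k) a η < Λ) = 0 from if_neg hev]
      exact sum_nonneg fun _ _ => ind_nonneg _
    obtain ⟨hT, hK, hsmall⟩ := hev
    obtain ⟨y, x', hy, hx', he, -, hya, t, ht, σ, hσl, hσ⟩ := two_hits_gate hdis hT hK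
    have hG := E.edge_of_inE hη
    have hyc : y ∈ E.cyl a k := by
      obtain ⟨y', rfl, w, hw⟩ := hya
      exact E.window_mono a hw (E.walk_mem_cyl hG w w.end_mem_support)
    have hyZ : y ∈ Zg :=
      mem_filter.2 ⟨hyc, (E.cross (hG _ he).symm hx' hy).le⟩
    have hJ : J y η := by
      refine ⟨t, ht, cl_of_walk σ fun f hf => ?_⟩
      have hfη : f ∈ η := by
        have h := σ.edges_subset_edgeSet hf
        rw [SimpleGraph.edgeSet_fromEdgeSet] at h
        exact mem_coe.1 h.1
      refine mem_inter.2 ⟨hfη, (inE_iff E.hl).2 ⟨hG f hfη, fun v hv => ?_⟩⟩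
      have hvs := σ.mem_support_of_mem_edges hf hv
      exact mem_filter.2 ⟨E.window_mono y hσl (E.walk_mem_cyl hG σ hvs), (hσ v hvs).symm⟩
    exact (ind_mono fun _ => ⟨hsmall, hya, hJ⟩).trans
      (single_le_sum (f := fun z => ind (m a z η)) (fun _ _ => ind_nonneg _) hyZ)
  -- translate every gate to the one of its class
  set f : Γ × O → Γ × O := fun z => tr ((cls z).1 * z.1⁻¹) a
  set A : Γ × O → Finset (Γ × O) := fun z₀ =>
    (E.cyl z₀ k).filter fun a' => E.pos a' = x ∧ a'.2 = a.2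
  have htr : ∀ z ∈ Zg, avg (inE E.nb (E.cyl a (4 * k))) p (fun η => ind (m a z η)) =
      avg (inE E.nb (E.cyl (cls z) (5 * k))) p (fun η => ind (m (f z) (cls z) η)) := by
    intro z hz
    set g := (cls z).1 * z.1⁻¹ with hg
    have hgz : tr g z = cls z := Prod.ext (by simp [tr, g]) rfl
    have hπ : E.π g = 1 := by
      rw [hg, _root_.map_mul, _root_.map_inv, show E.π (cls z).1 = x * mk w' * ((x * mk w')⁻¹ * E.pos z) from hlift _, mul_inv_cancel_left]
      exact mul_inv_cancel _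
    have hin : tr g a ∈ E.cyl (cls z) k := by
      rw [← hgz, ← E.image_cyl g]
      exact mem_image_of_mem _ (E.window_comm.1 (mem_filter.1 hz).1)
    have hinj := Sym2.map.injective (tr_injective (O := O) g)
    have hsub : E.cyl (tr g a) (4 * k) ⊆ E.cyl (cls z) (5 * k) := fun v hv =>
      E.window_mono _ (by omega) (E.cyl_subset hin le_rfl hv)
    have hE : inE E.nb (E.cyl (tr g a) (4 * k)) =
        (inE E.nb (E.cyl a (4 * k))).image (Sym2.map (tr g)) := by
      rw [← E.image_cyl g]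
      exact inE_image E.hl (trIso E.hinv g) _
    -- the event only sees the ball of the translated start
    have hloc : avg (inE E.nb (E.cyl (cls z) (5 * k))) p (fun η => ind (m (f z) (cls z) η)) =
        avg (inE E.nb (E.cyl (tr g a) (4 * k))) p (fun η => ind (m (f z) (cls z) η)) := by
      rw [← avg_restrict (inE_mono E.hl hsub)]
      refine avg_congr _ _ fun η hη => ?_
      refine congrArg ind (propext ?_)
      simp only [m, J, f, ← hg]
      simp only [E.fibN_inter hη (E.window_mono (tr g a) (show 2 * k ≤ 4 * k by omega)),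
        E.hitN_inter hη (E.window_mono (tr g a) (show k ≤ 4 * k by omega)), inter_assoc]
      have hout : inE E.nb (E.cyl (tr g a) (4 * k)) ∩
          inE E.nb (E.outer (E.cyl (cls z) (2 * k)) x w' (cls z)) =
          inE E.nb (E.outer (E.cyl (cls z) (2 * k)) x w' (cls z)) := by
        refine inter_eq_right.2 (inE_mono E.hl fun v hv => ?_)
        exact E.window_mono _ (by omega) (E.cyl_subset (E.window_comm.1 hin) le_rfl (mem_filter.1 hv).1)
      rw [hout]
    rw [hloc, hE, avg_image _ hinj]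
    refine avg_congr _ _ fun η _ => congrArg ind (propext ?_)
    have hT' : ∀ v : List (α × Bool), (trIso E.hinv g) ⁻¹' E.above x v = E.above x v := fun v => by
      ext y
      show tr g y ∈ E.above x v ↔ _
      rw [E.tr_mem_above, hπ, inv_one, one_mul]
    have hout : inE E.nb (E.outer (E.cyl (cls z) (2 * k)) x w' (cls z)) =
        (inE E.nb (E.outer (E.cyl z (2 * k)) x w' z)).image (Sym2.map (tr g)) := by
      refine Eq.trans (congrArg (inE E.nb) ?_) (inE_image E.hl (trIso E.hinv g) _)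
      ext v
      obtain ⟨v, rfl⟩ := (trIso E.hinv g).surjective v
      rw [(trIso E.hinv g).injective.mem_finset_image, trIso_apply, outer, outer, mem_filter,
        mem_filter, ← hgz, ← E.image_cyl g, (tr_injective g).mem_finset_image,
        (tr_injective g).eq_iff, E.tr_mem_above, hπ, inv_one, one_mul]
    simp only [m, J, f, ← hg]
    rw [E.fibN_tr, hout, ← image_inter _ _ hinj]
    have h1 : HitN {cls z} k (tr g a) (η.image (Sym2.map (tr g))) ↔ HitN {z} k a η := by
      have h := hitN_map_iff (trIso E.hinv g) η k {cls z} a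
      rw [show (trIso E.hinv g) ⁻¹' {cls z} = {z} from Set.ext fun y => by
        show tr g y = cls z ↔ y = z
        rw [← hgz, (tr_injective g).eq_iff]] at h
      exact h
    have h2 : ∀ ξ : Finset (Sym2 (Γ × O)),
        FXZ.Hit T (cls z) (ξ.image (Sym2.map (tr g))) ↔ FXZ.Hit T z ξ := fun ξ => by
      have hmap := hit_map_iff (trIso E.hinv g) ξ T z
      rw [hT'] at hmap
      rw [← hgz]
      exact hmap
    exact (and_congr Iff.rfl (and_congr h1 (h2 _))).symm
  -- the starts sent to one gate are few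
  have hcount : ∀ z₀ ∈ Z₀, ∑ z ∈ Zg.filter (fun z => cls z = z₀),
      avg (inE E.nb (E.cyl a (4 * k))) p (fun η => ind (m a z η)) ≤ (Λ : ℝ) * B := by
    intro z₀ hz₀
    set V := inE E.nb (E.cyl z₀ (5 * k))
    have hinjf : Set.InjOn f ↑(Zg.filter fun z => cls z = z₀) := by
      intro z hz z' hz' h
      rw [mem_coe, mem_filter] at hz hz'
      have h1 := congrArg Prod.fst h
      simp only [f, tr, hz.2, hz'.2] at h1
      have h2 : z.1 = z'.1 := inv_injective (mul_left_cancel (mul_right_cancel h1))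
      exact Prod.ext h2 ((congrArg Prod.snd hz.2).trans (congrArg Prod.snd hz'.2).symm)
    have hAm : (Zg.filter fun z => cls z = z₀).image f ⊆ A z₀ := by
      intro a' ha'
      obtain ⟨z, hz, rfl⟩ := mem_image.1 ha'
      obtain ⟨hz1, rfl⟩ := mem_filter.1 hz
      have hgz : tr ((cls z).1 * z.1⁻¹) z = cls z := Prod.ext (by simp [tr]) rfl
      refine mem_filter.2 ⟨?_, ?_, rfl⟩
      · rw [← hgz, ← E.image_cyl]
        exact mem_image_of_mem _ (E.window_comm.1 (mem_filter.1 hz1).1)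
      · rw [E.pos_tr, _root_.map_mul, _root_.map_inv, show E.π (cls z).1 = x * mk w' * ((x * mk w')⁻¹ * E.pos z) from hlift _, mul_inv_cancel_left]
        exact (congrArg (· * E.pos a) (mul_inv_cancel (E.π z.1))).trans (one_mul _)
    calc ∑ z ∈ Zg.filter (fun z => cls z = z₀),
          avg (inE E.nb (E.cyl a (4 * k))) p (fun η => ind (m a z η))
        = ∑ a' ∈ (Zg.filter fun z => cls z = z₀).image f, avg V p (fun η => ind (m a' z₀ η)) := by
          rw [sum_image hinjf]
          refine sum_congr rfl fun z hz => ?_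
          rw [htr z (mem_filter.1 hz).1, (mem_filter.1 hz).2]
      _ ≤ ∑ a' ∈ A z₀, avg V p (fun η => ind (m a' z₀ η)) :=
          sum_le_sum_of_subset_of_nonneg hAm fun _ _ _ =>
            avg_nonneg _ hp0 hp1 fun _ _ => ind_nonneg _
      _ ≤ avg V p (fun η => (Λ : ℝ) * ind (J z₀ η)) := by
          rw [← avg_sum]
          refine avg_mono _ hp0 hp1 fun η hη => ?_
          by_cases hJ : J z₀ η
          swap
          · refine le_of_eq_of_le (sum_eq_zero fun a' _ => if_neg fun h => hJ h.2.2)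
              (mul_nonneg (Nat.cast_nonneg _) (ind_nonneg _))
          rw [show ind (J z₀ η) = 1 from if_pos hJ, mul_one]
          by_cases hex : ∃ a₀ ∈ A z₀, m a₀ z₀ η
          swap
          · refine le_of_eq_of_le (sum_eq_zero fun a' ha' => if_neg fun h => hex ⟨a', ha', h⟩)
              (Nat.cast_nonneg _)
          obtain ⟨a₀, hA₀, hs₀, hh₀, -⟩ := hex
          simp only [ind, sum_boole]
          refine Nat.cast_le.2 (le_trans ?_ hs₀.le)
          rw [← Set.ncard_coe_finset]
          refine Set.ncard_le_ncard (fun a' ha' => ?_) ?_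
          · simp only [coe_filter, Set.mem_ofPred_eq] at ha'
            obtain ⟨hA', -, hh', -⟩ := ha'
            refine ⟨(mem_filter.1 hA').2.1.trans (mem_filter.1 hA₀).2.1.symm, ?_⟩
            rw [two_mul]
            exact hitN_single.1 (hitN_join hh₀ (hitN_symm hh'))
          · refine (E.cyl a₀ (2 * k)).finite_toSet.subset fun y hy => ?_
            obtain ⟨w, hw⟩ := hy.2
            exact E.window_mono a₀ hw (E.walk_mem_cyl (E.edge_of_inE hη) w w.end_mem_support)
      _ ≤ (Λ : ℝ) * B := by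
          rw [avg_mul]
          refine mul_le_mul_of_nonneg_left ?_ (Nat.cast_nonneg _)
          refine (avg_inter_le V _ hp0 hp1 (monotone_ind (inc_hit T z₀))).trans ?_
          refine hwB z₀ z₀ (E.self_mem_cyl z₀ _) ?_
          obtain ⟨⟨s, o⟩, hs, rfl⟩ := mem_image.1 hz₀
          show ((x * mk w')⁻¹ * E.π (lift s)).norm ≤ E.L
          rw [hlift, inv_mul_cancel_left]
          exact mem_ballF_iff.1 (mem_product.1 hs).1
  refine hgate.trans ?_
  rw [← sum_fiberwise_of_maps_to hcls]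
  refine (sum_le_card_nsmul _ _ _ hcount).trans ?_
  rw [nsmul_eq_mul]
  refine mul_le_mul_of_nonneg_right (Nat.cast_le.2 (card_image_le.trans ?_))
    (mul_nonneg (Nat.cast_nonneg _) hB0)
  rw [card_product, card_univ]

end Vale.Agent.P165.FP.Base
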