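import Vale.Agent.P165.FP.Tail

/-!
# The cheapest targets over a code-compatible family of fibres

The code bound sums the targets of all fibres at once, so the cheapest target of every fibre costs
about the inverse of the number of targets.
-/

namespace Vale.Agent.P165.FP.Base

open Finset FF FreeGroup Vale.Agent.P165.FP

variable {Γ O ι α : Type} [Group Γ] [Fintype ι] [DecidableEq α] [Fintype α] [Fintype O]
  [DecidableEq Γ] [DecidableEq O] (E : Base Γ O ι α) {p : ℝ}

/-- The code bound over all targets of all fibres, whatever the windows. -/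
theorem exists_target_sum (hp0 : 0 < p) (hp1 : p ≤ 1) {θ' : ℝ} (hθ' : 0 < θ') (hθ'1 : θ' ≤ 1)
    (hbound : E.Bound p θ') (C : ℕ) :
    ∃ C2 : ℝ, 0 ≤ C2 ∧ ∀ (m : α × Bool) (a : Γ × O), a ∈ E.above 1 [m] →
      (E.pos a).norm ≤ E.L + 1 → ∀ (Q : Finset (FreeGroup α)) (ext : FreeGroup α → α × Bool),
      (∀ x ∈ Q, [m] <+: x.toWord ∧ Red (x.toWord ++ [ext x])) →
      Set.InjOn (fun x => x.toWord ++ [ext x]) Q →
      PrefixFree (Q.image fun x => x.toWord ++ [ext x]) →
      ∀ (W : α × Bool → Finset (List (α × Bool))), (∀ e, PrefixFree (W e)) →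
      (∀ e, ∀ w ∈ W e, Red w ∧ w.head? = some e) →
      ∀ (S : FreeGroup α → Finset (Γ × O)), (∀ x ∈ Q, ∀ y ∈ S x,
        y ∈ E.above 1 [m] ∨ y ∈ E.above x [ext x] ∨ (x⁻¹ * E.pos y).norm ≤ C) →
        ∑ x ∈ Q, ∑ w ∈ W (ext x), hit E.nb (S x) p a (E.above x w) ^ θ' ≤ C2 := by
  classical
  set n₀ := C + 1 with hn₀
  obtain ⟨C2, hC2, hcode⟩ := E.code_hit hp0 hp1 hθ' hθ'1 hbound (n₀ + E.L + 1)
  refine ⟨C2, hC2, fun m a ha hna Q ext hQ hinj hpf W hWpf hWhead S hS => ?_⟩
  set qb : FreeGroup α := FreeGroup.mk (List.replicate n₀ (li m))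
  have hqb : qb.toWord = List.replicate n₀ (li m) := toWord_mk' (red_replicate _ _)
  have hqbv : ∀ y : FreeGroup α, (qb⁻¹ * y).toWord = rel (List.replicate n₀ (li m)) y.toWord :=
    fun y => by rw [toWord_inv_mul, hqb]
  have hside : ∀ y : FreeGroup α, ¬ List.replicate n₀ (li m) <+: y.toWord →
      [m] <+: (qb⁻¹ * y).toWord := by
    intro y hy
    have hh := head_rel_of_not_prefix hy
    rw [li_li] at hh
    rw [hqbv]
    obtain ⟨r, hr⟩ := List.head?_eq_some_iff.1 hh
    rw [hr]
    exact List.cons_prefix_cons.2 ⟨rfl, List.nil_prefix⟩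
  have hheadm : ∀ y : List (α × Bool), [m] <+: y → y.head? = some m := fun y hy => by
    obtain ⟨r, rfl⟩ := hy; rfl
  have hout : ∀ y : List (α × Bool), [m] <+: y → ¬ List.replicate n₀ (li m) <+: y := by
    intro y hy hb
    obtain ⟨r, rfl⟩ := hb
    have := hheadm _ hy
    simp only [hn₀, List.replicate_succ, List.cons_append, List.head?_cons, Option.some.injEq] at this
    exact li_ne m this
  set word : (_ : FreeGroup α) × List (α × Bool) → List (α × Bool) := fun s =>
    List.replicate n₀ m ++ (s.1.toWord ++ s.2)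
  set I := Q.sigma fun x => W (ext x)
  have hI : ∀ s ∈ I, Red (s.1.toWord ++ s.2) ∧ [m] <+: s.1.toWord ∧
      s.2.head? = some (ext s.1) := by
    intro s hs
    rw [mem_sigma] at hs
    obtain ⟨hs1, hs2⟩ := hs
    obtain ⟨hQ1, hQ2⟩ := hQ _ hs1
    obtain ⟨hw1, hw2⟩ := hWhead _ _ hs2
    obtain ⟨r, hr⟩ := List.head?_eq_some_iff.1 hw2
    refine ⟨red_append.2 ⟨red_toWord _, hw1, fun u hu v hv => ?_⟩, hQ1, hw2⟩
    rw [hw2, Option.mem_def, Option.some.injEq] at hv
    subst hv
    exact (red_append.1 hQ2).2.2 u hu _ (by simp)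
  have hpre : ∀ s ∈ I, ∀ s' ∈ I, word s <+: word s' → s = s' := by
    rintro ⟨x, w⟩ hs ⟨x', w'⟩ hs' hpre
    obtain ⟨-, -, hh⟩ := hI _ hs
    obtain ⟨-, -, hh'⟩ := hI _ hs'
    rw [mem_sigma] at hs hs'
    simp only [word, List.prefix_append_right_inj] at hpre
    obtain ⟨r, hr⟩ := List.head?_eq_some_iff.1 hh
    obtain ⟨r', hr'⟩ := List.head?_eq_some_iff.1 hh'
    simp only at hr hr'
    have h1 : x.toWord ++ [ext x] <+: x'.toWord ++ w' :=
      (List.prefix_append_right_inj _ |>.2 (by rw [hr]; exact List.cons_prefix_cons.2 ⟨rfl, List.nil_prefix⟩)).trans hpre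
    have h2 : x'.toWord ++ [ext x'] <+: x'.toWord ++ w' := by
      rw [hr']
      exact (List.prefix_append_right_inj _).2 (List.cons_prefix_cons.2 ⟨rfl, List.nil_prefix⟩)
    have hx : x = x' := by
      rcases List.prefix_or_prefix_of_prefix h1 h2 with h3 | h3
      · exact hinj hs.1 hs'.1 (hpf _ (mem_image_of_mem _ hs.1) _ (mem_image_of_mem _ hs'.1) h3)
      · exact (hinj hs'.1 hs.1 (hpf _ (mem_image_of_mem _ hs'.1) _ (mem_image_of_mem _ hs.1) h3)).symm
    subst hx
    rw [hWpf _ w hs.2 w' hs'.2 ((List.prefix_append_right_inj _).1 hpre)]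
  set inv := Function.invFunOn word (↑I : Set ((_ : FreeGroup α) × List (α × Bool)))
  have hinv : ∀ s ∈ I, inv (word s) = s := fun s hs =>
    Set.InjOn.leftInvOn_invFunOn (fun u hu v hv e => hpre u hu v hv (by rw [e])) (mem_coe.2 hs)
  have hpf' : PrefixFree (I.image word) := by
    intro u hu v hv huv
    obtain ⟨s, hs, rfl⟩ := mem_image.1 hu
    obtain ⟨s', hs', rfl⟩ := mem_image.1 hv
    rw [hpre s hs s' hs' huv]
  have hred : ∀ v ∈ I.image word, Red v ∧ v.head? = some m := by
    intro v hv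
    obtain ⟨s, hs, rfl⟩ := mem_image.1 hv
    obtain ⟨h1, h2, -⟩ := hI s hs
    have hhd : (s.1.toWord ++ s.2).head? = some m :=
      hheadm _ (h2.trans (List.prefix_append _ _))
    refine ⟨red_append.2 ⟨red_replicate _ _, h1, fun u hu v hv => ?_⟩, ?_⟩
    · rw [hhd, Option.mem_def, Option.some.injEq] at hv
      subst hv
      rw [List.getLast?_replicate, if_neg (Nat.succ_ne_zero C), Option.mem_def,
        Option.some.injEq] at hu
      subst hu
      exact (li_ne _).symm
    · simp [word, hn₀, List.replicate_succ]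
  have key := (hcode m (I.image word) hpf' hred (fun _ => qb) (fun _ => a)
    (fun v => S (inv v).1) fun v hv => ?_).1
  · rw [sum_image fun s hs s' hs' e => hpre s hs s' hs' (by rw [e]), sum_sigma] at key
    refine le_trans (sum_le_sum fun x hx => sum_le_sum fun w hw => ?_) key
    have hmem : (⟨x, w⟩ : (_ : FreeGroup α) × List (α × Bool)) ∈ I := mem_sigma.2 ⟨hx, hw⟩
    rw [hinv _ hmem]
    refine Real.rpow_le_rpow (hit_nonneg _ hp0.le hp1 _ _) (hit_mono E.hl Subset.rfl
      (fun y hy => ?_) hp0.le hp1 _) hθ'.le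
    change word ⟨x, w⟩ <+: (qb⁻¹ * E.pos y).toWord
    change w <+: (x⁻¹ * E.pos y).toWord at hy
    obtain ⟨h1, h2, h3⟩ := hI _ hmem
    simp only at h1 h2 h3
    set u := x⁻¹ * E.pos y with hu
    have he : E.pos y = FreeGroup.mk x.toWord * u := by rw [mk_toWord, hu, mul_inv_cancel_left]
    have hred : Red (x.toWord ++ u.toWord) := red_append.2 ⟨red_toWord _, red_toWord _,
      fun s hs v hv => (red_append.1 h1).2.2 s hs v (by
        obtain ⟨r, hr⟩ := hy
        obtain ⟨r', hr'⟩ := List.head?_eq_some_iff.1 h3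
        rw [← hr, hr'] at hv
        rw [h3]
        simpa using hv)⟩
    rw [hqbv, he, toWord_append hred, rel_replicate_of_head, li_li]
    · exact (List.prefix_append_right_inj _).2 ((List.prefix_append_right_inj _).2 hy)
    · rw [hheadm _ (h2.trans (List.prefix_append _ _))]
      exact fun e => li_ne m (Option.some.inj e).symm
  · obtain ⟨s, hs, rfl⟩ := mem_image.1 hv
    rw [hinv s hs]
    refine ⟨fun y hy => hside _ fun hb => ?_, hside _ (hout _ (E.mem_above_one.1 ha)), ?_⟩
    · obtain ⟨h1, h2, h3⟩ := hI s hs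
      rw [mem_sigma] at hs
      rcases hS _ hs.1 y hy with hc' | hc' | hc'
      · exact hout _ (E.mem_above_one.1 hc') hb
      · refine hout _ ?_ hb
        set u := s.1⁻¹ * E.pos y with hu
        have he : E.pos y = FreeGroup.mk s.1.toWord * u := by
          rw [mk_toWord, hu, mul_inv_cancel_left]
        have hred : Red (s.1.toWord ++ u.toWord) := red_append.2 ⟨red_toWord _, red_toWord _,
          fun t ht v hv => (red_append.1 h1).2.2 t ht v (by
            obtain ⟨r, hr⟩ := (hc' : [ext s.1] <+: u.toWord)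
            rw [h3]
            rw [← hr] at hv
            simpa using hv)⟩
        rw [he, toWord_append hred]
        exact h2.trans (List.prefix_append _ _)
      · have h4 := norm_ge_of_head (red_toWord s.1) (y := E.pos y) fun u hu v hv e => by
          obtain ⟨r, hr⟩ := hb
          rw [hheadm _ h2, Option.mem_def, Option.some.injEq] at hu
          rw [← hr] at hv
          simp only [hn₀, List.replicate_succ, List.cons_append, List.head?_cons, Option.mem_def,
            Option.some.injEq] at hv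
          exact li_ne m (by rw [hv, ← e, hu])
        rw [mk_toWord] at h4
        have h5 := hb.length_le
        rw [List.length_replicate] at h5
        simp only [FreeGroup.norm] at h4 hc' h5
        omega
    · refine (FreeGroup.norm_mul_le _ _).trans ?_
      rw [FreeGroup.norm_inv_eq]
      have : qb.norm = n₀ := by rw [FreeGroup.norm, hqb, List.length_replicate]
      omega

/-- The cheapest target of every fibre, raised by a power slightly below the inverse number. -/
theorem exists_cheap_targets (hp0 : 0 < p) (hp1 : p ≤ 1) {θ θ' δ κ : ℝ} (hθ' : 0 < θ')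
    (hθ'1 : θ' ≤ 1) (hratio : θ' * (1 - δ) ≤ θ) (hκ : 0 < κ) (hbound : E.Bound p θ') (C : ℕ) :
    ∃ K : ℝ, 0 ≤ K ∧ ∀ (m : α × Bool) (a : Γ × O), a ∈ E.above 1 [m] →
      (E.pos a).norm ≤ E.L + 1 → ∀ (Q : Finset (FreeGroup α)) (ext : FreeGroup α → α × Bool),
      (∀ x ∈ Q, [m] <+: x.toWord ∧ Red (x.toWord ++ [ext x])) →
      Set.InjOn (fun x => x.toWord ++ [ext x]) Q →
      PrefixFree (Q.image fun x => x.toWord ++ [ext x]) →
      ∀ (L : ℕ), 1 ≤ L → ∀ (W : α × Bool → Finset (List (α × Bool))), (∀ e, PrefixFree (W e)) →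
      (∀ e, ∀ w ∈ W e, Red w ∧ w.head? = some e) → (∀ e, κ * (L : ℝ) ^ θ ≤ (W e).card) →
      ∀ (S : FreeGroup α → Finset (Γ × O)), (∀ x ∈ Q, ∀ y ∈ S x,
        y ∈ E.above 1 [m] ∨ y ∈ E.above x [ext x] ∨ (x⁻¹ * E.pos y).norm ≤ C) →
        ∃ w : FreeGroup α → List (α × Bool), (∀ x, w x ∈ W (ext x)) ∧
          ∑ x ∈ Q, hit E.nb (S x) p a (E.above x (w x)) ≤ K * (L : ℝ) ^ (δ - 1) := by
  classical
  obtain ⟨C2, hC2, hsum⟩ := E.exists_target_sum hp0 hp1 hθ' hθ'1 hbound C
  refine ⟨(max (C2 / κ) 1) ^ (1 / θ'), by positivity,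
    fun m a ha hna Q ext hQ hinj hpf L hL W hWpf hWhead hWcard S hS => ?_⟩
  have hL0 : (0 : ℝ) < L := by exact_mod_cast hL
  have hWne : ∀ e, (W e).Nonempty := fun e => card_pos.1 (by
    exact_mod_cast (mul_pos hκ (Real.rpow_pos_of_pos hL0 θ)).trans_le (hWcard e))
  let h : FreeGroup α → List (α × Bool) → ℝ := fun x w => hit E.nb (S x) p a (E.above x w)
  choose w hwmem hwmin using fun x => exists_min_image (W (ext x)) (h x) (hWne (ext x))
  refine ⟨w, hwmem, ?_⟩
  have hB' : ∑ x ∈ Q, h x (w x) ^ θ' ≤ max (C2 / κ) 1 * (L : ℝ) ^ (-θ) := by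
    rw [Real.rpow_neg hL0.le, ← div_eq_mul_inv, le_div_iff₀ (Real.rpow_pos_of_pos hL0 θ), sum_mul]
    refine le_trans ?_ (le_max_left _ _)
    rw [le_div_iff₀ hκ, sum_mul]
    refine le_trans (sum_le_sum fun x _ => ?_)
      (hsum m a ha hna Q ext hQ hinj hpf W hWpf hWhead S hS)
    have h0 : 0 ≤ h x (w x) := hit_nonneg _ hp0.le hp1 _ _
    refine le_trans ?_ (le_trans (le_of_eq (nsmul_eq_mul _ _).symm) (card_nsmul_le_sum _ _
      (h x (w x) ^ θ') fun v hv => Real.rpow_le_rpow h0 (hwmin x v hv) hθ'.le))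
    rw [mul_assoc, mul_comm]
    refine mul_le_mul_of_nonneg_right ?_ (Real.rpow_nonneg h0 _)
    rw [mul_comm]
    exact hWcard (ext x)
  refine (sum_le_rpow Q hθ' hθ'1 (fun x _ => hit_nonneg _ hp0.le hp1 _ _) hB').trans ?_
  rw [Real.mul_rpow (by positivity) (by positivity), ← Real.rpow_mul hL0.le]
  refine mul_le_mul_of_nonneg_left ?_ (by positivity)
  refine Real.rpow_le_rpow_of_exponent_le (by exact_mod_cast hL) ?_
  rw [mul_one_div, div_le_iff₀ hθ']
  linarith

end Vale.Agent.P165.FP.Base
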